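import Mathlib

/-!
# A Picone identity for functions vanishing at both ends of an interval

If `f` vanishes at `m ± h` then `∫ f'² = k² ∫ f² + ∫ (f' + k tan (k (t - m)) f)²` with
`k = π / (2 h)`.
-/

noncomputable section

namespace Vale.Agent.P128.Bonnet

open MeasureTheory Filter Set intervalIntegral
open scoped Topology

/-- The square deficit in the Picone identity. -/
def piconeRest (f f' : ℝ → ℝ) (m k t : ℝ) : ℝ := f' t + k * Real.tan (k * (t - m)) * f t

/-- Cauchy–Schwarz for a function vanishing at an end. -/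
lemma sq_le_mul_integral {f f' : ℝ → ℝ} {p q : ℝ} (hpq : p ≤ q) {s : Set ℝ} (hs : s.Countable)
    (hc : ContinuousOn f (Icc p q)) (hd : ∀ t ∈ Ioo p q \ s, HasDerivAt f (f' t) t)
    (hi : IntervalIntegrable f' volume p q)
    (hi2 : IntervalIntegrable (fun t => f' t ^ 2) volume p q) :
    (f q - f p) ^ 2 ≤ (q - p) * ∫ t in p..q, f' t ^ 2 := by
  rw [← integral_eq_of_hasDerivAt_off_countable_of_le f f' hpq hs hc hd hi]
  rcases hpq.eq_or_lt with rfl | hlt
  · simp
  set I := ∫ t in p..q, f' t
  set L := I / (q - p)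
  have h0 : 0 ≤ ∫ t in p..q, (f' t - L) ^ 2 :=
    intervalIntegral.integral_nonneg hpq fun t _ => sq_nonneg _
  have e : ∫ t in p..q, (f' t - L) ^ 2 = (∫ t in p..q, f' t ^ 2) - 2 * L * I + (q - p) * L ^ 2 := by
    simp only [sub_sq]
    rw [intervalIntegral.integral_add (hi2.sub ((hi.const_mul 2).mul_const L))
      intervalIntegrable_const, intervalIntegral.integral_sub hi2 ((hi.const_mul 2).mul_const L),
      intervalIntegral.integral_mul_const, intervalIntegral.integral_const_mul,
      intervalIntegral.integral_const, smul_eq_mul]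
    simp only [I]
    ring
  rw [e] at h0
  have hL : I = L * (q - p) := (div_mul_cancel₀ _ (sub_ne_zero.2 hlt.ne')).symm
  have hq : 0 ≤ q - p := by linarith
  rw [hL] at h0 ⊢
  have := mul_nonneg hq h0
  linarith

/-- `tan` near a quarter turn. -/
lemma mul_tan_le {x : ℝ} (h0 : 0 < x) (h1 : x ≤ Real.pi / 2) :
    x * |Real.tan (Real.pi / 2 - x)| ≤ 1 := by
  rcases h1.eq_or_lt with rfl | h1
  · simp
  rw [Real.tan_pi_div_two_sub, abs_inv,
    abs_of_pos (Real.tan_pos_of_pos_of_lt_pi_div_two h0 h1)]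
  rw [← div_eq_mul_inv, div_le_one (Real.tan_pos_of_pos_of_lt_pi_div_two h0 h1)]
  exact Real.le_tan h0.le h1

/-- **Picone.** -/
theorem picone {f f' : ℝ → ℝ} {m h k : ℝ} (hh : 0 < h) (hk : k * h = Real.pi / 2) {s : Set ℝ}
    (hs : s.Countable) (hc : ContinuousOn f (Icc (m - h) (m + h))) (h0 : f (m - h) = 0)
    (h1 : f (m + h) = 0) (hd : ∀ t ∈ Ioo (m - h) (m + h) \ s, HasDerivAt f (f' t) t)
    (hi : IntervalIntegrable f' volume (m - h) (m + h))
    (hi2 : IntervalIntegrable (fun t => f' t ^ 2) volume (m - h) (m + h)) :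
    IntervalIntegrable (fun t => piconeRest f f' m k t ^ 2) volume (m - h) (m + h) ∧
      ∫ t in (m - h)..(m + h), f' t ^ 2 = k ^ 2 * (∫ t in (m - h)..(m + h), f t ^ 2) +
        ∫ t in (m - h)..(m + h), piconeRest f f' m k t ^ 2 := by
  have hk0 : 0 < k := pos_of_mul_pos_left (hk ▸ Real.pi_div_two_pos) hh.le
  set p := m - h with hp
  set q := m + h with hq
  have hpq : p < q := by simp only [hp, hq]; linarith
  have hcos : ∀ t ∈ Ioo p q, 0 < Real.cos (k * (t - m)) := by
    intro t ht
    refine Real.cos_pos_of_mem_Ioo ⟨?_, ?_⟩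
    · have := mul_lt_mul_of_pos_left (show -h < t - m by linarith [ht.1]) hk0
      linarith
    · have := mul_lt_mul_of_pos_left (show t - m < h by linarith [ht.2]) hk0
      linarith
  set F : ℝ → ℝ := fun t => k * Real.tan (k * (t - m)) * f t ^ 2 with hF
  set T : ℝ → ℝ := fun t => piconeRest f f' m k t ^ 2 with hT
  set G : ℝ → ℝ := fun t => f' t ^ 2 - k ^ 2 * f t ^ 2 with hG
  have hif2 : IntervalIntegrable (fun t => f t ^ 2) volume p q :=
    (hc.pow 2).intervalIntegrable_of_Icc hpq.le
  have hGi : IntervalIntegrable G volume p q := hi2.sub (hif2.const_mul _)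
  -- the identity away from the ends
  set a : ℕ → ℝ := fun j => p + h / ((j : ℝ) + 1) with ha
  set b : ℕ → ℝ := fun j => q - h / ((j : ℝ) + 1) with hb
  have hsub : ∀ j, p < a j ∧ a j ≤ b j ∧ b j < q := fun j => by
    have h2 : 0 < h / ((j : ℝ) + 1) := by positivity
    have h3 : h / ((j : ℝ) + 1) ≤ h := div_le_self hh.le (by simp)
    simp only [ha, hb, hp, hq]
    exact ⟨by linarith, by linarith, by linarith⟩
  have hlim : Tendsto a atTop (𝓝 p) ∧ Tendsto b atTop (𝓝 q) := by
    have h2 := (tendsto_one_div_add_atTop_nhds_zero_nat (𝕜 := ℝ)).const_mul h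
    simp only [mul_one_div, mul_zero] at h2
    exact ⟨by simpa [ha] using h2.const_add p, by simpa [hb] using h2.const_sub q⟩
  have hpart : ∀ j, IntegrableOn T (Ioc (a j) (b j)) ∧
      ∫ t in (a j)..(b j), T t = (∫ t in (a j)..(b j), G t) + (F (b j) - F (a j)) := by
    intro j
    obtain ⟨h2, h3, h4⟩ := hsub j
    have hI : Icc (a j) (b j) ⊆ Ioo p q := fun t ht => ⟨h2.trans_le ht.1, ht.2.trans_lt h4⟩
    have hsubI : uIcc (a j) (b j) ⊆ uIcc p q := by
      rw [uIcc_of_le h3, uIcc_of_le hpq.le]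
      exact fun t ht => Ioo_subset_Icc_self (hI ht)
    have htan : ContinuousOn (fun t => k * Real.tan (k * (t - m))) (Icc (a j) (b j)) := by
      refine continuousOn_const.mul (fun t ht => ?_)
      exact (ContinuousAt.comp (g := Real.tan) (f := fun t => k * (t - m))
        (Real.continuousAt_tan.2 (hcos t (hI ht)).ne') (by fun_prop)).continuousWithinAt
    have hcj : ContinuousOn f (Icc (a j) (b j)) := hc.mono (hI.trans Ioo_subset_Icc_self)
    have hTi : IntervalIntegrable T volume (a j) (b j) := by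
      have e : T = fun t => f' t ^ 2 + 2 * (k * Real.tan (k * (t - m)) * f t) * f' t +
          (k * Real.tan (k * (t - m)) * f t) ^ 2 := by
        funext t; simp only [hT, piconeRest]; ring
      rw [e]
      refine ((hi2.mono_set hsubI).add ?_).add (((htan.mul hcj).pow 2).intervalIntegrable_of_Icc h3)
      refine (hi.mono_set hsubI).continuousOn_mul ?_
      rw [uIcc_of_le h3]
      exact continuousOn_const.mul (htan.mul hcj)
    refine ⟨hTi.1, ?_⟩
    have hFd : ∀ t ∈ Ioo (a j) (b j) \ s, HasDerivAt F (T t - G t) t := by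
      rintro t ⟨ht, hts⟩
      have ht' := hI (Ioo_subset_Icc_self ht)
      have hco := (hcos t ht').ne'
      have d1 : HasDerivAt (fun t => k * (t - m)) k t := by
        simpa using ((hasDerivAt_id t).sub_const m).const_mul k
      have d2 := ((Real.hasDerivAt_tan hco).comp t d1).const_mul k
      refine (d2.mul ((hd t ⟨ht', hts⟩).fun_pow 2)).congr_deriv ?_
      simp only [hT, hG, piconeRest, Function.comp_apply]
      have e := Real.inv_one_add_tan_sq hco
      rw [one_div, ← e, inv_inv]
      ring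
    have h5 := integral_eq_of_hasDerivAt_off_countable_of_le F (fun t => T t - G t) h3 hs
      (htan.mul (hcj.pow 2)) hFd (hTi.sub (hGi.mono_set hsubI))
    rw [intervalIntegral.integral_sub hTi (hGi.mono_set hsubI)] at h5
    linarith
  -- the boundary terms vanish
  have hcp : ContinuousOn (fun y => ∫ t in p..y, f' t ^ 2) (Icc p q) :=
    continuousOn_primitive_interval (by rw [uIcc_of_le hpq.le]; exact (intervalIntegrable_iff_integrableOn_Icc_of_le hpq.le).1 hi2) |>.mono
      (by rw [uIcc_of_le hpq.le])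
  have hFab : Tendsto (fun j => |F (a j)| + |F (b j)|) atTop (𝓝 0) := by
    have hbound : ∀ j, |F (a j)| + |F (b j)| ≤
        (∫ t in p..(a j), f' t ^ 2) + ((∫ t in p..q, f' t ^ 2) - ∫ t in p..(b j), f' t ^ 2) := by
      intro j
      obtain ⟨h2, h3, h4⟩ := hsub j
      have key : ∀ x, 0 < x → x ≤ h →
          |k * Real.tan (k * (h - x))| * x ≤ 1 ∧ |k * Real.tan (k * (x - h))| * x ≤ 1 := by
        intro x hx hxh
        have h5 := mul_tan_le (mul_pos hk0 hx) (hk ▸ mul_le_mul_of_nonneg_left hxh hk0.le)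
        rw [show k * (x - h) = -(k * (h - x)) by ring, Real.tan_neg, mul_neg, abs_neg, and_self,
          abs_mul, abs_of_pos hk0, mul_sub, hk]
        linarith
      have hx0 : 0 < h / ((j : ℝ) + 1) := by positivity
      have hxh : h / ((j : ℝ) + 1) ≤ h := div_le_self hh.le (by simp)
      obtain ⟨k1, k2⟩ := key _ hx0 hxh
      have hA := sq_le_mul_integral (f := f) h2.le hs
        (hc.mono (Icc_subset_Icc_right (h3.trans h4.le)))
        (fun t ht => hd t ⟨⟨ht.1.1, ht.1.2.trans_le (h3.trans h4.le)⟩, ht.2⟩)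
        (hi.mono_set (by rw [uIcc_of_le h2.le, uIcc_of_le hpq.le]; exact Icc_subset_Icc_right (h3.trans h4.le)))
        (hi2.mono_set (by rw [uIcc_of_le h2.le, uIcc_of_le hpq.le]; exact Icc_subset_Icc_right (h3.trans h4.le)))
      have hB := sq_le_mul_integral (f := f) h4.le hs
        (hc.mono (Icc_subset_Icc_left (h2.le.trans h3)))
        (fun t ht => hd t ⟨⟨(h2.trans_le h3).trans ht.1.1, ht.1.2⟩, ht.2⟩)
        (hi.mono_set (by rw [uIcc_of_le h4.le, uIcc_of_le hpq.le]; exact Icc_subset_Icc_left (h2.le.trans h3)))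
        (hi2.mono_set (by rw [uIcc_of_le h4.le, uIcc_of_le hpq.le]; exact Icc_subset_Icc_left (h2.le.trans h3)))
      rw [h0, sub_zero] at hA
      rw [h1, zero_sub, neg_sq] at hB
      have hsplit : (∫ t in p..q, f' t ^ 2) - (∫ t in p..(b j), f' t ^ 2) = ∫ t in (b j)..q, f' t ^ 2 :=
        intervalIntegral.integral_interval_sub_left hi2
          (hi2.mono_set (by rw [uIcc_of_le (h2.le.trans h3), uIcc_of_le hpq.le]; exact Icc_subset_Icc_right h4.le))
      rw [hsplit]
      have hnn1 : 0 ≤ ∫ t in p..(a j), f' t ^ 2 :=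
        intervalIntegral.integral_nonneg h2.le fun t _ => sq_nonneg _
      have hnn2 : 0 ≤ ∫ t in (b j)..q, f' t ^ 2 :=
        intervalIntegral.integral_nonneg h4.le fun t _ => sq_nonneg _
      refine add_le_add ?_ ?_
      · simp only [hF, abs_mul, abs_pow, sq_abs]
        rw [← abs_mul, show a j - m = h / ((j : ℝ) + 1) - h by simp only [ha, hp]; ring]
        refine le_trans (mul_le_mul_of_nonneg_left hA (abs_nonneg _)) ?_
        rw [← mul_assoc, show a j - p = h / ((j : ℝ) + 1) by simp only [ha]; ring]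
        exact mul_le_of_le_one_left hnn1 k2
      · simp only [hF, abs_mul, abs_pow, sq_abs]
        rw [← abs_mul, show b j - m = h - h / ((j : ℝ) + 1) by simp only [hb, hq]; ring]
        refine le_trans (mul_le_mul_of_nonneg_left hB (abs_nonneg _)) ?_
        rw [← mul_assoc, show q - b j = h / ((j : ℝ) + 1) by simp only [hb]; ring]
        exact mul_le_of_le_one_left hnn2 k1
    have hin : ∀ x : ℕ → ℝ, (∀ j, x j ∈ Icc p q) → ∀ y ∈ Icc p q, Tendsto x atTop (𝓝 y) →
        Tendsto (fun j => ∫ t in p..(x j), f' t ^ 2) atTop (𝓝 (∫ t in p..y, f' t ^ 2)) :=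
      fun x hx y hy hxy => ((hcp y hy).tendsto.comp
        (tendsto_nhdsWithin_iff.2 ⟨hxy, Eventually.of_forall hx⟩))
    have l1 := hin a (fun j => ⟨(hsub j).1.le, (hsub j).2.1.trans (hsub j).2.2.le⟩) p
      (left_mem_Icc.2 hpq.le) hlim.1
    have l2 := hin b (fun j => ⟨(hsub j).1.le.trans (hsub j).2.1, (hsub j).2.2.le⟩) q
      (right_mem_Icc.2 hpq.le) hlim.2
    rw [intervalIntegral.integral_same] at l1
    have l3 := l1.add (tendsto_const_nhds (x := ∫ t in p..q, f' t ^ 2) |>.sub l2)
    rw [sub_self, add_zero] at l3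
    exact squeeze_zero (fun j => by positivity) hbound l3
  obtain ⟨B, hB⟩ := hFab.bddAbove_range
  have hTint : IntegrableOn T (Ioc p q) := by
    refine integrableOn_Ioc_of_intervalIntegral_norm_bounded
      (I := (∫ t in p..q, f' t ^ 2) + B) (fun j => (hpart j).1) hlim.1 hlim.2
      (Eventually.of_forall fun j => ?_)
    obtain ⟨h2, h3, h4⟩ := hsub j
    have hsubI : uIcc (a j) (b j) ⊆ uIcc p q := by
      rw [uIcc_of_le h3, uIcc_of_le hpq.le]
      exact Icc_subset_Icc h2.le h4.le
    have e : (∫ t in Ioc (a j) (b j), ‖T t‖) = ∫ t in (a j)..(b j), T t := by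
      rw [intervalIntegral.integral_of_le h3]
      exact integral_congr_ae (Eventually.of_forall fun t => Real.norm_of_nonneg (sq_nonneg _))
    rw [e, (hpart j).2]
    have h5 : |F (a j)| + |F (b j)| ≤ B := hB ⟨j, rfl⟩
    have h6 : ∫ t in (a j)..(b j), G t ≤ ∫ t in (a j)..(b j), f' t ^ 2 :=
      intervalIntegral.integral_mono_on h3 (hGi.mono_set hsubI) (hi2.mono_set hsubI) fun t _ => by
        simp only [hG]
        linarith [mul_nonneg (sq_nonneg k) (sq_nonneg (f t))]
    have h7 : ∫ t in (a j)..(b j), f' t ^ 2 ≤ ∫ t in p..q, f' t ^ 2 :=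
      intervalIntegral.integral_mono_interval h2.le h3 h4.le
        (Eventually.of_forall fun t => sq_nonneg _) hi2
    linarith [le_abs_self (F (b j)), neg_abs_le (F (a j))]
  have hTI : IntervalIntegrable T volume p q := (intervalIntegrable_iff_integrableOn_Ioc_of_le hpq.le).2 hTint
  refine ⟨hTI, ?_⟩
  have conv : ∀ H : ℝ → ℝ, IntervalIntegrable H volume p q →
      Tendsto (fun j => ∫ t in (a j)..(b j), H t) atTop (𝓝 (∫ t in p..q, H t)) := by
    intro H hH
    have hcH : ContinuousOn (fun y => ∫ t in p..y, H t) (Icc p q) :=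
      continuousOn_primitive_interval (by rw [uIcc_of_le hpq.le]; exact (intervalIntegrable_iff_integrableOn_Icc_of_le hpq.le).1 hH) |>.mono
        (by rw [uIcc_of_le hpq.le])
    have m1 : ∀ j, a j ∈ Icc p q ∧ b j ∈ Icc p q := fun j =>
      ⟨⟨(hsub j).1.le, (hsub j).2.1.trans (hsub j).2.2.le⟩,
        ⟨(hsub j).1.le.trans (hsub j).2.1, (hsub j).2.2.le⟩⟩
    have la := (hcH p (left_mem_Icc.2 hpq.le)).tendsto.comp
      (tendsto_nhdsWithin_iff.2 ⟨hlim.1, Eventually.of_forall fun j => (m1 j).1⟩)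
    have lb := (hcH q (right_mem_Icc.2 hpq.le)).tendsto.comp
      (tendsto_nhdsWithin_iff.2 ⟨hlim.2, Eventually.of_forall fun j => (m1 j).2⟩)
    have := lb.sub la
    simp only [Function.comp_def, intervalIntegral.integral_same, sub_zero] at this
    refine this.congr fun j => intervalIntegral.integral_interval_sub_left ?_ ?_
    · exact hH.mono_set (by rw [uIcc_of_le (m1 j).2.1, uIcc_of_le hpq.le]; exact Icc_subset_Icc_right (m1 j).2.2)
    · exact hH.mono_set (by rw [uIcc_of_le (m1 j).1.1, uIcc_of_le hpq.le]; exact Icc_subset_Icc_right (m1 j).1.2)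
  have hF0 : Tendsto (fun j => F (b j) - F (a j)) atTop (𝓝 0) :=
    squeeze_zero_norm (fun j => (abs_sub _ _).trans (le_of_eq (add_comm _ _))) hFab
  have huniq := tendsto_nhds_unique ((conv T hTI).congr fun j => (hpart j).2) ((conv G hGi).add hF0)
  rw [add_zero, show G = fun t => f' t ^ 2 - k ^ 2 * f t ^ 2 from hG,
    intervalIntegral.integral_sub hi2 (hif2.const_mul _), intervalIntegral.integral_const_mul] at huniq
  linarith

/-- Wirtinger with the length of the interval. -/
theorem wirtinger {f f' : ℝ → ℝ} {p q : ℝ} (hpq : p < q) {s : Set ℝ}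
    (hs : s.Countable) (hc : ContinuousOn f (Icc p q)) (h0 : f p = 0)
    (h1 : f q = 0) (hd : ∀ t ∈ Ioo p q \ s, HasDerivAt f (f' t) t)
    (hi : IntervalIntegrable f' volume p q)
    (hi2 : IntervalIntegrable (fun t => f' t ^ 2) volume p q) :
    (Real.pi / (q - p)) ^ 2 * (∫ t in p..q, f t ^ 2) ≤ ∫ t in p..q, f' t ^ 2 := by
  have hp : (p + q) / 2 - (q - p) / 2 = p := by ring
  have hq : (p + q) / 2 + (q - p) / 2 = q := by ring
  have hk : Real.pi / (q - p) * ((q - p) / 2) = Real.pi / 2 := by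
    field_simp [sub_ne_zero.2 hpq.ne']
  have := picone (f := f) (f' := f') (m := (p + q) / 2) (h := (q - p) / 2) (by linarith) hk hs
    (by rwa [hp, hq]) (by rwa [hp]) (by rwa [hq]) (by rwa [hp, hq]) (by rwa [hp, hq])
    (by rwa [hp, hq])
  rw [hp, hq] at this
  rw [this.2]
  linarith [intervalIntegral.integral_nonneg (μ := volume) hpq.le
    fun t _ => sq_nonneg (piconeRest f f' ((p + q) / 2) (Real.pi / (q - p)) t)]

end Vale.Agent.P128.Bonnet
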