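import Vale.Agent.P128.Bonnet.Interface
import Vale.Agent.P128.Bonnet.Picone
import Vale.Agent.P128.Classify.Monotone
import Vale.Agent.P128.Connected.Assembly
import Vale.Agent.P128.Connected.Continua
import Vale.Agent.P128.Connected.Cover
import Vale.Agent.P128.Connected.Potential

/-!
# The monotonicity deficit on circles through the singular set

With the conjugate potential `v`, zero on `K`, write on a circle of radius `r` through `z ∈ K`
`f = v`, `a` the radial and `b = f'/r` the tangential derivative. Picone's identity turns the gap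
between `tang + nor` and `En / r` into `∫ (a - f / 2 r)² + ∫ P² / r²`, which controls the stress
and the equipartition.
-/

noncomputable section

namespace Vale.Agent.P128.Bonnet

open MeasureTheory Filter Metric Set Islands Connected
open Classify (Pot radial angular dissip)
open scoped Topology ENNReal NNReal

/-- The potential vanishing on the connected singular set. -/
lemma Conn.exists_pot {u : ℂ → ℝ} {K : Set ℂ} (h : Conn u K) :
    ∃ v : ℂ → ℝ, Pot v K ∧ (∀ y ∉ K, grad v y = rgrad u y) ∧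
      ∀ c r, dissip v c r = En u c r := by
  obtain ⟨v, hvc, hvs, hvg⟩ := potentialGoal u K h.reg h.density
  obtain ⟨y₀, hy₀⟩ : K.Nonempty := nonempty_iff_ne_empty.2 fun he =>
    h.unbounded (he ▸ Bornology.isBounded_empty)
  have hunb : ∀ y ∈ K, ¬ Bornology.IsBounded (connectedComponentIn K y) := fun y hy => by
    rw [h.connected.connectedComponentIn hy]; exact h.unbounded
  have hg : ∀ y ∉ K, grad (fun z => v z - v y₀) y = rgrad u y := fun y hy => by
    rw [← hvg y hy]
    simp [grad, fderiv_sub_const]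
  have hp := Classify.pot_of_reg (v := fun z => v z - v y₀) h.reg (hvc.sub continuous_const)
    (hvs.sub contDiffOn_const) hg fun y hy => by
      rw [constant_on_component coverGoal continuumGoal curveConstantGoal h.reg h.density hunb
        hvc hvs hvg hy₀ (show y ∈ connectedComponentIn K y₀ by
          rw [h.connected.connectedComponentIn hy₀]; exact hy)]
      exact sub_self _
  exact ⟨_, hp.1, hg, hp.2⟩

/-- The energy divided by the radius increases. -/
theorem monotoneGoal (_hP : PolarGoal) (_hD : DeficitGoal) : MonotoneGoal := by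
  intro u K x h hx
  obtain ⟨v, hv, -, hE⟩ := h.exists_pot
  refine (hv.monotone_dissip fun s hs => Classify.exists_dist_eq h.connected h.unbounded hx hs).congr
    fun r _ => ?_
  simp [hE]

/-- A circle integral over any period. -/
lemma circ_eq_integral {g : ℂ → ℝ} {H : ℝ → ℝ} (x : ℂ) (r p : ℝ)
    (he : ∀ᵐ θ : ℝ, g (circleMap x r θ) = H θ) :
    circ g x r = r * ∫ θ in p..(p + 2 * Real.pi), H θ := by
  have hper : Function.Periodic (fun θ => g (circleMap x r θ)) (2 * Real.pi) :=
    fun θ => congrArg g (periodic_circleMap x r θ)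
  rw [circ, ← intervalIntegral.integral_of_le (by linarith [Real.pi_pos]),
    ← intervalIntegral.integral_congr_ae (he.mono fun θ hθ _ => hθ),
    hper.intervalIntegral_add_eq p (-Real.pi),
    show -Real.pi + 2 * Real.pi = Real.pi by ring]

lemma dir_circleMap (x : ℂ) {r : ℝ} (hr : 0 < r) (θ : ℝ) :
    dir x (circleMap x r θ) = ⟨Real.cos θ, Real.sin θ⟩ := by
  have e : circleMap x r θ - x = (r : ℂ) * Complex.exp (θ * Complex.I) := by simp [circleMap]
  rw [dir, e, norm_mul, Complex.norm_exp_ofReal_mul_I, mul_one, Complex.norm_real,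
    Real.norm_eq_abs, abs_of_pos hr]
  apply Complex.ext <;>
    simp [Complex.exp_ofReal_mul_I_re, Complex.exp_ofReal_mul_I_im, hr.ne']

/-- The integrands on a circle in terms of the potential; `m` is the angle opposite to `z`. -/
lemma integrands_eq {u v : ℂ → ℝ} (x : ℂ) {r : ℝ} (hr : 0 < r) (θ m : ℝ)
    (hg : grad v (circleMap x r θ) = rgrad u (circleMap x r θ)) :
    dot (grad u (circleMap x r θ)) (Complex.I * dir x (circleMap x r θ)) ^ 2
        = radial v x (circleMap x r θ) ^ 2 ∧
      dot (grad u (circleMap x r θ)) (dir x (circleMap x r θ)) ^ 2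
        = (angular v x r θ / r) ^ 2 ∧
      ‖grad u (circleMap x r θ)‖ ^ 2 * dot (dir x (circleMap x r θ)) ⟨Real.cos m, Real.sin m⟩ -
          2 * dot (grad u (circleMap x r θ)) (dir x (circleMap x r θ)) *
            dot (grad u (circleMap x r θ)) ⟨Real.cos m, Real.sin m⟩
        = radial v x (circleMap x r θ) ^ 2 + (angular v x r θ / r) ^ 2 -
          2 * (Real.sin ((θ - m) / 2) * radial v x (circleMap x r θ) +
            Real.cos ((θ - m) / 2) * (angular v x r θ / r)) ^ 2 := by
  have e : circleMap x r θ - x = (r : ℂ) * Complex.exp (θ * Complex.I) := by simp [circleMap]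
  have hdir := dir_circleMap x hr θ
  have hrad : radial v x (circleMap x r θ) =
      -(grad u (circleMap x r θ)).im * Real.cos θ + (grad u (circleMap x r θ)).re * Real.sin θ := by
    show dot (grad v (circleMap x r θ)) (dir x (circleMap x r θ)) = _
    rw [hdir, hg]
    simp [dot, rgrad]
  have hang : angular v x r θ / r =
      (grad u (circleMap x r θ)).re * Real.cos θ + (grad u (circleMap x r θ)).im * Real.sin θ := by
    rw [angular, hg, e]
    simp [dot, rgrad, Complex.exp_ofReal_mul_I_re, Complex.exp_ofReal_mul_I_im]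
    field_simp
    ring
  rw [hrad, hang, hdir]
  refine ⟨?_, ?_, ?_⟩
  · simp [dot]; ring
  · simp [dot]
  · have hs : Real.sin (θ - m) = 2 * Real.sin ((θ - m) / 2) * Real.cos ((θ - m) / 2) := by
      rw [← Real.sin_two_mul]; ring_nf
    have hc : Real.cos (θ - m) = 2 * Real.cos ((θ - m) / 2) ^ 2 - 1 := by
      rw [← Real.cos_two_mul]; ring_nf
    have h1 := Real.sin_sq_add_cos_sq ((θ - m) / 2)
    have h2 := Real.sin_sq_add_cos_sq θ
    have hm1 : Real.cos m = Real.cos θ * Real.cos (θ - m) + Real.sin θ * Real.sin (θ - m) := by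
      rw [← Real.cos_sub, sub_sub_cancel]
    have hm2 : Real.sin m = Real.sin θ * Real.cos (θ - m) - Real.cos θ * Real.sin (θ - m) := by
      rw [← Real.sin_sub, sub_sub_cancel]
    simp only [norm_sq_eq_dot, dot]
    rw [hm1, hm2, hs, hc]
    set n := Real.sin ((θ - m) / 2)
    set c := Real.cos ((θ - m) / 2)
    set g₁ := (grad u (circleMap x r θ)).re
    set g₂ := (grad u (circleMap x r θ)).im
    set C := Real.cos θ
    set S := Real.sin θ
    linear_combination (2 * (g₁ * S - g₂ * C) ^ 2) * h1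

/-- The functions on one circle: `f` the potential, `f'` its derivative in the angle, `a` the
radial derivative; `f` vanishes at the two ends `m ± π`. -/
structure CircleData (f f' a : ℝ → ℝ) (S : Set ℝ) (m r : ℝ) : Prop where
  pos : 0 < r
  cont : Continuous f
  count : S.Countable
  deriv : ∀ θ ∉ S, HasDerivAt f (f' θ) θ
  left : f (m - Real.pi) = 0
  right : f (m + Real.pi) = 0
  meas : Measurable a
  meas' : Measurable f'
  intA : ∀ s t, IntervalIntegrable (fun θ => a θ ^ 2) volume s t
  intB : ∀ s t, IntervalIntegrable (fun θ => f' θ ^ 2) volume s t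

/-- The part of the stress which is not the energy on the circle. -/
def momentum (f' a : ℝ → ℝ) (m r θ : ℝ) : ℝ :=
  (Real.sin ((θ - m) / 2) * a θ + Real.cos ((θ - m) / 2) * (f' θ / r)) ^ 2

section

variable {f f' a : ℝ → ℝ} {S : Set ℝ} {m r : ℝ}

lemma CircleData.int1 (h : CircleData f f' a S m r) (s t : ℝ) :
    IntervalIntegrable f' volume s t :=
  ((intervalIntegrable_const (c := (1 : ℝ))).add (h.intB s t)).mono_fun'
    h.meas'.aestronglyMeasurable (Eventually.of_forall fun θ => by
      simp only [Real.norm_eq_abs]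
      nlinarith [sq_abs (f' θ), sq_nonneg (|f' θ| - 1 / 2)])

lemma CircleData.intFA (h : CircleData f f' a S m r) (s t : ℝ) :
    IntervalIntegrable (fun θ => f θ * a θ) volume s t :=
  (((h.cont.pow 2).intervalIntegrable s t).add (h.intA s t)).mono_fun'
    (h.cont.measurable.mul h.meas).aestronglyMeasurable (Eventually.of_forall fun θ => by
      simp only [Real.norm_eq_abs, Pi.pow_apply, abs_mul]
      nlinarith [sq_nonneg (|f θ| - |a θ|), sq_abs (f θ), sq_abs (a θ)])

lemma CircleData.intF (h : CircleData f f' a S m r) (s t : ℝ) :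
    IntervalIntegrable (fun θ => f θ ^ 2) volume s t := (h.cont.pow 2).intervalIntegrable s t

lemma CircleData.intB' (h : CircleData f f' a S m r) (s t : ℝ) :
    IntervalIntegrable (fun θ => (f' θ / r) ^ 2) volume s t := by
  simpa only [div_pow] using (h.intB s t).div_const (r ^ 2)

lemma CircleData.quad (h : CircleData f f' a S m r) (l : ℝ) :
    0 ≤ (∫ θ in (m - Real.pi)..(m + Real.pi), f θ ^ 2) * (l * l) +
      (-2 * ∫ θ in (m - Real.pi)..(m + Real.pi), f θ * a θ) * l +
      ∫ θ in (m - Real.pi)..(m + Real.pi), a θ ^ 2 := by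
  have h0 : 0 ≤ ∫ θ in (m - Real.pi)..(m + Real.pi),
      (l ^ 2 * f θ ^ 2 - 2 * l * (f θ * a θ) + a θ ^ 2) :=
    intervalIntegral.integral_nonneg (by linarith [Real.pi_pos]) fun θ _ => by
      linarith [sq_nonneg (l * f θ - a θ)]
  rw [intervalIntegral.integral_add (((h.intF _ _).const_mul _).sub ((h.intFA _ _).const_mul _))
      (h.intA _ _),
    intervalIntegral.integral_sub ((h.intF _ _).const_mul _) ((h.intFA _ _).const_mul _),
    intervalIntegral.integral_const_mul, intervalIntegral.integral_const_mul] at h0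
  linarith

lemma CircleData.picone_eq (h : CircleData f f' a S m r) :
    IntervalIntegrable (fun θ => piconeRest f f' m (1 / 2) θ ^ 2) volume
        (m - Real.pi) (m + Real.pi) ∧
      r ^ 2 * (∫ θ in (m - Real.pi)..(m + Real.pi), (f' θ / r) ^ 2) =
        1 / 4 * (∫ θ in (m - Real.pi)..(m + Real.pi), f θ ^ 2) +
          ∫ θ in (m - Real.pi)..(m + Real.pi), piconeRest f f' m (1 / 2) θ ^ 2 := by
  obtain ⟨h1, h2⟩ := picone (f := f) (f' := f') (m := m) (h := Real.pi) (k := 1 / 2) Real.pi_pos
    (by ring) h.count h.cont.continuousOn h.left h.right (fun θ hθ => h.deriv θ hθ.2)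
    (h.int1 _ _) (h.intB _ _)
  refine ⟨h1, ?_⟩
  have hr := h.pos
  rw [← intervalIntegral.integral_const_mul,
    intervalIntegral.integral_congr (g := fun θ => f' θ ^ 2) fun θ _ => by field_simp]
  linarith

lemma momentum_le {f f' a : ℝ → ℝ} {m r θ : ℝ} (hr : 0 < r)
    (hc : Real.cos ((θ - m) / 2) ≠ 0) :
    momentum f' a m r θ ≤ (a θ - f θ / (2 * r)) ^ 2 + piconeRest f f' m (1 / 2) θ ^ 2 / r ^ 2 := by
  simp only [momentum, piconeRest]
  have h1 := Real.sin_sq_add_cos_sq ((θ - m) / 2)
  rw [show Real.tan ((1 : ℝ) / 2 * (θ - m)) = Real.sin ((θ - m) / 2) / Real.cos ((θ - m) / 2) by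
    rw [Real.tan_eq_sin_div_cos, show (1 : ℝ) / 2 * (θ - m) = (θ - m) / 2 by ring]]
  generalize Real.sin ((θ - m) / 2) = n at *
  generalize Real.cos ((θ - m) / 2) = c at *
  generalize f θ = F
  generalize f' θ = G
  generalize a θ = b
  rw [show n * b + c * (G / r)
    = n * (b - F / (2 * r)) + c * ((G + 1 / 2 * (n / c) * F) / r) by field_simp; ring, ← div_pow]
  generalize b - F / (2 * r) = A
  generalize (G + 1 / 2 * (n / c) * F) / r = P
  have h2 : (n * A + c * P) ^ 2 + (c * A - n * P) ^ 2 = (n ^ 2 + c ^ 2) * (A ^ 2 + P ^ 2) := by ring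
  rw [h1, one_mul] at h2
  linarith [sq_nonneg (c * A - n * P)]

lemma CircleData.int_momentum (h : CircleData f f' a S m r) (s t : ℝ) :
    IntervalIntegrable (momentum f' a m r) volume s t := by
  refine (((h.intA s t).add (h.intB' s t)).const_mul 2).mono_fun' ?_
    (Eventually.of_forall fun θ => ?_)
  · exact (((Real.continuous_sin.comp (by fun_prop)).measurable.mul h.meas).add
      ((Real.continuous_cos.comp (by fun_prop)).measurable.mul
        (h.meas'.div_const r))).pow_const 2 |>.aestronglyMeasurable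
  · simp only [momentum, Real.norm_eq_abs]
    rw [abs_of_nonneg (sq_nonneg _)]
    have h1 := Real.sin_sq_le_one ((θ - m) / 2)
    have h2 := Real.cos_sq_le_one ((θ - m) / 2)
    generalize Real.sin ((θ - m) / 2) = n at *
    generalize Real.cos ((θ - m) / 2) = c at *
    generalize f' θ / r = G
    generalize a θ = b
    linarith [sq_nonneg (n * b - c * G), mul_le_mul_of_nonneg_right h1 (sq_nonneg b),
      mul_le_mul_of_nonneg_right h2 (sq_nonneg G), show (n * b + c * G) ^ 2 + (n * b - c * G) ^ 2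
        = 2 * (n ^ 2 * b ^ 2) + 2 * (c ^ 2 * G ^ 2) by ring]

/-- The gap, the stress and the equipartition on one circle. -/
theorem CircleData.bounds (h : CircleData f f' a S m r) (Ia Ib If : ℝ)
    (hIa : Ia = ∫ θ in (m - Real.pi)..(m + Real.pi), a θ ^ 2)
    (hIb : Ib = ∫ θ in (m - Real.pi)..(m + Real.pi), (f' θ / r) ^ 2)
    (hIf : If = ∫ θ in (m - Real.pi)..(m + Real.pi), f θ * a θ) :
    If ≤ r * Ia + r * Ib ∧
      r * Ia + r * Ib - 4 * (r * Ia + r * Ib - If) ≤
        r * ∫ θ in (m - Real.pi)..(m + Real.pi),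
          (a θ ^ 2 + (f' θ / r) ^ 2 - 2 * momentum f' a m r θ) ∧
      |r * Ia - r * Ib| ≤ 4 * Real.sqrt ((r * Ia + r * Ib) * (r * Ia + r * Ib - If)) := by
  obtain ⟨iP, hP⟩ := h.picone_eq
  have hr := h.pos
  have hquad := h.quad
  rw [← hIa, ← hIf] at hquad
  rw [← hIb] at hP
  set p := m - Real.pi with hp
  set q := m + Real.pi with hq
  have hpq : p ≤ q := by rw [hp, hq]; linarith [Real.pi_pos]
  set Iff := ∫ θ in p..q, f θ ^ 2
  set IP := ∫ θ in p..q, piconeRest f f' m (1 / 2) θ ^ 2 with hIP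
  have iA : IntervalIntegrable (fun θ => (a θ - f θ / (2 * r)) ^ 2) volume p q := by
    refine (((h.intA p q).sub ((h.intFA p q).const_mul r⁻¹)).add
      ((h.intF p q).const_mul (1 / (4 * r ^ 2)))).congr fun θ _ => ?_
    field_simp
    ring
  have hA : ∫ θ in p..q, (a θ - f θ / (2 * r)) ^ 2 = Ia - r⁻¹ * If + 1 / (4 * r ^ 2) * Iff := by
    rw [intervalIntegral.integral_congr (g := fun θ => a θ ^ 2 - r⁻¹ * (f θ * a θ) +
        1 / (4 * r ^ 2) * f θ ^ 2) fun θ _ => by field_simp; ring,
      intervalIntegral.integral_add ((h.intA p q).sub ((h.intFA p q).const_mul _))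
        ((h.intF p q).const_mul _),
      intervalIntegral.integral_sub (h.intA p q) ((h.intFA p q).const_mul _),
      intervalIntegral.integral_const_mul, intervalIntegral.integral_const_mul, ← hIa, ← hIf]
  have hD : r * ((∫ θ in p..q, (a θ - f θ / (2 * r)) ^ 2) + IP / r ^ 2)
      = r * Ia + r * Ib - If := by
    rw [hA, show r * Ib = (r ^ 2 * Ib) / r by field_simp, hP]
    field_simp
    ring
  have hA0 : 0 ≤ ∫ θ in p..q, (a θ - f θ / (2 * r)) ^ 2 :=
    intervalIntegral.integral_nonneg hpq fun θ _ => sq_nonneg _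
  have hIP0 : 0 ≤ IP := intervalIntegral.integral_nonneg hpq fun θ _ => sq_nonneg _
  have hD0 : 0 ≤ r * Ia + r * Ib - If := by
    rw [← hD]; exact mul_nonneg hr.le (add_nonneg hA0 (div_nonneg hIP0 (sq_nonneg r)))
  have hQ : ∫ θ in p..q, momentum f' a m r θ ≤
      (∫ θ in p..q, (a θ - f θ / (2 * r)) ^ 2) + IP / r ^ 2 := by
    rw [hIP, ← intervalIntegral.integral_div, ← intervalIntegral.integral_add iA
      (iP.div_const _)]
    refine intervalIntegral.integral_mono_ae hpq (h.int_momentum p q) (iA.add (iP.div_const _)) ?_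
    have hcne : ∀ᵐ θ : ℝ, Real.cos ((θ - m) / 2) ≠ 0 := by
      rw [ae_iff]
      refine ((countable_range fun k : ℤ => m + (2 * (k : ℝ) + 1) * Real.pi).mono
        fun θ hθ => ?_).measure_zero _
      obtain ⟨k, hk⟩ := Real.cos_eq_zero_iff.1 (not_not.1 hθ)
      exact ⟨k, by linarith⟩
    filter_upwards [hcne] with θ hθ using momentum_le hr hθ
  refine ⟨by linarith, ?_, ?_⟩
  · rw [intervalIntegral.integral_sub ((h.intA p q).add (h.intB' p q))
      ((h.int_momentum p q).const_mul 2), intervalIntegral.integral_add (h.intA p q) (h.intB' p q),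
      intervalIntegral.integral_const_mul, ← hIa, ← hIb]
    have := mul_le_mul_of_nonneg_left hQ hr.le
    linarith
  · have hIa0 : 0 ≤ Ia := hIa ▸ intervalIntegral.integral_nonneg hpq fun θ _ => sq_nonneg _
    have hIb0 : 0 ≤ Ib := hIb ▸ intervalIntegral.integral_nonneg hpq fun θ _ => sq_nonneg _
    have hcs : If ^ 2 ≤ Iff * Ia := by
      have := discrim_le_zero hquad
      rw [discrim] at this
      linarith
    have h1 : Iff * Ia ≤ 4 * (r ^ 2 * Ib) * Ia :=
      mul_le_mul_of_nonneg_right (by linarith) hIa0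
    rw [show (4 : ℝ) = Real.sqrt 16 by norm_num, ← Real.sqrt_mul (by norm_num)]
    refine Real.abs_le_sqrt ?_
    linarith [mul_nonneg (add_nonneg (mul_nonneg hr.le hIa0) (mul_nonneg hr.le hIb0)) hD0,
      sq_nonneg (r * Ia + r * Ib - If)]

/-- A second zero shortens the arcs. -/
theorem CircleData.two_zeros (h : CircleData f f' a S m r) (Ia Ib If : ℝ)
    (hIa : Ia = ∫ θ in (m - Real.pi)..(m + Real.pi), a θ ^ 2)
    (hIb : Ib = ∫ θ in (m - Real.pi)..(m + Real.pi), (f' θ / r) ^ 2)
    (hIf : If = ∫ θ in (m - Real.pi)..(m + Real.pi), f θ * a θ)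
    {θ₁ δ : ℝ} (hδ0 : 0 < δ) (h0 : f θ₁ = 0) (hl1 : δ ≤ θ₁ - (m - Real.pi))
    (hl2 : δ ≤ m + Real.pi - θ₁) :
    If ≤ (1 - δ / (2 * Real.pi)) * (r * Ia + r * Ib) := by
  have hr := h.pos
  have hquad := h.quad
  rw [← hIa, ← hIf] at hquad
  set p := m - Real.pi with hp
  set q := m + Real.pi with hq
  set Iff := ∫ θ in p..q, f θ ^ 2 with hIff
  set L := (2 * Real.pi - δ) / Real.pi with hL
  have hδπ : δ ≤ Real.pi := by linarith
  have hL0 : 0 < L := div_pos (by linarith [Real.pi_pos]) Real.pi_pos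
  have arc : ∀ s t, s < t → t - s ≤ 2 * Real.pi - δ → f s = 0 → f t = 0 →
      ∫ θ in s..t, f θ ^ 2 ≤ L ^ 2 * ∫ θ in s..t, f' θ ^ 2 := by
    intro s t hst hlen hs0 ht0
    have hw' := wirtinger (f := f) (f' := f') hst h.count h.cont.continuousOn hs0 ht0
      (fun θ hθ => h.deriv θ hθ.2) (h.int1 _ _) (h.intB _ _)
    have hpos : 0 ≤ ∫ θ in s..t, f' θ ^ 2 :=
      intervalIntegral.integral_nonneg hst.le fun θ _ => sq_nonneg _
    have hc : 0 < t - s := sub_pos.2 hst
    calc ∫ θ in s..t, f θ ^ 2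
        = ((t - s) / Real.pi) ^ 2 * ((Real.pi / (t - s)) ^ 2 * ∫ θ in s..t, f θ ^ 2) := by
          field_simp
      _ ≤ ((t - s) / Real.pi) ^ 2 * ∫ θ in s..t, f' θ ^ 2 :=
          mul_le_mul_of_nonneg_left hw' (sq_nonneg _)
      _ ≤ L ^ 2 * ∫ θ in s..t, f' θ ^ 2 := by
          refine mul_le_mul_of_nonneg_right (pow_le_pow_left₀ ?_ ?_ 2) hpos
          · positivity
          · exact (div_le_div_iff_of_pos_right Real.pi_pos).2 hlen
  have hb2 : ∫ θ in p..q, f' θ ^ 2 = r ^ 2 * Ib := by
    rw [hIb, ← intervalIntegral.integral_const_mul]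
    exact intervalIntegral.integral_congr fun θ _ => by field_simp
  have hW : Iff ≤ L ^ 2 * (r ^ 2 * Ib) := by
    rw [← hb2, hIff, ← intervalIntegral.integral_add_adjacent_intervals (h.intF p θ₁) (h.intF θ₁ q),
      ← intervalIntegral.integral_add_adjacent_intervals (h.intB p θ₁) (h.intB θ₁ q)]
    have e1 := arc p θ₁ (by linarith) (by linarith) h.left h0
    have e2 := arc θ₁ q (by linarith) (by linarith) h0 h.right
    linarith
  have h1 := hquad (1 / (L * r))
  have h2 : Iff * (1 / (L * r) * (1 / (L * r))) ≤ Ib := by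
    refine (mul_le_mul_of_nonneg_right hW (mul_self_nonneg _)).trans (le_of_eq ?_)
    field_simp
  have h3 : 2 * If / (L * r) ≤ Ia + Ib := by
    have e : 2 * If / (L * r) = 2 * If * (1 / (L * r)) := by ring
    linarith
  rw [div_le_iff₀ (mul_pos hL0 hr)] at h3
  have e : (1 - δ / (2 * Real.pi)) * (r * Ia + r * Ib) = (Ia + Ib) * (L * r) / 2 := by
    rw [hL]; field_simp
  linarith

end

/-- The computation on one circle through `z`. -/
theorem deficit_circle {u v : ℂ → ℝ} {K : Set ℂ} {x z : ℂ} {r : ℝ} (hv : Pot v K)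
    (hg : ∀ y ∉ K, grad v y = rgrad u y) (hr : 0 < r) (hz : z ∈ K ∩ sphere x r)
    (hfin : (K ∩ sphere x r).Finite)
    (hbd : En u x r = Classify.circ (fun y => v y * radial v x y) x r)
    (he : ∀ a b, IntervalIntegrable (fun θ => ‖grad v (circleMap x r θ)‖ ^ 2) volume a b) :
    En u x r / r ≤ tang u x r + nor u x r ∧
      tang u x r + nor u x r - 4 * (tang u x r + nor u x r - En u x r / r) ≤
          stress u x r (-dir x z) ∧
      |tang u x r - nor u x r| ≤ 4 * Real.sqrt
          ((tang u x r + nor u x r) * (tang u x r + nor u x r - En u x r / r)) ∧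
      ∀ w ∈ K ∩ sphere x r, ∀ δ ∈ Icc (0 : ℝ) 1, δ * r ≤ ‖w - z‖ →
        En u x r / r ≤ (1 - δ / (2 * Real.pi)) * (tang u x r + nor u x r) := by
  obtain ⟨θ₀, rfl⟩ : z ∈ range (circleMap x r) := by
    rw [range_circleMap, abs_of_pos hr]; exact hz.2
  obtain ⟨m, hm⟩ : ∃ m, m = θ₀ + Real.pi := ⟨_, rfl⟩
  have hmp : m - Real.pi = θ₀ := by rw [hm]; ring
  have hmq : m + Real.pi = θ₀ + 2 * Real.pi := by rw [hm]; ring
  have hS : (circleMap x r ⁻¹' (K ∩ sphere x r)).Countable :=
    hfin.countable.preimage_circleMap x hr.ne'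
  have hnot : ∀ θ ∉ circleMap x r ⁻¹' (K ∩ sphere x r), circleMap x r θ ∉ K := fun θ hθ hK =>
    hθ ⟨hK, by rw [mem_sphere, dist_eq_norm]; simp [circleMap, abs_of_pos hr]⟩
  have hae : ∀ᵐ θ : ℝ, θ ∉ circleMap x r ⁻¹' (K ∩ sphere x r) :=
    measure_eq_zero_iff_ae_notMem.1 (hS.measure_zero _)
  have hD : CircleData (fun θ => v (circleMap x r θ)) (angular v x r)
      (fun θ => radial v x (circleMap x r θ)) (circleMap x r ⁻¹' (K ∩ sphere x r)) m r :=
    { pos := hr
      cont := hv.cont.comp (continuous_circleMap x r)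
      count := hS
      deriv := fun θ hθ => Classify.circle_hasDerivAt hv x r θ (hnot θ hθ)
      left := by rw [hmp]; exact hv.zero _ hz.1
      right := by
        rw [hmq, periodic_circleMap x r θ₀]; exact hv.zero _ hz.1
      meas := (Classify.measurable_radial v x).comp (continuous_circleMap x r).measurable
      meas' := Classify.measurable_angular v x r
      intA := fun s t => Classify.intervalIntegrable_radial_sq (he s t)
      intB := fun s t => Classify.intervalIntegrable_angular_sq hr (he s t) }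
  obtain ⟨b1, b2, b3⟩ := hD.bounds _ _ _ rfl rfl rfl
  have ht : tang u x r =
      r * ∫ θ in (m - Real.pi)..(m + Real.pi), radial v x (circleMap x r θ) ^ 2 := by
    rw [hmp, hmq]
    exact circ_eq_integral x r θ₀
      (hae.mono fun θ hθ => (integrands_eq x hr θ m (hg _ (hnot θ hθ))).1)
  have hn : nor u x r =
      r * ∫ θ in (m - Real.pi)..(m + Real.pi), (angular v x r θ / r) ^ 2 := by
    rw [hmp, hmq]
    exact circ_eq_integral x r θ₀
      (hae.mono fun θ hθ => (integrands_eq x hr θ m (hg _ (hnot θ hθ))).2.1)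
  have hX : -dir x (circleMap x r θ₀) = ⟨Real.cos m, Real.sin m⟩ := by
    rw [dir_circleMap x hr, hm, Real.cos_add_pi, Real.sin_add_pi]
    rfl
  have hst : stress u x r (-dir x (circleMap x r θ₀)) =
      r * ∫ θ in (m - Real.pi)..(m + Real.pi),
        (radial v x (circleMap x r θ) ^ 2 + (angular v x r θ / r) ^ 2 -
          2 * momentum (angular v x r) (fun θ => radial v x (circleMap x r θ)) m r θ) := by
    rw [hmp, hmq]
    exact circ_eq_integral x r θ₀ (hae.mono fun θ hθ => by
      rw [hX]; exact (integrands_eq x hr θ m (hg _ (hnot θ hθ))).2.2)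
  have hEn : En u x r / r =
      ∫ θ in (m - Real.pi)..(m + Real.pi), v (circleMap x r θ) * radial v x (circleMap x r θ) := by
    have hper : Function.Periodic
        (fun θ => v (circleMap x r θ) * radial v x (circleMap x r θ)) (2 * Real.pi) := fun θ => by
      simp only [periodic_circleMap x r θ]
    rw [hbd, Classify.circ, mul_div_cancel_left₀ _ hr.ne', hmp, hmq,
      hper.intervalIntegral_add_eq θ₀ (-Real.pi), show -Real.pi + 2 * Real.pi = Real.pi by ring]
  rw [ht, hn, hst, hEn]
  refine ⟨b1, b2, b3, fun w hw δ hδ hwz => ?_⟩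
  rcases hδ.1.eq_or_lt with rfl | hδ0
  · simp only [zero_div, sub_zero, one_mul]; exact b1
  obtain ⟨θ₁, hθ₁, rfl⟩ : ∃ θ ∈ Ico θ₀ (θ₀ + 2 * Real.pi), circleMap x r θ = w := by
    obtain ⟨θ, rfl⟩ : w ∈ range (circleMap x r) := by
      rw [range_circleMap, abs_of_pos hr]; exact hw.2
    obtain ⟨θ', hθ', he'⟩ := (periodic_circleMap x r).exists_mem_Ico Real.two_pi_pos θ θ₀
    exact ⟨θ', hθ', he'.symm⟩
  have hlip : ∀ s t, ‖circleMap x r s - circleMap x r t‖ ≤ r * |s - t| := fun s t => by
    have := (lipschitzWith_circleMap x r).dist_le_mul s t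
    simpa [dist_eq_norm, Real.coe_nnabs, abs_of_pos hr] using this
  refine hD.two_zeros _ _ _ rfl rfl rfl (θ₁ := θ₁) hδ0 (hv.zero _ hw.1) ?_ ?_
  · have := hwz.trans (hlip θ₁ θ₀)
    rw [abs_of_nonneg (sub_nonneg.2 hθ₁.1)] at this
    rw [hmp]
    exact le_of_mul_le_mul_left (by linarith) hr
  · have h2 := hlip θ₁ (θ₀ + 2 * Real.pi)
    rw [periodic_circleMap x r θ₀, abs_of_nonpos (by linarith [hθ₁.2])] at h2
    rw [hmq]
    refine le_of_mul_le_mul_left ?_ hr
    linarith [hwz.trans h2]

/-- **The deficit.** -/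
theorem deficitGoal (_hP : PolarGoal) (hR : RadialGoal) : DeficitGoal := by
  intro u K x h hx
  obtain ⟨v, hv, hg, hE⟩ := h.exists_pot
  have hfin : ∀ᵐ r : ℝ, ∀ n : ℕ, r ∈ Ioo (0 : ℝ) ((n : ℝ) + 1) → (K ∩ sphere x r).Finite :=
    ae_all_iff.2 fun n =>
      (hR K x 0 ((n : ℝ) + 1) h.reg.isClosed h.pieces h.reg.length_ne_top le_rfl (by positivity)).1
  filter_upwards [hfin, hv.dissip_eq_boundary x, hv.ae_circle_integrable x] with r hrf hrb hre hr
  obtain ⟨n, hn⟩ := exists_nat_gt r
  have hf := hrf n ⟨hr, hn.trans (lt_add_one _)⟩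
  have hb : En u x r = Classify.circ (fun y => v y * radial v x y) x r := hE x r ▸ hrb hr
  obtain ⟨z₀, hz₀, hz₀'⟩ := Classify.exists_dist_eq h.connected h.unbounded hx hr
  exact ⟨(deficit_circle hv hg hr ⟨hz₀, hz₀'⟩ hf hb (hre hr)).1, fun z hz =>
    (deficit_circle hv hg hr hz hf hb (hre hr)).2⟩

end Vale.Agent.P128.Bonnet
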