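import Vale.Agent.P128.Connected.Interface

/-!
# Classification of global minimisers with connected singular set: definitions
-/

namespace Vale.Agent.P128.Bonnet

open MeasureTheory Filter Metric Set Islands Connected
open scoped Topology ENNReal NNReal

/-- A global minimiser in smooth form with connected, unbounded singular set. -/
structure Conn (u : ℂ → ℝ) (K : Set ℂ) : Prop where
  reg : Reg u K
  density : HasDensityBound u K
  pieces : ∀ R, ConePieces (K ∩ ball 0 R)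
  reduced : IsReduced K
  connected : IsPreconnected K
  unbounded : ¬ Bornology.IsBounded K

/-- Energy in a disk. -/
noncomputable def En (u : ℂ → ℝ) (x : ℂ) (r : ℝ) : ℝ := ∫ y in ball x r, ‖grad u y‖ ^ 2

/-- Length in a disk. -/
noncomputable def Len (K : Set ℂ) (x : ℂ) (r : ℝ) : ℝ :=
  (Measure.hausdorffMeasure 1 (K ∩ ball x r)).toReal

/-- The integral of `f` on a circle for the arc length. -/
noncomputable def circ (f : ℂ → ℝ) (x : ℂ) (r : ℝ) : ℝ :=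
  r * ∫ θ in Ioc (-Real.pi) Real.pi, f (circleMap x r θ)

/-- The unit vector from `x` towards `y`. -/
noncomputable def dir (x y : ℂ) : ℂ := ‖y - x‖⁻¹ • (y - x)

/-- Tangential energy on a circle. -/
noncomputable def tang (u : ℂ → ℝ) (x : ℂ) (r : ℝ) : ℝ :=
  circ (fun y => dot (grad u y) (Complex.I * dir x y) ^ 2) x r

/-- Normal energy on a circle. -/
noncomputable def nor (u : ℂ → ℝ) (x : ℂ) (r : ℝ) : ℝ :=
  circ (fun y => dot (grad u y) (dir x y) ^ 2) x r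

/-- The flux of momentum in the direction `X` through a circle. -/
noncomputable def stress (u : ℂ → ℝ) (x : ℂ) (r : ℝ) (X : ℂ) : ℝ :=
  circ (fun y => ‖grad u y‖ ^ 2 * dot (dir x y) X -
    2 * dot (grad u y) (dir x y) * dot (grad u y) X) x r

/-- The half lines from `x` in the directions `Ω`. -/
def star (x : ℂ) (Ω : Finset ℂ) : Set ℂ := {y | ∃ ω ∈ Ω, ∃ t : ℝ, 0 ≤ t ∧ y = x + t • ω}

/-- `k` unit vectors with sum zero: for `k = 2, 3` a line or a propeller. -/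
def IsBalanced (Ω : Finset ℂ) (k : ℕ) : Prop :=
  Ω.card = k ∧ (∀ ω ∈ Ω, ‖ω‖ = 1) ∧ ∑ ω ∈ Ω, ω = 0

/-- `K` is `δ σ` close to a star in the disk, and has no more length along each arm. -/
def IsStarNear (K : Set ℂ) (x : ℂ) (σ δ : ℝ) (Ω : Finset ℂ) : Prop :=
  (∀ y ∈ K, ‖y - x‖ ≤ σ → ∃ z ∈ star x Ω, ‖y - z‖ ≤ δ * σ) ∧
  (∀ z ∈ star x Ω, ‖z - x‖ ≤ σ → ∃ y ∈ K, ‖y - z‖ ≤ δ * σ) ∧
  ∀ ω ∈ Ω, ∀ t ρ : ℝ, 0 < ρ → ρ ≤ t → t + ρ ≤ σ → Len K (x + t • ω) ρ ≤ 2 * ρ + δ * σ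

/-- The crack tip pair. -/
def IsCrackTip (u : ℂ → ℝ) (K : Set ℂ) : Prop :=
  ∃ (a ω : ℂ) (c s : ℝ), ‖ω‖ = 1 ∧ (s = 1 ∨ s = -1) ∧
    K = {y | ∃ t : ℝ, t ≤ 0 ∧ y = a + t • ω} ∧
    ∀ y ∉ K, u y = c + s * Real.sqrt (2 * ‖y - a‖ / Real.pi) *
      Real.sin (Complex.arg ((y - a) / ω) / 2)

/-- The singular sets with zero energy. -/
def IsLineOrPropeller (K : Set ℂ) : Prop :=
  ∃ (a : ℂ) (Ω : Finset ℂ) (k : ℕ), (k = 2 ∨ k = 3) ∧ IsBalanced Ω k ∧ K = star a Ω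

/-- The classification to prove. -/
def ClassificationGoal : Prop :=
  ∀ (u₀ : ℂ → ℝ) (G : ℂ → ℂ) (K : Set ℂ), IsGlobalMinimizer u₀ G K → IsReduced K →
    ∃ u : ℂ → ℝ, (u₀ =ᵐ[volume] u) ∧
      (((∀ y ∉ K, ∀ᶠ z in 𝓝 y, u z = u y) ∧ (K = ∅ ∨ IsLineOrPropeller K)) ∨ IsCrackTip u K)

end Vale.Agent.P128.Bonnet
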