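import Vale.Agent.P128.Bonnet.Rays
import Mathlib.Analysis.Complex.Convex

/-!
# Constant density one gives the crack tip

The singular set is a ray. With no deficit the gradient on the slit plane is orthogonal to the
square root, so the derivative of the complex potential is a multiple of the inverse square root.
-/

namespace Vale.Agent.P128.Bonnet

open MeasureTheory Filter Metric Set Islands Connected
open scoped Topology ENNReal NNReal ContDiff

/-- The square root of `w` on the slit plane. -/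
noncomputable def root (w : ℂ) : ℂ := Complex.exp (Complex.log w / 2)

lemma root_mul_root {w : ℂ} (hw : w ≠ 0) : root w * root w = w := by
  rw [root, ← Complex.exp_add, add_halves, Complex.exp_log hw]

lemma root_ne_zero (w : ℂ) : root w ≠ 0 := Complex.exp_ne_zero _

lemma hasDerivAt_root {w : ℂ} (hw : w ∈ Complex.slitPlane) :
    HasDerivAt root (1 / (2 * root w)) w := by
  have h := ((Complex.hasDerivAt_log hw).div_const 2).cexp
  refine h.congr_deriv ?_
  have e := root_mul_root (Complex.slitPlane_ne_zero hw)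
  have e' := root_ne_zero w
  change root w * (w⁻¹ / 2) = 1 / (2 * root w)
  nth_rewrite 2 [← e]
  field_simp

lemma im_root {w : ℂ} (hw : w ≠ 0) :
    (root w).im = Real.sqrt ‖w‖ * Real.sin (Complex.arg w / 2) := by
  rw [root, Complex.exp_im, Complex.div_ofNat_re, Complex.div_ofNat_im, Complex.log_re,
    Complex.log_im, Real.exp_half, Real.exp_log (norm_pos_iff.2 hw)]

lemma dot_mul_unit {τ : ℂ} (hτ : ‖τ‖ = 1) (a b : ℂ) : dot (a * τ) (b * τ) = dot a b := by
  have h : τ.re * τ.re + τ.im * τ.im = 1 := by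
    rw [← Complex.normSq_apply, ← Complex.sq_norm, hτ, one_pow]
  simp only [dot, Complex.mul_re, Complex.mul_im]
  linear_combination (a.re * b.re + a.im * b.im) * h

/-- The momentum flux through a circle, against the energy. -/
lemma stress_density {τ : ℂ} (hτ : ‖τ‖ = 1) {x y : ℂ} (hy : y ≠ x) (G : ℂ) :
    ‖G‖ ^ 2 - (‖G‖ ^ 2 * dot (dir x y) τ - 2 * dot G (dir x y) * dot G τ) =
      2 * dot (G / τ) (root ((y - x) / τ)) ^ 2 / ‖y - x‖ := by
  have hτ0 : τ ≠ 0 := norm_pos_iff.1 (hτ ▸ one_pos)
  set w := (y - x) / τ with hw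
  set g := G / τ with hg
  have hw0 : w ≠ 0 := div_ne_zero (sub_ne_zero.2 hy) hτ0
  have hn : ‖y - x‖ = ‖w‖ := by rw [hw, norm_div, hτ, div_one]
  have eG : G = g * τ := (div_mul_cancel₀ G hτ0).symm
  have ed : dir x y = (‖w‖⁻¹ • w) * τ := by
    rw [dir, hn, smul_mul_assoc, hw, div_mul_cancel₀ _ hτ0]
  have e1 : τ = 1 * τ := (one_mul τ).symm
  have hGn : ‖G‖ ^ 2 = dot g g := by
    rw [eG, norm_mul, hτ, mul_one, Complex.sq_norm, Complex.normSq_apply, dot]
  rw [hGn, ed, eG, hn]
  conv_lhs => rw [dot_mul_unit hτ g]; arg 2; arg 1; arg 2; arg 2; rw [e1]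
  conv_lhs => arg 2; arg 2; arg 2; arg 2; rw [e1]
  rw [dot_mul_unit hτ, dot_mul_unit hτ]
  set s := root w
  have hs : w = s * s := (root_mul_root hw0).symm
  have hns : ‖w‖ = s.re * s.re + s.im * s.im := by
    rw [hs, norm_mul, ← pow_two, Complex.sq_norm, Complex.normSq_apply]
  have hpos : 0 < ‖w‖ := norm_pos_iff.2 hw0
  simp only [dot, Complex.smul_re, Complex.smul_im, smul_eq_mul, Complex.one_re, Complex.one_im]
  rw [show w.re = s.re * s.re - s.im * s.im by rw [hs, Complex.mul_re],
    show w.im = s.re * s.im + s.im * s.re by rw [hs, Complex.mul_im]]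
  rw [hns] at hpos ⊢
  rw [eq_div_iff hpos.ne']
  generalize hP : s.re * s.re + s.im * s.im = P at hpos ⊢
  field_simp
  rw [← hP]
  ring

variable {u : ℂ → ℝ} {K : Set ℂ}

lemma circ_eq (f : ℂ → ℝ) (x : ℂ) (r : ℝ) : circ f x r = Classify.circ f x r := by
  rw [circ, Classify.circ, intervalIntegral.integral_of_le (by linarith [Real.pi_pos])]

lemma Conn.integrableOn_energy (h : Conn u K) (x : ℂ) (r : ℝ) :
    IntegrableOn (fun y => ‖grad u y‖ ^ 2) (ball x r) :=
  (h.reg.memLp (‖x‖ + r)).norm.integrable_sq.mono_measure (Measure.restrict_mono_set _ fun z hz => by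
    rw [mem_ball_zero_iff]
    rw [mem_ball, dist_eq_norm] at hz
    linarith [norm_le_norm_add_norm_sub' z x])

/-- Almost every circle meets `K` in finitely many points. -/
lemma Conn.ae_finite (hR : RadialGoal) (h : Conn u K) (x : ℂ) :
    ∀ᵐ r : ℝ, 0 < r → (K ∩ sphere x r).Finite := by
  have : ∀ n : ℕ, ∀ᵐ r : ℝ, r ∈ Ioo (0 : ℝ) (n + 1) → (K ∩ sphere x r).Finite := fun n =>
    (hR K x 0 (n + 1) h.reg.isClosed h.pieces h.reg.length_ne_top le_rfl (by positivity)).1
  filter_upwards [ae_all_iff.2 this] with r hr hr0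
  obtain ⟨n, hn⟩ := exists_nat_gt r
  exact hr n ⟨hr0, by linarith⟩

/-- With length at most the radius the singular set is a ray. -/
lemma Conn.eq_ray (hR : RadialGoal) (h : Conn u K) {x : ℂ} (hx : x ∈ K)
    (hlen : ∀ r > (0 : ℝ), Len K x r ≤ r) :
    ∃ τ : ℂ, ‖τ‖ = 1 ∧ K = {y | ∃ t : ℝ, t ≤ 0 ∧ y = x + t • τ} := by
  classical
  obtain ⟨Ω, -, hc, hu, hK⟩ := h.eq_star_of_radial hR hx one_pos (fun Ω => Ω.card = 1)
    (fun Ω Ω' h1 h2 ⟨τ, ha, hb⟩ => by
      obtain ⟨a, rfl⟩ := Finset.card_eq_one.1 h1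
      obtain ⟨b, rfl⟩ := Finset.card_eq_one.1 h2
      rw [Finset.mem_singleton] at ha hb
      rw [← ha, ← hb])
    (Eventually.of_forall fun r _ hn => by
      obtain ⟨p, hp⟩ := ncard_eq_one.1 hn
      exact ⟨{dir x p}, Finset.card_singleton _, by simp [hp]⟩)
    (by
      filter_upwards [h.ae_finite hR x] with r hr hr0
      obtain ⟨z, hz, hd⟩ := Classify.exists_dist_eq h.connected h.unbounded hx hr0
      exact (ncard_pos (hr hr0)).2 ⟨z, hz, mem_sphere.2 hd⟩)
    (fun r hr => by simpa using hlen r hr)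
  obtain ⟨e, rfl⟩ := Finset.card_eq_one.1 hc
  refine ⟨-e, by simpa using hu e (by simp), ?_⟩
  rw [hK]
  ext y
  constructor
  · rintro ⟨τ, hτ, t, ht, rfl⟩
    rw [Finset.mem_singleton] at hτ
    exact ⟨-t, by linarith, by simp [hτ]⟩
  · rintro ⟨t, ht, rfl⟩
    exact ⟨e, by simp, -t, by linarith, by simp⟩

/-- **Constant density one: the crack tip.** -/
theorem exactGoal (hP : PolarGoal) (hR : RadialGoal) (hD : DeficitGoal) : ExactGoal := by
  intro u K x h hx hE hL
  obtain ⟨τ, hτ, hK⟩ := h.eq_ray hR hx hL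
  have hτ0 : τ ≠ 0 := norm_pos_iff.1 (hτ ▸ one_pos)
  set W : ℂ → ℂ := fun y => (y - x) / τ with hWdef
  have hslit : ∀ y, y ∉ K → W y ∈ Complex.slitPlane := fun y hy => by
    rw [Complex.mem_slitPlane_iff]
    by_contra hn
    push Not at hn
    refine hy (hK ▸ ⟨(W y).re, hn.1, ?_⟩)
    have hW : W y = ((W y).re : ℂ) := Complex.ext rfl (by simp [hn.2])
    rw [Complex.real_smul, ← hW, hWdef, div_mul_cancel₀ _ hτ0]
    ring
  have hKW : ∀ w ∈ Complex.slitPlane, x + τ * w ∉ K := fun w hw hmem => by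
    rw [hK] at hmem
    obtain ⟨t, ht, e⟩ := hmem
    have : w = (t : ℂ) := by
      rw [Complex.real_smul, mul_comm (t : ℂ) τ] at e
      exact mul_left_cancel₀ hτ0 (add_left_cancel e)
    subst this
    rw [Complex.ofReal_mem_slitPlane] at hw
    linarith
  set U := Kᶜ
  have hU : IsOpen U := h.reg.isClosed.isOpen_compl
  have hUeq : U = (fun w => x + τ * w) '' Complex.slitPlane := by
    ext y
    refine ⟨fun hy => ⟨W y, hslit y hy, ?_⟩, ?_⟩
    · simp only [hWdef]
      field_simp
      ring
    · rintro ⟨w, hw, rfl⟩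
      exact hKW w hw
  have hUc : IsPreconnected U := hUeq ▸
    ((Complex.starConvex_one_slitPlane.isPathConnected (by simp)).isConnected.isPreconnected.image _
      (by fun_prop))
  have hUne : ∀ y ∈ U, y ≠ x := fun y hy e => hy (e ▸ hx)
  -- the energy on almost every circle is one and so is the flux
  have hE1 : ∀ᵐ r : ℝ, 0 < r → tang u x r + nor u x r = 1 := by
    have : ∀ n : ℕ, ∀ᵐ r : ℝ, r ∈ Ioc (0 : ℝ) (n + 1) → tang u x r + nor u x r = 1 := by
      intro n
      obtain ⟨hi, he⟩ := hP u K x h.reg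
      set b : ℝ := (n : ℝ) + 1
      have hb : 0 ≤ b := by positivity
      set g := fun s => tang u x s + nor u x s - 1
      have hgi : IntegrableOn g (Ioc 0 b) := (hi b hb).sub (integrableOn_const (by simp))
      have hg0 : 0 ≤ᵐ[volume.restrict (Ioc 0 b)] g := by
        rw [EventuallyLE, ae_restrict_iff' measurableSet_Ioc]
        filter_upwards [hD u K x h hx] with r hr hrI
        have := (hr hrI.1).1
        rw [hE r hrI.1, div_self hrI.1.ne'] at this
        simp only [Pi.zero_apply, g]
        linarith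
      have h0 : ∫ r in Ioc 0 b, g r = 0 := by
        simp only [g]
        rw [integral_sub (hi b hb) (integrableOn_const (by simp)), ← he b hb,
          hE b (by positivity), setIntegral_const, Measure.real, Real.volume_Ioc, sub_zero,
          ENNReal.toReal_ofReal hb, smul_eq_mul, mul_one, sub_self]
      filter_upwards [(ae_restrict_iff' measurableSet_Ioc).1
        ((integral_eq_zero_iff_of_nonneg_ae hg0 hgi).1 h0)] with r hr hrI
      have := hr hrI
      simp only [Pi.zero_apply, g] at this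
      linarith
    filter_upwards [ae_all_iff.2 this] with r hr hr0
    obtain ⟨n, hn⟩ := exists_nat_gt r
    exact hr n ⟨hr0, by linarith⟩
  have hstress : ∀ᵐ r : ℝ, 0 < r → 1 ≤ stress u x r τ := by
    filter_upwards [hD u K x h hx, hE1] with r hr he hr0
    have hzK : x + (-r) • τ ∈ K := hK ▸ ⟨-r, by linarith, rfl⟩
    have hzs : x + (-r) • τ ∈ sphere x r := by simp [hτ, abs_of_pos hr0]
    have hdir : -dir x (x + (-r) • τ) = τ := by
      have e := @dir_add_smul x (-τ) r hr0 (by rwa [norm_neg])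
      rw [smul_neg, ← neg_smul] at e
      rw [e, neg_neg]
    have h1 := ((hr hr0).2 _ ⟨hzK, hzs⟩).1
    rw [hdir, he hr0, hE r hr0, div_self hr0.ne'] at h1
    linarith
  set σ : ℂ → ℝ := fun y => ‖grad u y‖ ^ 2 * dot (dir x y) τ -
    2 * dot (grad u y) (dir x y) * dot (grad u y) τ with hσ
  have hgm : Measurable (grad u) := Potential.measurable_grad u
  have hdm : Measurable (dir x) :=
    ((measurable_id.sub_const x).norm.inv).smul (measurable_id.sub_const x)
  have hdot : ∀ {f g : ℂ → ℂ}, Measurable f → Measurable g →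
      Measurable fun y => dot (f y) (g y) := fun hf hg =>
    ((Complex.measurable_re.comp hf).mul (Complex.measurable_re.comp hg)).add
      ((Complex.measurable_im.comp hf).mul (Complex.measurable_im.comp hg))
  have hσm : Measurable σ := ((hgm.norm.pow_const 2).mul (hdot hdm measurable_const)).sub
    (((hdot hgm hdm).const_mul 2).mul (hdot hgm measurable_const))
  have hd1 : ∀ y, ‖dir x y‖ ≤ 1 := fun y => by
    rw [dir, norm_smul, norm_inv, norm_norm]; exact inv_mul_le_one
  have hσb : ∀ y, |σ y| ≤ 3 * ‖grad u y‖ ^ 2 := fun y => by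
    have a1 : |dot (dir x y) τ| ≤ 1 :=
      (abs_dot_le _ _).trans (mul_le_one₀ (hd1 y) (norm_nonneg _) hτ.le)
    have a2 : |dot (grad u y) (dir x y)| ≤ ‖grad u y‖ :=
      (abs_dot_le _ _).trans (mul_le_of_le_one_right (norm_nonneg _) (hd1 y))
    have a3 : |dot (grad u y) τ| ≤ ‖grad u y‖ :=
      (abs_dot_le _ _).trans_eq (by rw [hτ, mul_one])
    refine (abs_sub _ _).trans ?_
    rw [abs_mul, abs_mul, abs_mul, abs_two, abs_of_nonneg (sq_nonneg _)]
    nlinarith [mul_le_mul_of_nonneg_left a1 (sq_nonneg ‖grad u y‖),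
      mul_le_mul a2 a3 (abs_nonneg _) (norm_nonneg _)]
  have hzero : ∀ y ∈ U, dot (grad u y / τ) (root (W y)) = 0 := by
    intro y hy
    set R := ‖y - x‖ + 1
    have hR0 : 0 < R := by positivity
    set Φ : ℂ → ℝ := fun z => ‖grad u z‖ ^ 2 - σ z with hΦ
    have hσi : IntegrableOn σ (ball x R) := ((h.integrableOn_energy x R).const_mul 3).mono'
      hσm.aestronglyMeasurable (Eventually.of_forall fun z => hσb z)
    have hΦ0 : 0 ≤ᵐ[volume.restrict (ball x R)] Φ := by
      refine ae_restrict_of_ae ((measure_eq_zero_iff_ae_notMem.1 h.reg.null).mono fun z hz => ?_)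
      simp only [Pi.zero_apply, hΦ, hσ, stress_density hτ (hUne z hz)]
      positivity
    have hint : ∫ z in ball x R, Φ z = 0 := by
      refine le_antisymm ?_ (integral_nonneg_of_ae hΦ0)
      rw [integral_sub (h.integrableOn_energy x R) hσi,
        show (∫ z in ball x R, ‖grad u z‖ ^ 2) = R from hE R hR0, sub_nonpos]
      calc R = ∫ _s in (0:ℝ)..R, (1 : ℝ) := by simp
        _ ≤ ∫ s in (0:ℝ)..R, Classify.circ σ x s := by
          refine intervalIntegral.integral_mono_ae_restrict hR0.le intervalIntegrable_const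
            (Classify.intervalIntegrable_circ hR0.le hσi) ?_
          rw [EventuallyLE, ae_restrict_iff' measurableSet_Icc]
          filter_upwards [hstress, measure_eq_zero_iff_ae_notMem.1 (measure_singleton (0:ℝ))]
            with s hs hs0 hsI
          have hs1 : (0:ℝ) < s := lt_of_le_of_ne hsI.1 fun e => hs0 e.symm
          have := hs hs1
          rwa [stress, circ_eq] at this
        _ = _ := (Classify.setIntegral_ball_eq_circ hR0.le hσi).symm
    have hV : IsOpen (ball x R ∩ U) := isOpen_ball.inter hU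
    have hgc : ContinuousOn (grad u) (ball x R ∩ U) :=
      (contDiffOn_grad hU h.reg.smooth).continuousOn.mono inter_subset_right
    have hdc : ContinuousOn (dir x) (ball x R ∩ U) := by
      unfold dir
      exact (ContinuousOn.inv₀ (by fun_prop) fun z hz =>
        norm_ne_zero_iff.2 (sub_ne_zero.2 (hUne z hz.2))).smul (by fun_prop)
    have hdotc : ∀ {f g : ℂ → ℂ}, ContinuousOn f (ball x R ∩ U) →
        ContinuousOn g (ball x R ∩ U) → ContinuousOn (fun z => dot (f z) (g z)) (ball x R ∩ U) :=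
      fun hf hg => ((Complex.continuous_re.comp_continuousOn hf).mul
        (Complex.continuous_re.comp_continuousOn hg)).add
        ((Complex.continuous_im.comp_continuousOn hf).mul
        (Complex.continuous_im.comp_continuousOn hg))
    have hΦc : ContinuousOn Φ (ball x R ∩ U) := (hgc.norm.pow 2).sub
      (((hgc.norm.pow 2).mul (hdotc hdc continuousOn_const)).sub
        ((continuousOn_const.mul (hdotc hgc hdc)).mul (hdotc hgc continuousOn_const)))
    have heq : Φ =ᵐ[volume.restrict (ball x R ∩ U)] fun _ => 0 :=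
      ae_restrict_of_ae_restrict_of_subset inter_subset_left
        ((integral_eq_zero_iff_of_nonneg_ae hΦ0 ((h.integrableOn_energy x R).sub hσi)).1 hint)
    have hy0 := Measure.eqOn_open_of_ae_eq heq hV hΦc continuousOn_const
      ⟨mem_ball.2 (by rw [dist_eq_norm]; exact lt_add_one _), hy⟩
    simp only [hΦ, hσ, stress_density hτ (hUne y hy)] at hy0
    have hn : ‖y - x‖ ≠ 0 := norm_ne_zero_iff.2 (sub_ne_zero.2 (hUne y hy))
    simpa [hn, hWdef] using hy0
  -- the complex potential
  obtain ⟨v, -, hvs, hvg⟩ := potentialGoal u K h.reg h.density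
  set f : ℂ → ℂ := fun y => (u y : ℂ) + (v y : ℂ) * Complex.I with hf
  have hfd : ∀ y ∈ U, HasDerivAt f ((starRingEnd ℂ) (grad u y)) y := by
    intro y hy
    have d1 := (((h.reg.smooth y hy).contDiffAt (hU.mem_nhds hy)).differentiableAt
      (by simp)).hasFDerivAt
    have d2 := (((hvs y hy).contDiffAt (hU.mem_nhds hy)).differentiableAt (by simp)).hasFDerivAt
    have d3 := (Complex.ofRealCLM.hasFDerivAt.comp y d1).fun_add
      ((Complex.ofRealCLM.hasFDerivAt.comp y d2).mul_const Complex.I)
    refine hasFDerivAt_of_restrictScalars ℝ d3 ?_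
    have hv1 := congrArg Complex.re (hvg y hy)
    have hv2 := congrArg Complex.im (hvg y hy)
    rw [grad_re, rgrad_re] at hv1
    rw [grad_im, rgrad_im] at hv2
    refine ContinuousLinearMap.ext fun w => ?_
    have lin : ∀ L : ℂ →L[ℝ] ℝ, L w = w.re * L 1 + w.im * L Complex.I := fun L => by
      conv_lhs => rw [← Complex.re_add_im w]
      rw [map_add, show (w.re : ℂ) = w.re • (1 : ℂ) by simp,
        show (w.im : ℂ) * Complex.I = w.im • Complex.I by simp, map_smul, map_smul]
      simp
    apply Complex.ext <;> simp [grad, lin (fderiv ℝ u y), lin (fderiv ℝ v y), hv1, hv2]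
  have hfdiff : DifferentiableOn ℂ f U := fun y hy =>
    (hfd y hy).differentiableAt.differentiableWithinAt
  set q : ℂ → ℂ := fun y => deriv f y * τ * root (W y) with hq
  have hWd : ∀ y, HasDerivAt W (1 / τ) y := fun y =>
    ((hasDerivAt_id y).sub_const x).div_const τ
  have hRd : ∀ y ∈ U, HasDerivAt (fun z => root (W z)) (1 / (2 * root (W y)) * (1 / τ)) y :=
    fun y hy => (hasDerivAt_root (hslit y hy)).comp y (hWd y)
  have hqd : DifferentiableOn ℂ q U := fun y hy =>
    ((((hfdiff.deriv hU) y hy).differentiableAt (hU.mem_nhds hy)).mul_const τ |>.mul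
      (hRd y hy).differentiableAt).differentiableWithinAt
  have hqre : ∀ y ∈ U, (q y).re = 0 := fun y hy => by
    rw [← hzero y hy, hq]
    simp only [(hfd y hy).deriv]
    have e : (starRingEnd ℂ) (grad u y) * τ = (starRingEnd ℂ) (grad u y / τ) := by
      rw [map_div₀, eq_div_iff (by simpa using hτ0), mul_assoc, Complex.mul_conj', hτ]
      simp
    rw [e]
    generalize grad u y / τ = g
    simp [dot]
  obtain ⟨q₀, hq₀⟩ : ∃ q₀, ∀ y ∈ U, q y = q₀ := by
    refine hU.exists_is_const_of_deriv_eq_zero hUc hqd fun y hy => ?_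
    have h1 := ((hqd y hy).differentiableAt (hU.mem_nhds hy)).hasDerivAt
    have h2 := Complex.reCLM.hasFDerivAt.comp y (h1.hasFDerivAt.restrictScalars ℝ)
    have h3 : HasFDerivAt (Complex.reCLM ∘ q) (0 : ℂ →L[ℝ] ℝ) y :=
      (hasFDerivAt_const (0 : ℝ) y).congr_of_eventuallyEq
        ((hU.eventually_mem hy).mono fun z hz => hqre z hz)
    have h4 := h2.unique h3
    have e1 := congrArg (fun L : ℂ →L[ℝ] ℝ => L 1) h4
    have e2 := congrArg (fun L : ℂ →L[ℝ] ℝ => L Complex.I) h4
    simp at e1 e2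
    exact Complex.ext e1 (by simpa using e2)
  obtain ⟨c, hc⟩ : ∃ c, ∀ y ∈ U, f y - 2 * q₀ * root (W y) = c := by
    have hd : ∀ y ∈ U, HasDerivAt (fun z => f z - 2 * q₀ * root (W z)) 0 y := fun y hy => by
      refine ((hfd y hy).sub ((hRd y hy).const_mul (2 * q₀))).congr_deriv ?_
      have := hq₀ y hy
      simp only [hq, (hfd y hy).deriv] at this
      rw [← this]
      field_simp [root_ne_zero]
      ring
    exact hU.exists_is_const_of_deriv_eq_zero hUc
      (fun y hy => (hd y hy).differentiableAt.differentiableWithinAt) fun y hy => (hd y hy).deriv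
  -- normalisation
  obtain ⟨y₀, hy₀⟩ : ∃ y, y ∈ U := ⟨x + τ * 1, hKW 1 Complex.one_mem_slitPlane⟩
  have hre : q₀.re = 0 := hq₀ y₀ hy₀ ▸ hqre y₀ hy₀
  have hG : ∀ y ∈ U, ‖grad u y‖ ^ 2 = q₀.im ^ 2 / ‖y - x‖ := fun y hy => by
    have e := congrArg norm (hq₀ y hy)
    simp only [hq, (hfd y hy).deriv, norm_mul, Complex.norm_conj, hτ, mul_one] at e
    have hn : ‖root (W y)‖ ^ 2 = ‖y - x‖ := by
      rw [pow_two, ← norm_mul, root_mul_root (Complex.slitPlane_ne_zero (hslit y hy))]
      simp [hWdef, hτ]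
    have hq2 : ‖q₀‖ ^ 2 = q₀.im ^ 2 := by
      rw [Complex.sq_norm, Complex.normSq_apply, hre]
      ring
    rw [eq_div_iff (norm_ne_zero_iff.2 (sub_ne_zero.2 (hUne y hy))), ← hn, ← mul_pow, e, hq2]
  have hA : q₀.im ^ 2 * (2 * Real.pi) = 1 := by
    have hae : (fun y => ‖grad u y‖ ^ 2) =ᵐ[volume.restrict (ball x 1)]
        fun y => q₀.im ^ 2 / ‖y - x‖ :=
      ae_restrict_of_ae ((measure_eq_zero_iff_ae_notMem.1 h.reg.null).mono hG)
    have e := hE 1 one_pos
    rw [En, integral_congr_ae hae, Classify.setIntegral_ball_eq_circ zero_le_one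
      ((h.integrableOn_energy x 1).congr_fun_ae hae)] at e
    rw [← e, intervalIntegral.integral_of_le zero_le_one]
    refine Eq.trans ?_ (setIntegral_congr_fun (g := fun _ => q₀.im ^ 2 * (2 * Real.pi))
      measurableSet_Ioc fun s hs => ?_).symm
    · rw [setIntegral_const, Measure.real, Real.volume_Ioc, sub_zero,
        ENNReal.toReal_ofReal zero_le_one, one_smul]
    · have e' : ∀ θ, ‖circleMap x s θ - x‖ = s := fun θ => by
        simp [circleMap, abs_of_pos hs.1]
      simp only [Classify.circ, e', intervalIntegral.integral_const, smul_eq_mul]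
      field_simp [hs.1.ne']
      ring
  refine ⟨x, τ, c.re, -2 * q₀.im * Real.sqrt (Real.pi / 2), hτ, ?_, hK, fun y hy => ?_⟩
  · refine sq_eq_one_iff.1 ?_
    rw [mul_pow, Real.sq_sqrt (by positivity)]
    linear_combination hA
  · have hy' : y ∈ U := hy
    have e := congrArg Complex.re (hc y hy')
    simp only [hf, Complex.sub_re, Complex.add_re, Complex.ofReal_re, Complex.mul_re,
      Complex.ofReal_im, Complex.I_re, Complex.I_im, Complex.re_ofNat, Complex.im_ofNat,
      Complex.mul_im, hre, mul_zero, zero_mul, add_zero, mul_one, sub_self, zero_sub]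
      at e
    rw [im_root (Complex.slitPlane_ne_zero (hslit y hy'))] at e
    have hn : ‖W y‖ = ‖y - x‖ := by simp [hWdef, hτ]
    rw [hn] at e
    have hs : Real.sqrt (Real.pi / 2) * Real.sqrt (2 * ‖y - x‖ / Real.pi) =
        Real.sqrt ‖y - x‖ := by
      rw [← Real.sqrt_mul (by positivity)]
      congr 1
      field_simp [Real.pi_ne_zero]
    simp only [hWdef] at e
    linear_combination e + 2 * q₀.im * Real.sin (Complex.arg ((y - x) / τ) / 2) * hs

end Vale.Agent.P128.Bonnet
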