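import Vale.Agent.P128.Bonnet.GrowthBasic

/-!
# Growth of the length where the energy is small

Good circles have at least two points; when the density exceeds two they have three, and when it
exceeds three the density grows at a fixed rate, against the density bound.
-/

namespace Vale.Agent.P128.Bonnet

open MeasureTheory Filter Metric Set Islands Connected
open scoped Topology ENNReal NNReal Real

variable {u : ℂ → ℝ} {K : Set ℂ} {x : ℂ}

/-- One step: counts on circles of small energy make the density grow. -/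
lemma density_step (hPol : PolarGoal) (hRad : RadialGoal) (h : Conn u K) (x : ℂ) {s τ θ c : ℝ}
    (hs : 0 < s) (hτ : 0 < τ) (hτ1 : τ < 1) (hθ : 0 < θ) (hc : 0 ≤ c)
    (hE : En u x (s / (1 - τ)) ≤ θ ^ 2 * (s / (1 - τ)))
    (hN : ∀ᵐ r : ℝ, r ∈ Ioo s (s / (1 - τ)) → circEn u x r ≤ θ → c ≤ cnt K x r) :
    (1 - τ) * (Len K x s / s) + c * (τ - θ) ≤
      Len K x (s / (1 - τ)) / (s / (1 - τ)) := by
  set s' := s / (1 - τ) with hs'
  have h1 : 0 < 1 - τ := by linarith
  have hlt : s < s' := by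
    rw [hs', lt_div_iff₀ h1]
    nlinarith
  have h2 := count_lower hPol hRad h x hs.le hlt hc hθ hE hN
  obtain ⟨-, -, h3⟩ := count_le hRad h x hs.le hlt
  have e : s' * (1 - τ) = s := div_mul_cancel₀ s h1.ne'
  rw [le_div_iff₀ (hs.trans hlt)]
  have e2 : (1 - τ) * (Len K x s / s) * s' = Len K x s := by
    rw [hs']; field_simp
  have e3 : c * (τ - θ) * s' = c * (s' - s - θ * s') := by
    rw [← e]; ring
  rw [add_mul, e2, e3]
  linarith

/-- The alternatives on circles with small energy. -/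
def CircleAlt (u : ℂ → ℝ) (K : Set ℂ) (x : ℂ) (θ η e : ℝ) : Prop :=
  ∀ᵐ r : ℝ, 0 < r → circEn u x r ≤ θ →
    2 ≤ (K ∩ sphere x r).ncard ∧ Len K x r ≤ (cnt K x r + e) * r ∧
    (4 ≤ (K ∩ sphere x r).ncard → Len K x r ≤ (cnt K x r - η + e) * r)

lemma density_le (h : Conn u K) {s : ℝ} (hs : 0 < s) : Len K x s / s ≤ 7 := by
  rw [div_le_iff₀ hs]
  exact (Len_le_two_pi h.density x hs.le).trans
    (mul_le_mul_of_nonneg_right (by linarith [Real.pi_lt_d2]) hs.le)

/-- The density on a circle is almost that at the start of the step. -/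
lemma density_on_step (h : Conn u K) {s τ r : ℝ} (hs : 0 < s) (hτ1 : τ < 1)
    (hr : r ∈ Ioo s (s / (1 - τ))) :
    Len K x s / s * (1 - τ) * r ≤ Len K x r := by
  have h1 : Len K x s / s * s ≤ Len K x r := by
    rw [div_mul_cancel₀ _ hs.ne']
    exact Len_mono h.reg x hr.1.le
  have h2 : (1 - τ) * r ≤ s := by
    have := hr.2
    rw [lt_div_iff₀ (by linarith)] at this
    linarith
  rw [mul_assoc]
  exact (mul_le_mul_of_nonneg_left h2 (div_nonneg (Len_nonneg K x s) hs.le)).trans h1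

/-- Above three the density grows. -/
lemma step_up (hPol : PolarGoal) (hRad : RadialGoal) (h : Conn u K) {θ η e δ τ s : ℝ}
    (halt : CircleAlt u K x θ η e) (hδ : 0 < δ) (hη : 0 < η) (hτ : 0 < τ) (hτ1 : τ < 1)
    (hτδ : τ ≤ δ / 20) (hτη : τ ≤ η / 100) (hη1 : η ≤ 1) (hθ : 0 < θ) (hθη : θ ≤ η * τ / 200)
    (heη : e ≤ η / 8) (heδ : e ≤ δ / 8) (hs : 0 < s)
    (hE : En u x (s / (1 - τ)) ≤ θ ^ 2 * (s / (1 - τ))) (hφ : 3 + δ ≤ Len K x s / s) :
    Len K x s / s + η * τ / 4 ≤ Len K x (s / (1 - τ)) / (s / (1 - τ)) := by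
  have hφ7 := density_le (x := x) h hs
  set φ := Len K x s / s with hφdef
  have hτφ : τ * φ ≤ δ / 20 * 7 := mul_le_mul hτδ hφ7 (by linarith) (by linarith)
  have hτφ0 : 0 ≤ τ * φ := mul_nonneg hτ.le (by linarith)
  have hc : 0 ≤ (1 - τ) * φ + η / 2 := by linarith
  have hst := density_step hPol hRad h x hs hτ hτ1 hθ hc hE
    (halt.mono fun r hr hrm hT => by
      have hr0 : 0 < r := hs.trans hrm.1
      obtain ⟨-, hA, hB⟩ := hr hr0 hT
      have hLr := density_on_step (x := x) h hs hτ1 hrm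
      have hn4 : 4 ≤ (K ∩ sphere x r).ncard := by
        by_contra hn
        have h3 : cnt K x r ≤ 3 := by
          rw [cnt]; exact_mod_cast (show (K ∩ sphere x r).ncard ≤ 3 by omega)
        have h4 := le_of_mul_le_mul_right (hLr.trans hA) hr0
        linarith
      have := le_of_mul_le_mul_right (hLr.trans (hB hn4)) hr0
      linarith)
  have b1 : τ * φ * τ ≤ 7 * τ * (η / 100) :=
    mul_le_mul (by linarith [mul_le_mul_of_nonneg_left hφ7 hτ.le]) hτη hτ.le (by positivity)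
  have b2 : θ * ((1 - τ) * φ + η / 2) ≤ η * τ / 200 * 8 :=
    mul_le_mul hθη (by linarith) hc (by positivity)
  linarith

/-- Above two the density climbs to three. -/
lemma step_down (hPol : PolarGoal) (hRad : RadialGoal) (h : Conn u K) {θ η e δ τ s : ℝ}
    (halt : CircleAlt u K x θ η e) (hδ4 : δ ≤ 1 / 4) (hτ : 0 < τ) (hτ1 : τ < 1)
    (hτδ : τ ≤ δ / 20) (hθ : 0 < θ) (hθδ : 3 * θ ≤ δ * τ / 40)
    (heδ : e ≤ δ / 8) (hs : 0 < s)
    (hE : En u x (s / (1 - τ)) ≤ θ ^ 2 * (s / (1 - τ))) (hφ : 2 + δ ≤ Len K x s / s) :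
    2 + δ ≤ Len K x (s / (1 - τ)) / (s / (1 - τ)) ∧
      3 - Len K x (s / (1 - τ)) / (s / (1 - τ)) ≤
        (1 - τ) * (3 - Len K x s / s) + δ * τ / 40 := by
  have hφ7 := density_le (x := x) h hs
  set φ := Len K x s / s with hφdef
  have hτφ : τ * φ ≤ δ / 20 * 7 := mul_le_mul hτδ hφ7 (by linarith) (by linarith)
  have hst := density_step hPol hRad h x hs hτ hτ1 hθ (c := 3) (by norm_num) hE
    (halt.mono fun r hr hrm hT => by
      have hr0 : 0 < r := hs.trans hrm.1
      obtain ⟨hn2, hA, -⟩ := hr hr0 hT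
      have hLr := density_on_step (x := x) h hs hτ1 hrm
      have h4 := le_of_mul_le_mul_right (hLr.trans hA) hr0
      rw [cnt] at h4 ⊢
      by_contra hn
      have hn3 : (K ∩ sphere x r).ncard = 2 := by
        have : (K ∩ sphere x r).ncard < 3 := by exact_mod_cast not_le.1 hn
        omega
      rw [hn3] at h4
      push_cast at h4
      linarith)
  refine ⟨?_, by linarith⟩
  have hτδ' : τ * δ ≤ τ * (1 / 4) := mul_le_mul_of_nonneg_left hδ4 hτ.le
  rcases le_or_gt φ 3 with hle | hgt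
  · linarith [mul_le_mul_of_nonneg_left hφ (show 0 ≤ 1 - τ by linarith)]
  · linarith [mul_le_mul_of_nonneg_left hgt.le (show 0 ≤ 1 - τ by linarith)]

/-- The parameters of the growth. -/
lemma growth_parameters {δ η C : ℝ} (hδ : 0 < δ) (hδ4 : δ ≤ 1 / 4) (hη : 0 < η) (hC : 0 ≤ C) :
    ∃ τ q : ℝ, 0 < τ ∧ τ < 1 ∧ τ ≤ δ / 20 ∧ τ ≤ η / 100 ∧ 0 < q ∧ q ≤ 1 / 4 ∧
      q ^ 4 ≤ η * τ / 200 ∧ 3 * q ^ 4 ≤ δ * τ / 40 ∧ q ^ 4 ≤ δ / 4 ∧
      C * q ≤ η / 8 ∧ C * q ≤ δ / 8 := by
  set τ := min (δ / 20) (η / 100) with hτdef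
  have hτ : 0 < τ := lt_min (by positivity) (by positivity)
  have hτδ : τ ≤ δ / 20 := min_le_left _ _
  have hτη : τ ≤ η / 100 := min_le_right _ _
  set t := min δ η with htdef
  have ht : 0 < t := lt_min hδ hη
  set q := min (1 / 4) (min (t * τ / 200) (t / (8 * (C + 1)))) with hqdef
  have hq : 0 < q := lt_min (by norm_num) (lt_min (by positivity) (by positivity))
  have hq4 : q ≤ 1 / 4 := min_le_left _ _
  have hqt : q ≤ t * τ / 200 := (min_le_right _ _).trans (min_le_left _ _)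
  have hqC : q * (8 * (C + 1)) ≤ t := by
    have := (min_le_right _ _).trans (min_le_right (t * τ / 200) _) |>.trans' (le_refl q)
    rwa [le_div_iff₀ (by positivity)] at this
  have hθq : q ^ 4 ≤ q := pow_le_of_le_one hq.le (by linarith) (by norm_num)
  have hτ1 : τ < 1 := by linarith
  have htδ : t * τ ≤ δ * τ := mul_le_mul_of_nonneg_right (min_le_left _ _) hτ.le
  have htη : t * τ ≤ η * τ := mul_le_mul_of_nonneg_right (min_le_right _ _) hτ.le
  have hδτ : δ * τ ≤ δ * 1 := mul_le_mul_of_nonneg_left hτ1.le hδ.le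
  refine ⟨τ, q, hτ, hτ1, hτδ, hτη, hq, hq4, by linarith, by linarith, by linarith, ?_, ?_⟩
  · linarith [min_le_right δ η]
  · linarith [min_le_left δ η]

theorem growthGoal (hPol : PolarGoal) (hRad : RadialGoal) (hDel : DeleteGoal)
    (hTree : TreeGoal) : GrowthGoal := by
  intro δ₀ hδ₀
  obtain ⟨η₀, hη₀, C, hC, hgood⟩ := exists_good hRad hDel hTree one_pos
  set δ := min δ₀ (1 / 4) with hδdef
  have hδ : 0 < δ := lt_min hδ₀ (by norm_num)
  have hδ4 : δ ≤ 1 / 4 := min_le_right _ _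
  have hδle : δ ≤ δ₀ := min_le_left _ _
  set η := min η₀ 1 with hηdef
  have hη : 0 < η := lt_min hη₀ one_pos
  have hη1 : η ≤ 1 := min_le_right _ _
  obtain ⟨τ, q, hτ, hτ1, hτδ, hτη, hq, hq4, hθη, hθδ, hθ4, hCη, hCδ⟩ :=
    growth_parameters hδ hδ4 hη hC
  set p := 1 - τ with hpdef
  have hp : 0 < p := by linarith
  have hp1 : p < 1 := by linarith
  obtain ⟨n₁, hn₁⟩ := exists_nat_gt (7 / (η * τ / 4))
  obtain ⟨n₂, hn₂⟩ := exists_pow_lt_of_lt_one (show (0 : ℝ) < δ / 8 by positivity) hp1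
  set m := max n₁ n₂ + 1 with hm
  set Λ := (1 / p) ^ m with hΛdef
  have hip : 1 < 1 / p := by rw [lt_div_iff₀ hp]; linarith
  have hΛ : 1 < Λ := one_lt_pow₀ hip (by omega)
  have hθ : 0 < q ^ 4 := by positivity
  refine ⟨(q ^ 4) ^ 2, by positivity, Λ, hΛ, fun u K x σ h hx hσ hE => ?_⟩
  have hΛσ : σ ≤ Λ * σ := le_mul_of_one_le_left hσ.le hΛ.le
  have halt : CircleAlt u K x (q ^ 4) η (C * q) := by
    filter_upwards [hgood u K x h hx] with r hr h0 hT
    obtain ⟨-, a, b, c, -⟩ := hr h0 q hq hq4 (by linarith) hT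
    refine ⟨a, b, fun h4 => (c h4).trans (mul_le_mul_of_nonneg_right ?_ h0.le)⟩
    linarith [min_le_left η₀ 1]
  -- lower bound
  have hlow : ∀ s ∈ Ioc 0 (Λ * σ), (2 - δ) * s ≤ Len K x s := by
    intro s hs
    have h1 := count_lower hPol hRad h x le_rfl hs.1 (c := 2) (by norm_num) hθ
      (hE s hs) (halt.mono fun r hr hrm hT => by
        have := (hr hrm.1 hT).1
        rw [cnt]
        exact_mod_cast this)
    obtain ⟨-, -, h2⟩ := count_le hRad h x le_rfl hs.1
    rw [Len_zero] at h2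
    have : q ^ 4 * s ≤ δ / 4 * s := mul_le_mul_of_nonneg_right hθ4 hs.1.le
    have : 0 ≤ δ * s := mul_nonneg hδ.le hs.1.le
    linarith
  -- no density above three
  have hup : ∀ s ∈ Ioc 0 σ, Len K x s ≤ (3 + δ) * s := by
    intro s hs
    by_contra hlt
    push Not at hlt
    have hsi : ∀ i ≤ m, 0 < s / p ^ i ∧ s / p ^ i ≤ Λ * σ := by
      intro i hi
      refine ⟨div_pos hs.1 (pow_pos hp i), ?_⟩
      rw [div_eq_mul_inv, ← inv_pow, ← one_div, mul_comm Λ]
      exact mul_le_mul hs.2 (pow_le_pow_right₀ hip.le hi) (by positivity) hσ.le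
    have hiter : ∀ i ≤ m, 3 + δ + i * (η * τ / 4) ≤ Len K x (s / p ^ i) / (s / p ^ i) := by
      intro i
      induction i with
      | zero =>
        intro _
        simp only [pow_zero, div_one, Nat.cast_zero, zero_mul, add_zero]
        rw [le_div_iff₀ hs.1]
        exact hlt.le
      | succ i ih =>
        intro hi
        have hφ := ih (by omega)
        have enext : s / p ^ (i + 1) = s / p ^ i / (1 - τ) := by
          rw [← hpdef, div_div, pow_succ]
        have h0 : 0 ≤ (i : ℝ) * (η * τ / 4) := by positivity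
        have := step_up hPol hRad h halt hδ hη hτ hτ1 hτδ hτη hη1 hθ hθη hCη hCδ
          (hsi i (by omega)).1 (hE _ (by rw [← enext]; exact hsi (i + 1) hi)) (by linarith)
        rw [enext]
        push_cast
        linarith
    obtain ⟨hsm, -⟩ := hsi n₁ (by omega)
    have h1 := hiter n₁ (by omega)
    have h7 := density_le (x := x) h hsm
    rw [div_lt_iff₀ (by positivity)] at hn₁
    linarith
  refine ⟨fun s hs => ⟨?_, ?_⟩, fun s hs h23 t ht => ?_⟩
  · exact (mul_le_mul_of_nonneg_right (by linarith) hs.1.le).trans (hlow s ⟨hs.1, hs.2.trans hΛσ⟩)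
  · exact (hup s hs).trans (mul_le_mul_of_nonneg_right (by linarith) hs.1.le)
  -- once above two, the density climbs to three
  have hts : s ≤ t := (le_mul_of_one_le_left hs.1.le hΛ.le).trans ht.1
  have hiter : ∀ i : ℕ, s / p ^ i ≤ t →
      2 + δ ≤ Len K x (s / p ^ i) / (s / p ^ i) ∧
      3 - Len K x (s / p ^ i) / (s / p ^ i) ≤ p ^ i + δ / 40 := by
    intro i
    induction i with
    | zero =>
      intro _
      simp only [pow_zero, div_one]
      have hb : 2 + δ ≤ Len K x s / s := by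
        rw [le_div_iff₀ hs.1]
        exact (mul_le_mul_of_nonneg_right (by linarith) hs.1.le).trans h23
      exact ⟨hb, by linarith⟩
    | succ i ih =>
      intro hi
      have hsp : 0 < s / p ^ i := div_pos hs.1 (pow_pos hp i)
      have enext : s / p ^ (i + 1) = s / p ^ i / (1 - τ) := by
        rw [← hpdef, div_div, pow_succ]
      rw [enext] at hi ⊢
      have hsit : s / p ^ i ≤ t := by
        refine le_trans ?_ hi
        rw [← hpdef, le_div_iff₀ hp]
        exact mul_le_of_le_one_right hsp.le hp1.le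
      obtain ⟨hφ2, hφ3⟩ := ih hsit
      obtain ⟨h1, h2⟩ := step_down hPol hRad h halt hδ4 hτ hτ1 hτδ hθ hθδ hCδ hsp
        (hE _ ⟨div_pos hsp hp, hi.trans (ht.2.trans hΛσ)⟩) hφ2
      refine ⟨h1, h2.trans ?_⟩
      rw [pow_succ, ← hpdef]
      have := mul_le_mul_of_nonneg_left hφ3 hp.le
      have e : p * (δ / 40) + δ * τ / 40 = δ / 40 := by rw [hpdef]; ring
      linarith
  have hpow : ∃ i : ℕ, m ≤ i ∧ s / p ^ i ≤ t ∧ t < s / p ^ (i + 1) := by
    obtain ⟨i, hi1, hi2⟩ := exists_nat_pow_near (show 1 ≤ t / s by rwa [one_le_div hs.1]) hip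
    refine ⟨i, ?_, ?_, ?_⟩
    · by_contra hlt
      push Not at hlt
      have h1 : (1 / p) ^ (i + 1) * s ≤ Λ * s :=
        mul_le_mul_of_nonneg_right (pow_le_pow_right₀ hip.le (by omega)) hs.1.le
      rw [div_lt_iff₀ hs.1] at hi2
      linarith [ht.1]
    · rw [le_div_iff₀ hs.1] at hi1
      rw [div_eq_mul_inv, ← inv_pow, ← one_div]
      linarith
    · rw [div_lt_iff₀ hs.1] at hi2
      rw [div_eq_mul_inv s, ← inv_pow, ← one_div]
      linarith
  obtain ⟨i, hmi, hit, hti⟩ := hpow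
  obtain ⟨hφ2, hφ3⟩ := hiter i hit
  have hpi : p ^ i ≤ δ / 8 :=
    (pow_le_pow_of_le_one hp.le hp1.le (by omega)).trans hn₂.le
  have hsp : 0 < s / p ^ i := div_pos hs.1 (pow_pos hp i)
  have h1 : Len K x (s / p ^ i) / (s / p ^ i) * (s / p ^ i) ≤ Len K x t := by
    rw [div_mul_cancel₀ _ hsp.ne']
    exact Len_mono h.reg x hit
  have h2 : p * t ≤ s / p ^ i := by
    have : s / p ^ (i + 1) = s / p ^ i / p := by rw [div_div, pow_succ]
    rw [this, lt_div_iff₀ hp] at hti
    linarith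
  refine le_trans ?_ h1
  have ht0 : 0 ≤ t := hs.1.le.trans hts
  calc (3 - δ₀) * t ≤ (3 - δ / 4) * p * t := by
        refine mul_le_mul_of_nonneg_right ?_ ht0
        rw [hpdef]
        linarith [mul_pos hδ hτ]
    _ ≤ Len K x (s / p ^ i) / (s / p ^ i) * (p * t) := by
        rw [mul_assoc]
        exact mul_le_mul_of_nonneg_right (by linarith) (mul_nonneg hp.le ht0)
    _ ≤ _ := mul_le_mul_of_nonneg_left h2 (by linarith)

end Vale.Agent.P128.Bonnet
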