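import Vale.Agent.P128.Bonnet.Interface
import Vale.Agent.P128.Connected.Limit
import Vale.Agent.P128.Connected.Separating.Final
import Vale.Agent.P128.Islands.Field

/-!
# Classification of global minimisers: assembly

The energy over the radius increases to one at infinity unless it vanishes. It is positive at
some point in the limit of small radii, as otherwise the set would have no end; there it is
constant and the pair is the crack tip.
-/

namespace Vale.Agent.P128.Bonnet

open MeasureTheory Filter Metric Set Islands Connected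
open scoped Topology ENNReal NNReal ContDiff

lemma memLp_ball_any {u : ℂ → ℝ} {K : Set ℂ} (h : Reg u K) (x : ℂ) (r : ℝ) :
    MemLp (grad u) 2 (volume.restrict (ball x r)) :=
  (h.memLp (‖x‖ + r)).mono_measure (Measure.restrict_mono_set _
    (ball_subset_ball' (by rw [dist_zero_right]; linarith)))

lemma en_nonneg_int (u : ℂ → ℝ) (x : ℂ) (r : ℝ) : 0 ≤ En u x r :=
  integral_nonneg fun _ => sq_nonneg _

lemma En_mono {u : ℂ → ℝ} {K : Set ℂ} (h : Reg u K) {x y : ℂ} {r s : ℝ}
    (hs : ball x r ⊆ ball y s) : En u x r ≤ En u y s :=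
  setIntegral_mono_set (memLp_ball_any h y s).norm.integrable_sq
    (Eventually.of_forall fun _ => sq_nonneg _) hs.eventuallyLE

/-- Without a singular set the field vanishes. -/
lemma grad_eq_zero_of_empty {u : ℂ → ℝ} (h : Reg u ∅) (hD : HasDensityBound u ∅) (z : ℂ) :
    grad u z = 0 := by
  have hs : ContDiffOn ℝ ∞ u univ := by simpa using h.smooth
  obtain ⟨g, hg, hgu⟩ := fieldGoal weylGoal univ isOpen_univ (grad u)
    (locallyIntegrableOn_of_ball isOpen_univ h.memLp)
    fun θ hθ => ⟨h.euler (by simpa using hθ.1.contDiffOn) hθ.2.1 (memLp_grad_test hθ),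
      integral_grad_rgrad isOpen_univ hs hθ⟩
  have he : ∀ y, grad u y = g y := fun y =>
    Measure.eqOn_open_of_ae_eq hgu isOpen_univ (contDiffOn_grad isOpen_univ hs).continuousOn
      hg.2.2.1.continuousOn (mem_univ y)
  obtain ⟨B, hB0, hB⟩ := exists_sup_bound
  have key : ∀ L : ℂ →L[ℝ] ℝ, (∀ w, |L w| ≤ ‖w‖) →
      InnerProductSpace.HarmonicOnNhd (fun y => L (g y)) univ → L (g z) = 0 := by
    intro L hL hh
    by_contra hne
    have hc : ∀ c : ℝ, 0 < c → c * |L (g z)| ≤ B := by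
      intro c hc
      refine le_of_forall_pos_le_add fun ε hε => ?_
      set a := B * c ^ 2 * (2 * Real.pi) / ε + 1 with ha'
      have ha : 0 < a := by positivity
      have h1 := hB univ (fun y => c * L (g y)) z a isOpen_univ
        (contDiffOn_const.mul (L.contDiff.comp_contDiffOn hg.2.2.1))
        (fun y hy => by simpa [Pi.smul_def, smul_eq_mul] using (hh y hy).const_smul (c := c)) ha
        (subset_univ _)
      rw [abs_mul, abs_of_pos hc] at h1
      have h2 : ∫ y in closedBall z a, (c * L (g y)) ^ 2 ≤ c ^ 2 * (2 * Real.pi * a) := by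
        rw [setIntegral_congr_set (show (closedBall z a : Set ℂ) =ᵐ[volume] ball z a by
          refine (ae_eq_set).2 ⟨?_, ?_⟩
          · rw [closedBall_sdiff_ball]; exact Measure.addHaar_sphere volume z a
          · rw [sdiff_eq_empty.2 ball_subset_closedBall]; exact measure_empty)]
        refine le_trans ?_ (mul_le_mul_of_nonneg_left (hD z a ha.le).2 (sq_nonneg c))
        rw [← integral_const_mul]
        refine integral_mono_of_nonneg (Eventually.of_forall fun y => sq_nonneg _)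
          ((memLp_ball_any h z a).norm.integrable_sq.const_mul _)
          (Eventually.of_forall fun y => ?_)
        show (c * L (g y)) ^ 2 ≤ c ^ 2 * ‖grad u y‖ ^ 2
        rw [mul_pow, he y]
        exact mul_le_mul_of_nonneg_left
          (by rw [← sq_abs]; exact pow_le_pow_left₀ (abs_nonneg _) (hL _) 2) (sq_nonneg c)
      have h3 : B * ((∫ y in closedBall z a, (c * L (g y)) ^ 2) / a ^ 2) ≤ ε := by
        refine (mul_le_mul_of_nonneg_left (div_le_div_of_nonneg_right h2 (sq_nonneg a)) hB0).trans ?_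
        rw [show B * (c ^ 2 * (2 * Real.pi * a) / a ^ 2) = B * c ^ 2 * (2 * Real.pi) / a by
          field_simp, div_le_iff₀ ha, ha', mul_add, mul_div_cancel₀ _ hε.ne', mul_one]
        linarith
      linarith
    have h1 := hc ((B + 1) / |L (g z)|) (by positivity)
    rw [div_mul_cancel₀ _ (abs_ne_zero.2 hne)] at h1
    linarith
  rw [he z]
  exact Complex.ext (key Complex.reCLM Complex.abs_re_le_norm hg.1)
    (key Complex.imCLM Complex.abs_im_le_norm hg.2.1)

lemma locally_const {u : ℂ → ℝ} {K : Set ℂ} (h : Reg u K) (h0 : ∀ y ∉ K, grad u y = 0)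
    (y : ℂ) (hy : y ∉ K) : ∀ᶠ z in 𝓝 y, u z = u y := by
  obtain ⟨r, hr, hsub⟩ := Metric.isOpen_iff.1 h.isClosed.isOpen_compl y hy
  filter_upwards [ball_mem_nhds y hr] with z hz
  refine isOpen_ball.is_const_of_fderiv_eq_zero (convex_ball y r).isPreconnected
    ((h.smooth.mono hsub).differentiableOn (by simp)) (fun w hw => ?_) hz (mem_ball_self hr)
  refine ContinuousLinearMap.ext fun v => ?_
  rw [fderiv_eq_dot_grad, h0 w (hsub hw)]
  simp [dot]

/-- Facts about the quotient of energy and radius from `UnitGoal`. -/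
structure Quot (u : ℂ → ℝ) (K : Set ℂ) (x : ℂ) : Prop where
  mono : MonotoneOn (fun r => En u x r / r) (Ioi 0)
  bdd : ∀ r > (0 : ℝ), En u x r / r ≤ 2 * Real.pi

lemma quot_mk {u : ℂ → ℝ} {K : Set ℂ} (hM : MonotoneGoal) (h : Conn u K) {x : ℂ} (hx : x ∈ K) :
    Quot u K x :=
  ⟨hM u K x h hx, fun r hr => (div_le_iff₀ hr).2 (h.density x r hr.le).2⟩

/-- The quotient tends to one at infinity when positive somewhere. -/
lemma quot_large {u : ℂ → ℝ} {K : Set ℂ} (hU : UnitGoal) (h : Conn u K) {x : ℂ} (hx : x ∈ K)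
    (q : Quot u K x) {r₀ : ℝ} (hr₀ : 0 < r₀) (hpos : 0 < En u x r₀ / r₀) {ε : ℝ} (hε : 0 < ε) :
    ∃ R > (0 : ℝ), ∀ r ≥ R, |En u x r / r - 1| ≤ ε ∧ Len K x r ≤ (1 + ε) * r := by
  obtain ⟨η, hη, Λ, hΛ, hu⟩ := hU ε hε _ hpos
  have hb : BddAbove ((fun r => En u x r / r) '' Ioi 0) :=
    ⟨2 * Real.pi, by rintro _ ⟨r, hr, rfl⟩; exact q.bdd r hr⟩
  set S := sSup ((fun r => En u x r / r) '' Ioi 0)
  obtain ⟨_, ⟨r₁, hr₁, rfl⟩, hlt⟩ := exists_lt_of_lt_csSup (nonempty_Ioi.image _)
    (show S - η < S by linarith)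
  refine ⟨Λ * r₁ + r₀, by positivity [show 0 < r₁ from hr₁], fun r hr => ?_⟩
  have h1 : (0 : ℝ) < r₁ := hr₁
  have hΛ0 : 0 < Λ := by linarith
  have hrpos : 0 < r := by nlinarith [mul_pos hΛ0 h1]
  refine hu u K x r h hx hrpos (q.mono hr₀ hrpos (by nlinarith [mul_pos hΛ0 h1])) ?_
  have a := le_csSup hb (mem_image_of_mem _ (show Λ * r ∈ Ioi (0 : ℝ) from mul_pos hΛ0 hrpos))
  have b := q.mono hr₁ (show r / Λ ∈ Ioi (0 : ℝ) from div_pos hrpos hΛ0)
    ((le_div_iff₀ hΛ0).2 (by linarith))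
  simp only at a b hlt
  linarith

/-- A point of positive density is the tip of a crack tip. -/
lemma crackTip_of_density {u : ℂ → ℝ} {K : Set ℂ} (hU : UnitGoal) (hX : ExactGoal) (h : Conn u K)
    {x : ℂ} (hx : x ∈ K) (q : Quot u K x) {l : ℝ} (hl : 0 < l)
    (hlow : ∀ r > (0 : ℝ), l ≤ En u x r / r) : IsCrackTip u K := by
  set f := fun r => En u x r / r
  have hsmall : ∀ ε > (0 : ℝ), ∃ R > (0 : ℝ), ∀ r ∈ Ioc 0 R, |f r - 1| ≤ ε := by
    intro ε hε
    obtain ⟨η, hη, Λ, hΛ, hu⟩ := hU ε hε l hl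
    have hb : BddBelow (f '' Ioi 0) := ⟨l, by rintro _ ⟨r, hr, rfl⟩; exact hlow r hr⟩
    obtain ⟨_, ⟨r₁, hr₁, rfl⟩, hlt⟩ := exists_lt_of_csInf_lt (nonempty_Ioi.image _)
      (show sInf (f '' Ioi 0) < sInf (f '' Ioi 0) + η by linarith)
    have hΛ0 : 0 < Λ := by linarith
    refine ⟨r₁ / Λ, div_pos hr₁ hΛ0, fun r hr => (hu u K x r h hx hr.1 (hlow r hr.1) ?_).1⟩
    have a := q.mono (show Λ * r ∈ Ioi (0 : ℝ) from mul_pos hΛ0 hr.1) hr₁
      (by have := (le_div_iff₀ hΛ0).1 hr.2; linarith)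
    have b := csInf_le hb (mem_image_of_mem f (show r / Λ ∈ Ioi (0 : ℝ) from div_pos hr.1 hΛ0))
    simp only [f] at a b hlt ⊢
    linarith
  have hone : ∀ r > (0 : ℝ), f r = 1 := by
    intro r hr
    refine eq_of_forall_dist_le fun ε hε => ?_
    rw [Real.dist_eq, abs_le]
    obtain ⟨R₀, hR₀, h0⟩ := hsmall ε hε
    obtain ⟨R₁, -, h1⟩ := quot_large hU h hx q hr (hl.trans_le (hlow r hr)) hε
    have hs : min R₀ r ∈ Ioi (0 : ℝ) := lt_min hR₀ hr
    have a := (abs_le.1 (h0 _ ⟨hs, min_le_left _ _⟩)).1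
    have b := (abs_le.1 (h1 _ (le_max_left R₁ r)).1).2
    have a' := q.mono hs hr (min_le_right _ _)
    have b' := q.mono hr (show max R₁ r ∈ Ioi (0 : ℝ) from lt_max_of_lt_right hr) (le_max_right _ _)
    simp only [f] at a a' b' ⊢
    constructor <;> linarith
  refine hX u K x h hx (fun r hr => ?_) fun r hr => le_of_forall_pos_le_add fun ε hε => ?_
  · simpa [f, div_eq_iff hr.ne'] using hone r hr
  · obtain ⟨η, hη, Λ, hΛ, hu⟩ := hU (ε / r) (div_pos hε hr) l hl
    have hΛ0 : 0 < Λ := by linarith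
    have h2 := (hu u K x r h hx hr (hlow r hr) (by
      have a := hone _ (mul_pos hΛ0 hr)
      have b := hone _ (div_pos hr hΛ0)
      simp only [f] at a b
      linarith)).2
    rwa [add_mul, one_mul, div_mul_cancel₀ _ hr.ne'] at h2

/-- Every circle around a point of `K` meets `K`. -/
lemma inter_sphere_nonempty {u : ℂ → ℝ} {K : Set ℂ} (h : Conn u K) {x : ℂ} (hx : x ∈ K) {r : ℝ}
    (hr : 0 ≤ r) : (K ∩ sphere x r).Nonempty := by
  obtain ⟨y, hy, hyr⟩ : ∃ y ∈ K, r ≤ dist y x := by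
    by_contra hn
    push Not at hn
    exact h.unbounded (isBounded_ball.subset fun y hy => mem_ball.2 (hn y hy))
  obtain ⟨z, hz, hzr⟩ := h.connected.intermediate_value hx hy
    (continuous_id.dist continuous_const).continuousOn
    (show r ∈ Icc (dist x x) (dist y x) from ⟨by simpa using hr, hyr⟩)
  exact ⟨z, hz, hzr⟩

/-- Some circle meets `K` once when the length grows like the radius. -/
lemma exists_single {u : ℂ → ℝ} {K : Set ℂ} (hR : RadialGoal) (h : Conn u K) {x : ℂ} (hx : x ∈ K)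
    {R : ℝ} (hR0 : 0 < R) (hlen : Len K x (6 / 5 * R) ≤ 3 / 2 * R) :
    ∃ r, 0 < r ∧ ∃ p, K ∩ sphere x r = {p} := by
  by_contra hno
  push Not at hno
  obtain ⟨hfin, hint, hle, -⟩ := hR K x 0 R h.reg.isClosed h.pieces h.reg.length_ne_top le_rfl hR0
  have h2 : (2 : ℝ) * R ≤ ∫ r in Ioo 0 R, ((K ∩ sphere x r).ncard : ℝ) := by
    refine le_trans (le_of_eq ?_) (integral_mono_ae (f := fun _ => (2 : ℝ)) (integrableOn_const
      (by simp)) hint ?_)
    · simp [hR0.le]; ring
    · filter_upwards [ae_restrict_of_ae hfin, ae_restrict_mem measurableSet_Ioo] with r hf hr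
      have hne := inter_sphere_nonempty h hx hr.1.le
      have h1 := (Set.ncard_pos (hf hr)).2 hne
      have h1' : (K ∩ sphere x r).ncard ≠ 1 := fun h1 => by
        obtain ⟨p, hp⟩ := Set.ncard_eq_one.1 h1
        exact hno r hr.1 p hp
      exact_mod_cast (by omega : 2 ≤ (K ∩ sphere x r).ncard)
  have h3 : (Measure.hausdorffMeasure 1 (K ∩ (closedBall x R \ ball x 0))).toReal ≤
      Len K x (6 / 5 * R) := by
    refine ENNReal.toReal_mono (ne_top_of_le_ne_top (h.reg.length_ne_top (‖x‖ + 6 / 5 * R))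
      (measure_mono (inter_subset_inter_right _ (ball_subset_ball' (by
        rw [dist_zero_right]; linarith))))) (measure_mono (inter_subset_inter_right _ fun y hy => ?_))
    exact lt_of_le_of_lt (mem_closedBall.1 hy.1) (by linarith)
  linarith

/-- **The classification**, from the modules. -/
theorem classification_of (hR : RadialGoal) (hM : MonotoneGoal) (hU : UnitGoal) (hX : ExactGoal)
    (hN : NoEnergyGoal) (hT : TipGoal) : ClassificationGoal := by
  intro u₀ G₀ K hm hred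
  obtain ⟨u, hreg, hae⟩ := exists_reg_ae weylGoal lengthGoal hm
  refine ⟨u, hae, ?_⟩
  have hD := densityGoal lengthGoal u K hreg
  rcases K.eq_empty_or_nonempty with rfl | ⟨x₁, hx₁⟩
  · exact Or.inl ⟨locally_const hreg fun y _ => grad_eq_zero_of_empty hreg hD y, Or.inl rfl⟩
  obtain ⟨hunb, -⟩ := unboundedGoal u₀ G₀ K hm hred
  have hpieces : ∀ R, ConePieces (K ∩ ball 0 R) := by
    intro R
    obtain ⟨F, hF, hcov⟩ :=
      coverGoal K hreg.isClosed hunb hreg.length_ne_top (|R| + 1) (by positivity)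
    refine piecesUnionGoal F _ (fun J hJ => ?_)
      (hreg.isClosed.measurableSet.inter measurableSet_ball) ?_
    · obtain ⟨hJc, hJp, hJn, _, hJf⟩ := hF J hJ
      obtain ⟨γ, L, hγ, hγJ⟩ := continuumGoal J hJc hJp hJn hJf
      exact ⟨hγJ ▸ curvePiecesGoal γ L hγ, hJc.measurableSet⟩
    · exact fun z hz => hcov ⟨hz.1, ball_subset_ball (by linarith [le_abs_self R]) hz.2⟩
  have h : Conn u K := ⟨hreg, hD, hpieces, hred, allConnectedGoal u₀ G₀ K hm hred,
    fun hb => hunb x₁ hx₁ (hb.subset (connectedComponentIn_subset _ _))⟩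
  by_cases hE : ∀ x r, En u x r = 0
  · refine Or.inl ⟨locally_const hreg fun y hy => ?_, Or.inr (hN u K h hE)⟩
    have h0 : ∀ᵐ z ∂volume.restrict (ball (0 : ℂ) (‖y‖ + 1)), ‖grad u z‖ ^ 2 = 0 :=
      (integral_eq_zero_iff_of_nonneg_ae (Eventually.of_forall fun _ => sq_nonneg _)
        (hreg.memLp _).norm.integrable_sq).1 (hE 0 _)
    refine Measure.eqOn_open_of_ae_eq (f := grad u) (g := fun _ => (0 : ℂ))
      (ae_restrict_of_ae_restrict_of_subset inter_subset_left (h0.mono fun z hz => by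
        simpa using hz))
      (isOpen_ball.inter hreg.isClosed.isOpen_compl)
      ((contDiffOn_grad hreg.isClosed.isOpen_compl hreg.smooth).continuousOn.mono inter_subset_right)
      continuousOn_const ⟨mem_ball_zero_iff.2 (lt_add_one _), hy⟩
  refine Or.inr ?_
  push Not at hE
  obtain ⟨a, s, has⟩ := hE
  have hpos : ∀ y ∈ K, ∃ r > (0 : ℝ), 0 < En u y r / r := fun y _ => by
    refine ⟨|s| + ‖a - y‖ + 1, by positivity, div_pos ?_ (by positivity)⟩
    refine ((en_nonneg_int u a s).lt_of_ne' has).trans_le (En_mono hreg (ball_subset_ball' ?_))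
    rw [dist_eq_norm]
    linarith [le_abs_self s]
  by_contra hnot
  obtain ⟨r₀, hr₀, hp₀⟩ := hpos x₁ hx₁
  obtain ⟨R₁, hR₁, hlen⟩ := quot_large hU h hx₁ (quot_mk hM h hx₁) hr₀ hp₀
    (by norm_num : (0 : ℝ) < 1 / 4)
  obtain ⟨R, hR0, p, hp⟩ := exists_single hR h hx₁ hR₁
    (((hlen (6 / 5 * R₁) (by linarith)).2).trans (by linarith))
  refine hT u K x₁ p R h hx₁ hR0 hp fun ε hε => ?_
  have hloc : ∀ y ∈ K ∩ closedBall x₁ R, ∃ r > (0 : ℝ), En u y r ≤ ε / 2 * r := by
    intro y hy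
    by_contra hn
    push Not at hn
    exact hnot (crackTip_of_density hU hX h hy.1 (quot_mk hM h hy.1) (half_pos hε)
      fun r hr => (le_div_iff₀ hr).2 (hn r hr).le)
  choose! rad hrad hrad' using hloc
  obtain ⟨T, hT', hcov⟩ := ((isCompact_closedBall x₁ R).inter_left hreg.isClosed).elim_nhds_subcover
    (fun y => ball y (rad y / 2)) fun y hy => ball_mem_nhds y (half_pos (hrad y hy))
  have hTne : T.Nonempty := by
    obtain ⟨y, hy, -⟩ := mem_iUnion₂.1 (hcov ⟨hx₁, mem_closedBall_self hR0.le⟩)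
    exact ⟨y, hy⟩
  refine ⟨T.inf' hTne fun y => rad y / 2,
    (Finset.lt_inf'_iff hTne).2 fun y hy => half_pos (hrad y (hT' y hy)), fun y hy s hs => ?_⟩
  obtain ⟨c, hc, hyc⟩ := mem_iUnion₂.1 (hcov hy)
  have hc0 := hrad c (hT' c hc)
  have h1 : En u y (rad c / 2) ≤ ε * (rad c / 2) := by
    refine (En_mono hreg (ball_subset_ball' ?_)).trans ((hrad' c (hT' c hc)).trans (le_of_eq (by ring)))
    rw [mem_ball] at hyc
    linarith
  have h2 := (quot_mk hM h hy.1).mono hs.1 (half_pos hc0)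
    (hs.2.trans (Finset.inf'_le _ hc))
  simp only at h2
  have h3 := h2.trans ((div_le_iff₀ (half_pos hc0)).2 h1)
  exact (div_le_iff₀ hs.1).1 h3

end Vale.Agent.P128.Bonnet
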