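import Vale.Agent.P128.Bonnet.Rays

/-!
# Without energy the singular set is a line or a propeller

Where a circle meets `K` twice the length in the disk is at most twice the radius, so each point
has either a neighbourhood with density two, where `K` is a diameter, or density three at all
radii, and then `K` is a propeller.
-/

namespace Vale.Agent.P128.Bonnet

open MeasureTheory Filter Metric Set Islands Connected
open scoped Topology ENNReal NNReal

/-- Balanced triples with a common direction are equal. -/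
lemma balanced_three_root {Ω : Finset ℂ} (h : IsBalanced Ω 3) {a z : ℂ} (ha : a ∈ Ω)
    (hz : z ∈ Ω) (hza : z ≠ a) :
    z ^ 2 + z * a + a ^ 2 = 0 := by
  classical
  obtain ⟨hc, hu, hs⟩ := h
  obtain ⟨w, hw⟩ : ∃ w, ((Ω.erase a).erase z) = {w} := Finset.card_eq_one.1 (by
    rw [Finset.card_erase_of_mem (Finset.mem_erase.2 ⟨hza, hz⟩), Finset.card_erase_of_mem ha, hc])
  have hwΩ : w ∈ Ω := Finset.mem_of_mem_erase
    (Finset.mem_of_mem_erase (hw ▸ Finset.mem_singleton_self w))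
  rw [← Finset.add_sum_erase _ _ ha, ← Finset.add_sum_erase _ _ (Finset.mem_erase.2 ⟨hza, hz⟩),
    hw, Finset.sum_singleton] at hs
  have hu' : ∀ v ∈ Ω, v * (starRingEnd ℂ) v = 1 := fun v hv => by
    rw [Complex.mul_conj', hu v hv]; simp
  have h1 := hu' a ha
  have h2 := hu' z hz
  have h3 := hu' w hwΩ
  rw [show w = -(a + z) by linear_combination hs, map_neg, map_add] at h3
  linear_combination a * z * (h3 - h2 - h1) - z ^ 2 * h1 - a ^ 2 * h2

lemma balanced_unique {Ω Ω' : Finset ℂ} {k : ℕ} (hk : k = 2 ∨ k = 3) (h : IsBalanced Ω k)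
    (h' : IsBalanced Ω' k) (hc : ∃ ω, ω ∈ Ω ∧ ω ∈ Ω') : Ω = Ω' := by
  classical
  obtain ⟨a, ha, ha'⟩ := hc
  rcases hk with rfl | rfl
  · have e : ∀ {Θ : Finset ℂ}, IsBalanced Θ 2 → a ∈ Θ → Θ = {a, -a} := fun {Θ} hΘ hm => by
      obtain ⟨hc, -, hs⟩ := hΘ
      obtain ⟨w, hw⟩ : ∃ w, Θ.erase a = {w} := Finset.card_eq_one.1 (by
        rw [Finset.card_erase_of_mem hm, hc])
      rw [← Finset.add_sum_erase _ _ hm, hw, Finset.sum_singleton] at hs
      rw [← Finset.insert_erase hm, hw, show w = -a by linear_combination hs]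
    rw [e h ha, e h' ha']
  · have hsub : Ω' ⊆ Ω := by
      intro z hz
      by_cases hza : z = a
      · exact hza ▸ ha
      obtain ⟨b, hb⟩ : (Ω.erase a).Nonempty := Finset.card_pos.1 (by
        rw [Finset.card_erase_of_mem ha, h.1]; norm_num)
      obtain ⟨hba, hbΩ⟩ := Finset.mem_erase.1 hb
      obtain ⟨c, hc⟩ : ∃ c, (Ω.erase a).erase b = {c} := Finset.card_eq_one.1 (by
        rw [Finset.card_erase_of_mem hb, Finset.card_erase_of_mem ha, h.1])
      have hcΩ : c ∈ Ω := Finset.mem_of_mem_erase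
        (Finset.mem_of_mem_erase (hc ▸ Finset.mem_singleton_self c))
      have hsum := h.2.2
      rw [← Finset.add_sum_erase _ _ ha, ← Finset.add_sum_erase _ _ hb, hc,
        Finset.sum_singleton] at hsum
      have e1 := balanced_three_root h ha hbΩ hba
      have e2 := balanced_three_root h' ha' hz hza
      have e : (z - b) * (z - c) = 0 := by
        linear_combination e2 - e1 - (z - b) * hsum
      rcases mul_eq_zero.1 e with e | e
      · exact sub_eq_zero.1 e ▸ hbΩ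
      · exact sub_eq_zero.1 e ▸ hcΩ
    exact (Finset.eq_of_subset_of_card_le hsub (by rw [h.1, h'.1])).symm

/-- The gradient vanishes off `K`. -/
lemma Conn.grad_eq_zero {u : ℂ → ℝ} {K : Set ℂ} (h : Conn u K) (h0 : ∀ x r, En u x r = 0)
    {y : ℂ} (hy : y ∉ K) : grad u y = 0 := by
  have hi : IntegrableOn (fun z => ‖grad u z‖ ^ 2) (ball (0 : ℂ) (‖y‖ + 1)) :=
    (h.reg.memLp _).norm.integrable_sq
  have hae := (integral_eq_zero_iff_of_nonneg_ae
    (Eventually.of_forall fun z => sq_nonneg _) hi).1 (h0 0 (‖y‖ + 1))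
  have hV : IsOpen (ball (0 : ℂ) (‖y‖ + 1) ∩ Kᶜ) := isOpen_ball.inter h.reg.isClosed.isOpen_compl
  have := Measure.eqOn_open_of_ae_eq (ae_restrict_of_ae_restrict_of_subset inter_subset_left hae)
    hV ((((contDiffOn_grad h.reg.isClosed.isOpen_compl h.reg.smooth).continuousOn.mono
      inter_subset_right).norm).pow 2) continuousOn_const ⟨by simp, hy⟩
  simpa using this

/-- `u` is constant on components. -/
lemma Conn.eq_of_component {u : ℂ → ℝ} {K : Set ℂ} (h : Conn u K) (h0 : ∀ x r, En u x r = 0)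
    {a b : ℂ} (hb : b ∈ connectedComponentIn Kᶜ a) : u a = u b := by
  have ha : a ∈ Kᶜ := connectedComponentIn_nonempty_iff.1 ⟨b, hb⟩
  have hU := h.reg.isClosed.isOpen_compl
  refine hU.connectedComponentIn.is_const_of_fderiv_eq_zero isPreconnected_connectedComponentIn
    (fun z hz => (((h.reg.smooth z (connectedComponentIn_subset _ _ hz)).contDiffAt
      (hU.mem_nhds (connectedComponentIn_subset _ _ hz))).differentiableAt
      (by simp)).differentiableWithinAt) (fun z hz => ?_) (mem_connectedComponentIn ha) hb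
  have hg := h.grad_eq_zero h0 (connectedComponentIn_subset _ _ hz)
  refine ContinuousLinearMap.ext fun w => ?_
  conv_lhs => rw [← Complex.re_add_im w]
  rw [map_add, show (w.re : ℂ) = w.re • (1 : ℂ) by simp,
    show (w.im : ℂ) * Complex.I = w.im • Complex.I by simp, map_smul, map_smul,
    ← grad_re, ← grad_im, hg]
  simp

lemma Conn.tang_eq_zero {u : ℂ → ℝ} {K : Set ℂ} (h : Conn u K) (h0 : ∀ x r, En u x r = 0)
    {y : ℂ} {r : ℝ} (hr : 0 < r) (hfin : (K ∩ sphere y r).Finite) : tang u y r = 0 := by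
  set f := fun z : ℂ => dot (grad u z) (Complex.I * dir y z) ^ 2
  have hT : ((Ioc (-Real.pi) Real.pi) ∩ circleMap y r ⁻¹' K).Finite := by
    have hinj : InjOn (circleMap y r) (Ioc (-Real.pi) Real.pi) := by
      have := injOn_circleMap_of_abs_sub_le (a := -Real.pi) (b := Real.pi) (c := y) hr.ne'
        (by rw [abs_le]; constructor <;> linarith [Real.pi_pos])
      rwa [uIoc_of_le (by linarith [Real.pi_pos])] at this
    refine Set.Finite.of_finite_image (hfin.subset ?_) (hinj.mono inter_subset_left)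
    rintro _ ⟨θ, hθ, rfl⟩
    exact ⟨hθ.2, circleMap_mem_sphere y hr.le θ⟩
  rw [tang, circ, setIntegral_congr_ae measurableSet_Ioc (g := fun _ => (0 : ℝ))]
  · simp
  filter_upwards [measure_eq_zero_iff_ae_notMem.1 (hT.measure_zero volume)] with θ hθ hI
  have : circleMap y r θ ∉ K := fun hK => hθ ⟨hI, hK⟩
  simp [h.grad_eq_zero h0 this, dot]

lemma isPreconnected_sphere_diff (y : ℂ) {r : ℝ} (hr : 0 < r) {p : ℂ} (hp : p ∈ sphere y r) :
    IsPreconnected (sphere y r \ {p}) := by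
  obtain ⟨θ₀, rfl⟩ : p ∈ range (circleMap y r) := by
    rw [range_circleMap, abs_of_pos hr]; exact hp
  have e : sphere y r \ {circleMap y r θ₀} = circleMap y r '' Ioo θ₀ (θ₀ + 2 * Real.pi) := by
    ext q
    constructor
    · rintro ⟨hq, hne⟩
      obtain ⟨θ, rfl⟩ : q ∈ range (circleMap y r) := by
        rw [range_circleMap, abs_of_pos hr]; exact hq
      obtain ⟨θ', hθ', e⟩ := (periodic_circleMap y r).exists_mem_Ico Real.two_pi_pos θ θ₀
      refine ⟨θ', ⟨lt_of_le_of_ne hθ'.1 fun e' => hne ?_, hθ'.2⟩, e.symm⟩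
      rw [mem_singleton_iff, e, e']
    · rintro ⟨θ, hθ, rfl⟩
      refine ⟨circleMap_mem_sphere y hr.le θ, fun e => ?_⟩
      exact hθ.1.ne' (injOn_circleMap_of_abs_sub_le' (a := θ₀) (b := θ₀ + 2 * Real.pi) hr.ne'
        (by linarith) ⟨hθ.1.le, hθ.2⟩ ⟨le_rfl, by linarith [Real.two_pi_pos]⟩ e)
  rw [e]
  exact isPreconnected_Ioo.image _ (continuous_circleMap y r).continuousOn

/-- Lengths in disks are between twice and three times the radius. -/
lemma Conn.len_bounds (hG : GrowthGoal) {u : ℂ → ℝ} {K : Set ℂ} (h : Conn u K)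
    (h0 : ∀ x r, En u x r = 0) {y : ℂ} (hy : y ∈ K) {s : ℝ} (hs : 0 < s) :
    2 * s ≤ Len K y s ∧ Len K y s ≤ 3 * s := by
  have key : ∀ δ > (0 : ℝ), (2 - δ) * s ≤ Len K y s ∧ Len K y s ≤ (3 + δ) * s := fun δ hδ => by
    obtain ⟨ε, hε, Λ, -, hg⟩ := hG δ hδ
    exact (hg u K y s h hy hs fun t ht => by
      rw [h0]; exact mul_nonneg hε.le ht.1.le).1 s ⟨hs, le_rfl⟩
  constructor <;> refine le_of_forall_pos_le_add fun ε hε => ?_
  · have := (key (ε / s) (div_pos hε hs)).1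
    rw [sub_mul, div_mul_cancel₀ _ hs.ne'] at this
    linarith
  · have := (key (ε / s) (div_pos hε hs)).2
    rw [add_mul, div_mul_cancel₀ _ hs.ne'] at this
    linarith

/-- The facts on almost every circle. -/
lemma Conn.ae_circles (hR : RadialGoal) (hG : GrowthGoal) (hDel : DeleteGoal) (hT : TreeGoal)
    {u : ℂ → ℝ} {K : Set ℂ} (h : Conn u K) (h0 : ∀ x r, En u x r = 0) {y : ℂ} (hy : y ∈ K) :
    ∀ᵐ r : ℝ, 0 < r → 2 ≤ (K ∩ sphere y r).ncard ∧
      Len K y r ≤ (K ∩ sphere y r).ncard * r ∧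
      ((K ∩ sphere y r).ncard ≤ 3 → Len K y r = (K ∩ sphere y r).ncard * r →
        ∃ Ω : Finset ℂ, IsBalanced Ω (K ∩ sphere y r).ncard ∧
          dir y '' (K ∩ sphere y r) = ↑Ω) := by
  classical
  have hfin : ∀ᵐ r : ℝ, 0 < r → (K ∩ sphere y r).Finite := by
    have : ∀ n : ℕ, ∀ᵐ r : ℝ, r ∈ Ioo (0 : ℝ) (n + 1) → (K ∩ sphere y r).Finite := fun n =>
      (hR K y 0 (n + 1) h.reg.isClosed h.pieces h.reg.length_ne_top le_rfl (by positivity)).1
    filter_upwards [ae_all_iff.2 this] with r hr hr0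
    obtain ⟨n, hn⟩ := exists_nat_gt r
    exact hr n ⟨hr0, by linarith⟩
  obtain ⟨C, hC⟩ := hDel
  have hpos : ∀ n : ℕ, (0 : ℝ) < 1 / ((n : ℝ) + 1) := fun n => by positivity
  choose η hη C' hC' using fun n => hT _ (hpos n)
  filter_upwards [hfin, hC u K y h.reg, ae_all_iff.2 fun n => hC' n u K y h.reg]
    with r hfr hdr htr hr
  have hf := hfr hr
  have htg := h.tang_eq_zero h0 hr hf
  obtain ⟨hlb, -⟩ := h.len_bounds hG h0 hy hr
  have h2 : 2 ≤ (K ∩ sphere y r).ncard := by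
    by_contra hlt
    obtain ⟨z, hzK, hzd⟩ := Classify.exists_dist_eq h.connected h.unbounded hy hr
    have h1 : (K ∩ sphere y r).ncard = 1 := by
      have := (ncard_pos hf).2 ⟨z, hzK, mem_sphere.2 hzd⟩
      omega
    obtain ⟨p, hp⟩ := ncard_eq_one.1 h1
    have hpK : p ∈ K ∩ sphere y r := hp ▸ mem_singleton p
    have hsame : ∀ a ∈ sphere y r \ K, ∀ b ∈ sphere y r \ K,
        b ∈ connectedComponentIn Kᶜ a := fun a ha b hb => by
      have hsub : sphere y r \ {p} ⊆ Kᶜ := fun q hq hqK =>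
        hq.2 (hp ▸ (⟨hqK, hq.1⟩ : q ∈ K ∩ sphere y r))
      exact (isPreconnected_sphere_diff y hr hpK.2).subset_connectedComponentIn
        ⟨ha.1, fun e => ha.2 (e ▸ hpK.1)⟩ hsub ⟨hb.1, fun e => hb.2 (e ▸ hpK.1)⟩
    have key : ∀ δ ∈ Ioc (0 : ℝ) (1 / 4), Len K y r ≤ C * (δ * r) := by
      intro δ hδ
      have := hdr hr δ 0 {p} hδ (Finset.singleton_nonempty p)
        (fun z hz => (Finset.mem_singleton.1 hz) ▸ hpK.2) hf
        (fun w hw => ⟨p, Finset.mem_singleton_self p, by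
          rw [(hp ▸ hw : w ∈ ({p} : Set ℂ)), sub_self, norm_zero]
          exact mul_nonneg hδ.1.le hr.le⟩)
        (fun a ha b hb _ _ => by
          rw [h.eq_of_component h0 (hsame a ha b hb), sub_self, abs_zero])
        (fun a ha b hb _ _ => hsame a ha b hb)
      simpa [htg, h0] using this
    have hC0 : 0 < C := by
      nlinarith [key (1 / 4) ⟨by norm_num, le_rfl⟩]
    have hd := key (min (1 / 4) (1 / C)) ⟨lt_min (by norm_num) (one_div_pos.2 hC0), min_le_left _ _⟩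
    have : C * (min (1 / 4) (1 / C) * r) ≤ 1 * r := by
      rw [← mul_assoc]
      refine mul_le_mul_of_nonneg_right ?_ hr.le
      calc C * min (1 / 4) (1 / C) ≤ C * (1 / C) :=
            mul_le_mul_of_nonneg_left (min_le_right _ _) hC0.le
        _ = 1 := by field_simp
    linarith
  have hle : Len K y r ≤ (K ∩ sphere y r).ncard * r := by
    have := (htr 0 hr hf h2).1
    simpa [htg, h0] using this
  refine ⟨h2, hle, fun h3 heq => ⟨hf.toFinset.image (dir y), ⟨?_, ?_, ?_⟩, by simp⟩⟩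
  · rw [Finset.card_image_of_injOn, ← ncard_eq_toFinset_card _ hf]
    intro a ha b hb
    exact injOn_dir y r (hf.mem_toFinset.1 ha).2 (hf.mem_toFinset.1 hb).2
  · intro ω hω
    obtain ⟨p, hp, rfl⟩ := Finset.mem_image.1 hω
    exact norm_dir fun e => hr.ne' (by simpa [e] using (hf.mem_toFinset.1 hp).2.symm)
  · rw [Finset.sum_image fun a ha b hb => injOn_dir y r (hf.mem_toFinset.1 ha).2
      (hf.mem_toFinset.1 hb).2, ← finsum_mem_eq_finite_toFinset_sum _ hf]
    by_contra hne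
    obtain ⟨n, hn⟩ := exists_nat_one_div_lt (norm_pos_iff.2 hne)
    have := ((htr n hr hf h2).2.2 h3 hn.le)
    simp only [h0, add_zero, htg, mul_zero, heq] at this
    nlinarith [hη n]

/-- At every point: a diameter nearby or a propeller. -/
lemma Conn.diameter_or_propeller (hR : RadialGoal) (hG : GrowthGoal) (hDel : DeleteGoal)
    (hT : TreeGoal) {u : ℂ → ℝ} {K : Set ℂ} (h : Conn u K) (h0 : ∀ x r, En u x r = 0) {y : ℂ}
    (hy : y ∈ K) :
    (∃ R > (0 : ℝ), ∃ ω : ℂ, ‖ω‖ = 1 ∧ ∀ q ∈ ball y R, q ∈ K ↔ ∃ t : ℝ, q = y + t • ω) ∨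
      ∃ Ω, IsBalanced Ω 3 ∧ K = star y Ω := by
  classical
  have hae := h.ae_circles hR hG hDel hT h0 hy
  by_cases hA : ∃ R > (0 : ℝ), Len K y R ≤ 2 * R
  · obtain ⟨R, hR0, hRle⟩ := hA
    have hk : ∀ᵐ r : ℝ, r ∈ Ioo 0 R → 2 ≤ (K ∩ sphere y r).ncard :=
      hae.mono fun r hr hI => (hr hI.1).1
    have hlen : ∀ r ∈ Ioo 0 R, Len K y r ≤ (2 : ℕ) * r := fun r hr => by
      have := h.len_growth hR y (k := 2) hr.1.le hr.2.le
        (hk.mono fun s hs hI => hs ⟨hr.1.trans hI.1, hI.2⟩)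
      push_cast at this ⊢
      linarith
    obtain ⟨heq, -, -⟩ := h.count_eq hR y hk hlen
    obtain ⟨Ω, hΩ, -, hu, hΩK⟩ := h.star_of_radial hR hy two_pos hR0 (fun Ω => IsBalanced Ω 2)
      (fun _ _ h1 h2 hc => balanced_unique (Or.inl rfl) h1 h2 hc)
      (hae.mono fun r hr hI hn => by
        obtain ⟨Ω', hΩ', e⟩ := (hr hI.1).2.2 (by omega) (by rw [hn]; exact heq r hI)
        exact ⟨Ω', hn ▸ hΩ', e⟩) hk hlen
    obtain ⟨a, b, hab, rfl⟩ := Finset.card_eq_two.1 hΩ.1
    have hba : b = -a := by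
      have := hΩ.2.2
      rw [Finset.sum_pair hab] at this
      linear_combination this
    subst hba
    refine Or.inl ⟨R, hR0, a, hu a (by simp), fun q hq => ?_⟩
    have key := Set.ext_iff.1 hΩK q
    constructor
    · intro hqK
      obtain ⟨ω, hω, t, -, rfl⟩ := (key.1 ⟨hqK, hq⟩).1
      rcases Finset.mem_insert.1 hω with rfl | hω
      · exact ⟨t, rfl⟩
      · exact ⟨-t, by rw [Finset.mem_singleton.1 hω, smul_neg, neg_smul]⟩
    · rintro ⟨t, rfl⟩
      refine (key.2 ⟨?_, hq⟩).1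
      rcases le_total 0 t with ht | ht
      · exact ⟨a, by simp, t, ht, rfl⟩
      · exact ⟨-a, by simp, -t, by linarith, by rw [smul_neg, neg_smul, neg_neg]⟩
  · push Not at hA
    have hk : ∀ᵐ r : ℝ, 0 < r → 3 ≤ (K ∩ sphere y r).ncard := hae.mono fun r hr hr0 => by
      obtain ⟨h2, hle, -⟩ := hr hr0
      by_contra hlt
      rw [show (K ∩ sphere y r).ncard = 2 by omega] at hle
      push_cast at hle
      linarith [hA r hr0]
    have hlen : ∀ r > (0 : ℝ), Len K y r ≤ (3 : ℕ) * r := fun r hr =>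
      (h.len_bounds hG h0 hy hr).2.trans_eq (by norm_num)
    obtain ⟨Ω, hΩ, -, -, hK⟩ := h.eq_star_of_radial hR hy three_pos (fun Ω => IsBalanced Ω 3)
      (fun _ _ h1 h2 hc => balanced_unique (Or.inr rfl) h1 h2 hc)
      (hae.mono fun r hr hr0 hn => by
        have heq : Len K y r = (3 : ℕ) * r :=
          (h.count_eq hR y (k := 3) (R := r + 1) (hk.mono fun s hs hI => hs hI.1)
            (fun s hs => hlen s hs.1)).1 r ⟨hr0, by linarith⟩
        obtain ⟨Ω', hΩ', e⟩ := (hr hr0).2.2 (by omega) (by rw [hn]; exact heq)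
        exact ⟨Ω', hn ▸ hΩ', e⟩) hk hlen
    exact Or.inr ⟨Ω, hΩ, hK⟩

/-- **Zero energy: a line or a propeller.** -/
theorem noEnergyGoal (hR : RadialGoal) (hG : GrowthGoal) (hDel : DeleteGoal) (hT : TreeGoal) :
    NoEnergyGoal := by
  classical
  intro u K h h0
  by_cases hP : ∃ y ∈ K, ∃ Ω, IsBalanced Ω 3 ∧ K = star y Ω
  · obtain ⟨y, -, Ω, hΩ, hK⟩ := hP
    exact ⟨y, Ω, 3, Or.inr rfl, hΩ, hK⟩
  have hdiam : ∀ y ∈ K, ∃ R > (0 : ℝ), ∃ ω : ℂ, ‖ω‖ = 1 ∧
      ∀ q ∈ ball y R, q ∈ K ↔ ∃ t : ℝ, q = y + t • ω := fun y hy =>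
    (h.diameter_or_propeller hR hG hDel hT h0 hy).resolve_right fun hh => hP ⟨y, hy, hh⟩
  choose! R hR0 ω hω hd using hdiam
  obtain ⟨y₀, hy₀⟩ : K.Nonempty :=
    nonempty_iff_ne_empty.2 fun e => h.unbounded (by rw [e]; exact Bornology.isBounded_empty)
  set L : Set ℂ := {q | ∃ t : ℝ, q = y₀ + t • ω y₀} with hL
  set good : ℂ → Prop := fun z => ∃ ε > 0, K ∩ ball z ε ⊆ L
  -- a line through two points of `L` is `L`
  have hline : ∀ (q v : ℂ) (t : ℝ), t ≠ 0 → q ∈ L → q + t • v ∈ L →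
      ∀ s : ℝ, q + s • v ∈ L := by
    rintro q v t ht ⟨a, rfl⟩ ⟨b, hb⟩ s
    refine ⟨a + s * ((b - a) / t), ?_⟩
    have hv : t • v = (b - a) • ω y₀ := by
      rw [sub_smul]; linear_combination hb
    have : v = ((b - a) / t) • ω y₀ := by
      rw [div_eq_inv_mul, ← smul_smul, ← hv, smul_smul, inv_mul_cancel₀ ht, one_smul]
    rw [this, smul_smul, add_smul, add_assoc]
  have hflip : ∀ z ∈ K, ∀ q ∈ K ∩ ball z (R z), good q ↔ good z := by
    intro z hz q hq
    obtain ⟨s, rfl⟩ := (hd z hz q hq.2).1 hq.1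
    have main : ∀ c : ℝ, z + c • ω z ∈ K ∩ ball z (R z) → good (z + c • ω z) →
        ∀ e : ℝ, z + e • ω z ∈ L := by
      intro c hc ⟨ε, hε, hsub⟩ e
      have hlt : |c| < R z := by
        simpa [dist_eq_norm, norm_smul, hω z hz] using hc.2
      set d := min (ε / 2) ((R z - |c|) / 2)
      have hd0 : 0 < d := lt_min (half_pos hε) (by linarith)
      have hmem : z + c • ω z + d • ω z ∈ L := hsub ⟨(hd z hz _ (by
        rw [add_assoc, ← add_smul, mem_ball, dist_eq_norm, add_sub_cancel_left, norm_smul,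
          hω z hz, mul_one, Real.norm_eq_abs]
        refine (abs_add_le _ _).trans_lt ?_
        rw [abs_of_pos hd0]
        linarith [min_le_right (ε / 2) ((R z - |c|) / 2)])).2
          ⟨c + d, by rw [add_assoc, ← add_smul]⟩, by
        rw [mem_ball, dist_eq_norm, add_sub_cancel_left, norm_smul, hω z hz, mul_one,
          Real.norm_of_nonneg hd0.le]
        linarith [min_le_left (ε / 2) ((R z - |c|) / 2)]⟩
      have := hline _ _ d hd0.ne' (hsub ⟨hc.1, mem_ball_self hε⟩) hmem (e - c)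
      rwa [add_assoc, ← add_smul, add_sub_cancel] at this
    have hzb : z + (0 : ℝ) • ω z ∈ K ∩ ball z (R z) := by simpa using ⟨hz, hR0 z hz⟩
    constructor
    · intro hg
      refine ⟨R z, hR0 z hz, fun p hp => ?_⟩
      obtain ⟨e, rfl⟩ := (hd z hz p hp.2).1 hp.1
      exact main s hq hg e
    · intro hg
      refine ⟨R z - dist (z + s • ω z) z, sub_pos.2 hq.2, fun p hp => ?_⟩
      have hpb : p ∈ ball z (R z) := by
        have h1 := mem_ball.1 hp.2
        exact mem_ball.2 (by linarith [dist_triangle p (z + s • ω z) z])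
      obtain ⟨e, rfl⟩ := (hd z hz p hpb).1 hp.1
      exact main 0 hzb (by simpa using hg) e
  have hgood : ∀ z ∈ K, good z := by
    intro z hz
    by_contra hnz
    obtain ⟨q, hq, hq1, hq2⟩ := h.connected (⋃ p ∈ {p ∈ K | good p}, ball p (R p))
      (⋃ p ∈ {p ∈ K | ¬ good p}, ball p (R p)) (isOpen_biUnion fun _ _ => isOpen_ball)
      (isOpen_biUnion fun _ _ => isOpen_ball)
      (fun p hp => by
        by_cases hg : good p
        · exact Or.inl (mem_iUnion₂.2 ⟨p, ⟨hp, hg⟩, mem_ball_self (hR0 p hp)⟩)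
        · exact Or.inr (mem_iUnion₂.2 ⟨p, ⟨hp, hg⟩, mem_ball_self (hR0 p hp)⟩))
      ⟨y₀, hy₀, mem_iUnion₂.2 ⟨y₀, ⟨hy₀, R y₀, hR0 y₀ hy₀, fun p hp =>
        (hd y₀ hy₀ p hp.2).1 hp.1⟩, mem_ball_self (hR0 y₀ hy₀)⟩⟩
      ⟨z, hz, mem_iUnion₂.2 ⟨z, ⟨hz, hnz⟩, mem_ball_self (hR0 z hz)⟩⟩
    obtain ⟨a, ⟨ha, hga⟩, hqa⟩ := mem_iUnion₂.1 hq1
    obtain ⟨b, ⟨hb, hgb⟩, hqb⟩ := mem_iUnion₂.1 hq2
    exact hgb ((hflip b hb q ⟨hq, hqb⟩).1 ((hflip a ha q ⟨hq, hqa⟩).2 hga))
  have hKL : K ⊆ L := fun z hz => by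
    obtain ⟨ε, hε, hsub⟩ := hgood z hz
    exact hsub ⟨hz, mem_ball_self hε⟩
  set T : Set ℝ := {t | y₀ + t • ω y₀ ∈ K}
  have hTo : IsOpen T := by
    refine Metric.isOpen_iff.2 fun t ht => ⟨R (y₀ + t • ω y₀), hR0 _ ht, fun t' ht' => ?_⟩
    set z := y₀ + t • ω y₀ with hz
    obtain ⟨ε, hε, hsub⟩ := hgood z ht
    -- the diameter at `z` lies in `L`
    set d := min (ε / 2) (R z / 2)
    have hd0 : 0 < d := lt_min (half_pos hε) (half_pos (hR0 z ht))
    have hnd : ∀ r, d < r → z + d • ω z ∈ ball z r := fun r hr => by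
      simpa [dist_eq_norm, norm_smul, hω z ht, abs_of_pos hd0] using hr
    have hzd : z + d • ω z ∈ L := hsub ⟨(hd z ht _ (hnd _ (by
      linarith [min_le_right (ε / 2) (R z / 2), hR0 z ht]))).2 ⟨d, rfl⟩,
      hnd _ (by linarith [min_le_left (ε / 2) (R z / 2)])⟩
    obtain ⟨b, hb⟩ := hzd
    have hv : d • ω z = (b - t) • ω y₀ := by
      rw [sub_smul]; linear_combination hb
    have habs : |b - t| = d := by
      have := congrArg norm hv
      rw [norm_smul, norm_smul, hω z ht, hω y₀ hy₀, Real.norm_of_nonneg hd0.le] at this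
      simpa using this.symm
    have hbt : b - t ≠ 0 := fun e => hd0.ne' (by rw [← habs, e, abs_zero])
    refine (hd z ht _ ?_).2 ⟨(t' - t) * d / (b - t), ?_⟩
    · rw [mem_ball, hz, dist_eq_norm, add_sub_add_left_eq_sub, ← sub_smul, norm_smul, hω y₀ hy₀,
        mul_one]
      exact mem_ball.1 ht'
    · rw [div_eq_mul_inv, mul_right_comm, ← smul_smul _ d, hv, smul_smul, mul_assoc,
        inv_mul_cancel₀ hbt, mul_one, hz, sub_smul]
      ring
  have hT : T = univ := IsClopen.eq_univ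
    ⟨h.reg.isClosed.preimage (by fun_prop), hTo⟩ ⟨0, by simpa [T] using hy₀⟩
  have hne : ω y₀ ≠ -ω y₀ := fun e => by
    have h2 : (2 : ℂ) * ω y₀ = 0 := by linear_combination e
    have : ω y₀ = 0 := (mul_eq_zero.1 h2).resolve_left two_ne_zero
    simpa [this] using hω y₀ hy₀
  refine ⟨y₀, {ω y₀, -ω y₀}, 2, Or.inl rfl, ⟨Finset.card_pair hne, fun v hv => ?_, ?_⟩, ?_⟩
  · rcases Finset.mem_insert.1 hv with rfl | hv
    · exact hω y₀ hy₀
    · rw [Finset.mem_singleton.1 hv, norm_neg, hω y₀ hy₀]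
  · rw [Finset.sum_pair hne, add_neg_cancel]
  ext z
  constructor
  · intro hz
    obtain ⟨t, rfl⟩ := hKL hz
    rcases le_total 0 t with ht | ht
    · exact ⟨ω y₀, by simp, t, ht, rfl⟩
    · exact ⟨-ω y₀, by simp, -t, by linarith, by rw [smul_neg, neg_smul, neg_neg]⟩
  · rintro ⟨v, hv, t, -, rfl⟩
    rcases Finset.mem_insert.1 hv with rfl | hv
    · exact (hT.symm ▸ mem_univ t : t ∈ T)
    · rw [Finset.mem_singleton.1 hv, smul_neg, ← neg_smul]
      exact (hT.symm ▸ mem_univ (-t) : (-t) ∈ T)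

end Vale.Agent.P128.Bonnet
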