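import Vale.Agent.P128.Bonnet.Interface
import Vale.Agent.P128.Classify.Monotone
import Vale.Agent.P128.Connected.Separating.Translate

/-!
# Circles, polar coordinates and length

On small pieces with all chords in a thin cone the distance to the centre stretches by at most
the cosine and the direction by at most the sine of the angle with the radius.
-/

noncomputable section

namespace Vale.Agent.P128.Bonnet

open MeasureTheory Filter Metric Set Islands Connected
open scoped Topology ENNReal NNReal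

/-! ### Polar coordinates -/

lemma norm_dir {x y : ℂ} (h : y ≠ x) : ‖dir x y‖ = 1 := by
  rw [dir, norm_smul, norm_inv, norm_norm, inv_mul_cancel₀ (norm_ne_zero_iff.2 (sub_ne_zero.2 h))]

lemma dot_sq_add {G d : ℂ} (hd : ‖d‖ = 1) :
    dot G (Complex.I * d) ^ 2 + dot G d ^ 2 = ‖G‖ ^ 2 := by
  have h : dot d d = 1 := by rw [← norm_sq_eq_dot, hd, one_pow]
  rw [norm_sq_eq_dot]
  simp only [dot, Complex.mul_re, Complex.mul_im, Complex.I_re, Complex.I_im] at h ⊢
  linear_combination (G.re * G.re + G.im * G.im) * h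

/-- Polar coordinates for the energy. -/
theorem polarGoal : PolarGoal := by
  intro u K x hu
  have hpi : -Real.pi ≤ Real.pi := by linarith [Real.pi_pos]
  have hen : ∀ r, IntegrableOn (fun y => ‖grad u y‖ ^ 2) (ball x r) := fun r =>
    ((hu.memLp (‖x‖ + r)).mono_measure (Measure.restrict_mono_set _ fun z hz => by
      rw [mem_ball_zero_iff]
      rw [mem_ball, dist_eq_norm] at hz
      linarith [norm_le_norm_add_norm_sub' z x])).norm.integrable_sq
  have hcirc : ∀ᵐ s : ℝ, s ∈ Ioi (0 : ℝ) →
      tang u x s + nor u x s = Classify.circ (fun y => ‖grad u y‖ ^ 2) x s := by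
    have h : ∀ n : ℕ, ∀ᵐ s : ℝ, s ∈ Ioo (0 : ℝ) n →
        IntervalIntegrable (fun θ => ‖grad u (circleMap x s θ)‖ ^ 2) volume (-Real.pi) Real.pi := by
      intro n
      have := Classify.ae_integrableOn_circle ((integrable_indicator_iff measurableSet_ball).2
        (hen n)) x
      rw [ae_restrict_iff' measurableSet_Ioi] at this
      filter_upwards [this] with s hs hsn
      refine (hs hsn.1).congr_ae (Eventually.of_forall fun θ => indicator_of_mem ?_ _)
      simp [circleMap, abs_of_pos hsn.1, hsn.2]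
    filter_upwards [ae_all_iff.2 h] with s hs hs0
    obtain ⟨n, hn⟩ := exists_nat_gt s
    have hE := hs n ⟨hs0, hn⟩
    have hd : ∀ θ, ‖dir x (circleMap x s θ)‖ = 1 := fun θ =>
      norm_dir (by simp [(show (0 : ℝ) < s from hs0).ne'])
    have hm : ∀ g : ℂ → ℂ, Measurable g → IntervalIntegrable
        (fun θ => dot (grad u (circleMap x s θ)) (g (circleMap x s θ)) ^ 2) volume
        (-Real.pi) Real.pi ∨ ¬ ∀ θ, ‖g (circleMap x s θ)‖ = 1 := by
      intro g hg
      by_cases hg1 : ∀ θ, ‖g (circleMap x s θ)‖ = 1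
      · refine Or.inl (hE.mono_fun' ?_ (Eventually.of_forall fun θ => ?_))
        · have hG := (Potential.measurable_grad u).comp (continuous_circleMap x s).measurable
          have hg' := hg.comp (continuous_circleMap x s).measurable
          unfold dot
          exact ((((Complex.measurable_re.comp hG).mul (Complex.measurable_re.comp hg')).add
            ((Complex.measurable_im.comp hG).mul
              (Complex.measurable_im.comp hg'))).pow_const 2).aestronglyMeasurable
        · simp only [Real.norm_eq_abs, abs_of_nonneg (sq_nonneg (dot _ _))]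
          refine sq_le_sq.2 ?_
          rw [abs_norm]
          exact (Connected.abs_dot_le _ _).trans (by rw [hg1 θ, mul_one])
      · exact Or.inr hg1
    have hdm : Measurable (dir x) := by
      unfold dir
      exact ((measurable_id.sub_const x).norm.inv).smul (measurable_id.sub_const x)
    have i1 := (hm (fun y => Complex.I * dir x y) (measurable_const.mul hdm)).resolve_right
      fun h => h fun θ => by rw [norm_mul, Complex.norm_I, hd θ, one_mul]
    have i2 := (hm (dir x) hdm).resolve_right fun h => h hd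
    simp only [tang, nor, circ, Classify.circ]
    rw [← mul_add, ← intervalIntegral.integral_of_le hpi, ← intervalIntegral.integral_of_le hpi,
      ← intervalIntegral.integral_add i1 i2]
    congr 1
    exact intervalIntegral.integral_congr fun θ _ => dot_sq_add (hd θ)
  refine ⟨fun r hr => ?_, fun r hr => ?_⟩
  · refine IntegrableOn.congr_fun_ae ((intervalIntegrable_iff_integrableOn_Ioc_of_le hr).1
      (Classify.intervalIntegrable_circ hr (hen r))) ?_
    rw [EventuallyEq, ae_restrict_iff' measurableSet_Ioc]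
    exact hcirc.mono fun s hs hs' => (hs hs'.1).symm
  · rw [En, Classify.setIntegral_ball_eq_circ hr (hen r), intervalIntegral.integral_of_le hr]
    exact setIntegral_congr_ae measurableSet_Ioc (hcirc.mono fun s hs hs' => (hs hs'.1).symm)

/-! ### Stretching on a piece -/

lemma norm_le_cross {d w : ℂ} (hd : ‖d‖ = 1) :
    ‖w - dot w d • d‖ = |dot w (Complex.I * d)| := by
  have h : dot d d = 1 := by rw [← norm_sq_eq_dot, hd, one_pow]
  have e : w - dot w d • d = dot w (Complex.I * d) • (Complex.I * d) := by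
    simp only [dot] at h
    apply Complex.ext <;> simp [dot]
    · linear_combination (-w.re) * h
    · linear_combination (-w.im) * h
  rw [e, norm_smul, norm_mul, Complex.norm_I, hd, Real.norm_eq_abs, mul_one, mul_one]

/-- The distance to the centre, to first order. -/
lemma dist_sub_bounds {x y z : ℂ} (hy : y ≠ x) (hz : z ≠ x) :
    dot (z - y) (dir x y) ≤ ‖z - x‖ - ‖y - x‖ ∧ ‖z - x‖ - ‖y - x‖ ≤ dot (z - y) (dir x z) := by
  have key : ∀ p q : ℂ, q ≠ x → ‖q - x‖ - ‖p - x‖ ≤ dot (q - p) (dir x q) := by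
    intro p q hq
    have h1 : dot (q - x) (dir x q) = ‖q - x‖ := by
      have hn := norm_ne_zero_iff.2 (sub_ne_zero.2 hq)
      have h2 := norm_sq_eq_dot (q - x)
      simp only [dir, dot, Complex.smul_re, Complex.smul_im, smul_eq_mul] at h2 ⊢
      field_simp
      linarith
    have h2 : dot (p - x) (dir x q) ≤ ‖p - x‖ :=
      ((le_abs_self _).trans (Connected.abs_dot_le _ _)).trans (by rw [norm_dir hq, mul_one])
    have h3 : dot (q - p) (dir x q) = dot (q - x) (dir x q) - dot (p - x) (dir x q) := by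
      simp [dot]; ring
    linarith
  refine ⟨?_, key y z hz⟩
  have := key z y hy
  have e : dot (y - z) (dir x y) = -dot (z - y) (dir x y) := by simp [dot]; ring
  linarith

lemma dir_sub_eq {x y z : ℂ} (hy : y ≠ x) (hz : z ≠ x) :
    dir x z - dir x y = ‖z - x‖⁻¹ • ((z - y) - (‖z - x‖ - ‖y - x‖) • dir x y) := by
  have h1 := norm_ne_zero_iff.2 (sub_ne_zero.2 hy)
  have h2 := norm_ne_zero_iff.2 (sub_ne_zero.2 hz)
  simp only [dir]
  apply Complex.ext <;> simp <;> field_simp <;> ring

lemma norm_dir_sub_le {x y z : ℂ} {a : ℝ} (ha : 0 < a) (hy : a ≤ ‖y - x‖) (hz : a ≤ ‖z - x‖) :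
    ‖dir x z - dir x y‖ ≤ 2 * ‖z - y‖ / a := by
  have hy' : y ≠ x := fun h => by simp [h] at hy; linarith
  have hz' : z ≠ x := fun h => by simp [h] at hz; linarith
  rw [dir_sub_eq hy' hz', norm_smul, norm_inv, norm_norm, inv_mul_eq_div]
  have h1 : ‖(z - y) - (‖z - x‖ - ‖y - x‖) • dir x y‖ ≤ 2 * ‖z - y‖ := by
    refine (norm_sub_le _ _).trans ?_
    rw [norm_smul, norm_dir hy', mul_one, Real.norm_eq_abs]
    have := abs_norm_sub_norm_le (z - x) (y - x)
    rw [sub_sub_sub_cancel_right] at this
    linarith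
  exact div_le_div₀ (by positivity) h1 ha hz

/-- On a piece: the distance to the centre and the direction. -/
lemma piece_bounds {x y₀ y z τ : ℂ} {a d η : ℝ} (ha : 0 < a) (hτ : ‖τ‖ = 1) (hy₀ : a ≤ ‖y₀ - x‖)
    (hy : a ≤ ‖y - x‖) (hz : a ≤ ‖z - x‖) (hyd : ‖y - y₀‖ ≤ d) (hzd : ‖z - y₀‖ ≤ d)
    (hc : ‖(z - y) - dot (z - y) τ • τ‖ ≤ η * ‖z - y‖) :
    |‖z - x‖ - ‖y - x‖| ≤ (|dot τ (dir x y₀)| + η + 2 * d / a) * ‖z - y‖ ∧
      ‖dir x z - dir x y‖ ≤ (|dot τ (Complex.I * dir x y₀)| + η + 4 * d / a) / a * ‖z - y‖ := by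
  have hd0 : 0 ≤ d := (norm_nonneg _).trans hyd
  have h0' : y₀ ≠ x := fun h => by simp [h] at hy₀; linarith
  have hy' : y ≠ x := fun h => by simp [h] at hy; linarith
  have hz' : z ≠ x := fun h => by simp [h] at hz; linarith
  set w := z - y with hw
  have hτw : |dot w τ| ≤ ‖w‖ := (Connected.abs_dot_le _ _).trans (by rw [hτ, mul_one])
  have hcone : ∀ e : ℂ, ‖e‖ = 1 → |dot w e| ≤ (|dot τ e| + η) * ‖w‖ := by
    intro e he
    have : dot w e = dot w τ * dot τ e + dot (w - dot w τ • τ) e := by simp [dot]; ring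
    rw [this, add_mul]
    refine (abs_add_le _ _).trans (add_le_add ?_ ?_)
    · rw [abs_mul, mul_comm]; exact mul_le_mul_of_nonneg_left hτw (abs_nonneg _)
    · exact (Connected.abs_dot_le _ _).trans (by rw [he, mul_one]; exact hc)
  have hclose : ∀ q : ℂ, a ≤ ‖q - x‖ → ‖q - y₀‖ ≤ d →
      |dot w (dir x q) - dot w (dir x y₀)| ≤ 2 * d / a * ‖w‖ := by
    intro q hq hqd
    have e : dot w (dir x q) - dot w (dir x y₀) = dot w (dir x q - dir x y₀) := by
      simp [dot]; ring
    rw [e, mul_comm (2 * d / a)]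
    refine (Connected.abs_dot_le _ _).trans (mul_le_mul_of_nonneg_left ?_ (norm_nonneg _))
    exact (norm_dir_sub_le ha hy₀ hq).trans (by gcongr)
  set δ := ‖z - x‖ - ‖y - x‖ with hδ
  obtain ⟨lo, hi⟩ := dist_sub_bounds hy' hz'
  have hδ0 : |δ - dot w (dir x y₀)| ≤ 2 * d / a * ‖w‖ := by
    have h1 := abs_le.1 (hclose y hy hyd)
    have h2 := abs_le.1 (hclose z hz hzd)
    rw [abs_le]
    constructor <;> linarith
  refine ⟨?_, ?_⟩
  · have h1 := abs_le.1 hδ0
    have h2 := abs_le.1 (hcone (dir x y₀) (norm_dir h0'))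
    have e : (|dot τ (dir x y₀)| + η + 2 * d / a) * ‖w‖ =
        (|dot τ (dir x y₀)| + η) * ‖w‖ + 2 * d / a * ‖w‖ := by ring
    rw [e, abs_le]
    constructor <;> linarith
  · rw [dir_sub_eq hy' hz', norm_smul, norm_inv, norm_norm, inv_mul_eq_div, ← hw, ← hδ]
    have h1 : ‖w - δ • dir x y‖ ≤
        (|dot τ (Complex.I * dir x y₀)| + η + 4 * d / a) * ‖w‖ := by
      have e : w - δ • dir x y = (w - dot w (dir x y₀) • dir x y₀) +
          (dot w (dir x y₀) - δ) • dir x y₀ + δ • (dir x y₀ - dir x y) := by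
        simp only [sub_smul, smul_sub]; abel
      rw [e]
      refine norm_add₃_le.trans ?_
      rw [norm_le_cross (norm_dir h0'), norm_smul, norm_dir h0', mul_one, norm_smul,
        Real.norm_eq_abs, Real.norm_eq_abs, abs_sub_comm]
      have t1 := hcone (Complex.I * dir x y₀) (by rw [norm_mul, Complex.norm_I, norm_dir h0', one_mul])
      have t2 : ‖dir x y₀ - dir x y‖ ≤ 2 * d / a := by
        refine (norm_dir_sub_le ha hy hy₀).trans ?_
        rw [norm_sub_rev]
        gcongr
      have t3 : |δ| ≤ ‖w‖ := by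
        have := abs_norm_sub_norm_le (z - x) (y - x)
        rwa [sub_sub_sub_cancel_right] at this
      have t4 := mul_le_mul t3 t2 (norm_nonneg _) (norm_nonneg _)
      have e2 : (|dot τ (Complex.I * dir x y₀)| + η + 4 * d / a) * ‖w‖ =
          (|dot τ (Complex.I * dir x y₀)| + η) * ‖w‖ + 2 * d / a * ‖w‖ + ‖w‖ * (2 * d / a) := by
        ring
      rw [e2]
      linarith
    rw [div_mul_eq_mul_div (_ + _) a ‖w‖]
    exact div_le_div₀ ((norm_nonneg _).trans h1) h1 ha hz

/-! ### Points on circles -/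

/-- `k` points with mutual distances at least `ε` on a circle form a closed condition. -/
lemma isClosed_many {A : Set ℂ} (hA : IsCompact A) (x : ℂ) (k : ℕ) (ε : ℝ) :
    IsClosed {r : ℝ | ∃ p : Fin k → ℂ, (∀ i, p i ∈ A ∧ dist (p i) x = r) ∧
      ∀ i j, i ≠ j → ε ≤ dist (p i) (p j)} := by
  rcases Nat.eq_zero_or_pos k with rfl | hk
  · convert isClosed_univ (X := ℝ)
    exact eq_univ_of_forall fun r => ⟨finZeroElim, fun i => i.elim0, fun i => i.elim0⟩
  let i₀ : Fin k := ⟨0, hk⟩
  set T : Set (Fin k → ℂ) := {p | (∀ i, p i ∈ A) ∧ (∀ i, dist (p i) x = dist (p i₀) x) ∧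
    ∀ i j, i ≠ j → ε ≤ dist (p i) (p j)}
  have hT : IsCompact T := by
    refine (isCompact_univ_pi fun _ => hA).of_isClosed_subset ?_ fun p hp i _ => hp.1 i
    simp only [T, ofPred_and, ofPred_forall]
    refine (isClosed_iInter fun i => hA.isClosed.preimage (continuous_apply i)).inter
      ((isClosed_iInter fun i => isClosed_eq (by fun_prop) (by fun_prop)).inter
        (isClosed_iInter fun i => isClosed_iInter fun j => isClosed_iInter fun _ =>
          isClosed_le continuous_const (by fun_prop)))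
  convert (hT.image (f := fun p : Fin k → ℂ => dist (p i₀) x) (by fun_prop)).isClosed using 1
  ext r
  constructor
  · rintro ⟨p, hp, hs⟩
    exact ⟨p, ⟨fun i => (hp i).1, fun i => (hp i).2.trans (hp i₀).2.symm, hs⟩, (hp i₀).2⟩
  · rintro ⟨p, ⟨h1, h2, h3⟩, rfl⟩
    exact ⟨p, fun i => ⟨h1 i, h2 i⟩, h3⟩

/-- `k` points of a set: as a separated family. -/
lemma le_encard_sphere_iff {A : Set ℂ} (x : ℂ) (k : ℕ) (r : ℝ) :
    (k : ℕ∞) ≤ (A ∩ sphere x r).encard ↔ ∃ j : ℕ, ∃ p : Fin k → ℂ,
      (∀ i, p i ∈ A ∧ dist (p i) x = r) ∧ ∀ i i', i ≠ i' → 1 / ((j : ℝ) + 1) ≤ dist (p i) (p i') := by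
  constructor
  · intro h
    obtain ⟨t, hts, htc⟩ := exists_subset_encard_eq h
    have htf : t.Finite := finite_of_encard_eq_coe htc
    have hcard : htf.toFinset.card = k := by
      rw [htf.encard_eq_coe_toFinset_card] at htc
      exact_mod_cast htc
    set p : Fin k → ℂ := fun i => ((htf.toFinset.equivFinOfCardEq hcard).symm i : ℂ)
    have hp : ∀ i, p i ∈ t := fun i => htf.mem_toFinset.1 (Subtype.coe_prop _)
    have hinj : Function.Injective p := fun i i' h' =>
      (htf.toFinset.equivFinOfCardEq hcard).symm.injective (Subtype.ext h')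
    have hev : ∀ i i', i ≠ i' → ∀ᶠ j : ℕ in atTop, 1 / ((j : ℝ) + 1) ≤ dist (p i) (p i') :=
      fun i i' hne => (tendsto_one_div_add_atTop_nhds_zero_nat (𝕜 := ℝ)).eventually
        (ge_mem_nhds (dist_pos.2 (hinj.ne hne)))
    obtain ⟨j, hj⟩ : ∃ j : ℕ, ∀ i i', i ≠ i' → 1 / ((j : ℝ) + 1) ≤ dist (p i) (p i') := by
      refine Eventually.exists (f := atTop) (eventually_all.2 fun i => eventually_all.2 fun i' => ?_)
      by_cases hne : i = i'
      · exact Eventually.of_forall fun _ h' => absurd hne h'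
      · exact (hev i i' hne).mono fun j hj _ => hj
    exact ⟨j, p, fun i => ⟨(hts (hp i)).1, (hts (hp i)).2⟩, hj⟩
  · rintro ⟨j, p, hp, hs⟩
    have hinj : Function.Injective p := fun i i' h' => by
      by_contra hne
      have := hs i i' hne
      rw [h', dist_self] at this
      exact absurd this (not_le.2 (by positivity))
    calc (k : ℕ∞) = ENat.card (Fin k) := by simp
      _ = (range p).encard := by rw [← image_univ, hinj.encard_image, encard_univ]
      _ ≤ _ := encard_le_encard (by rintro _ ⟨i, rfl⟩; exact ⟨(hp i).1, (hp i).2⟩)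

lemma measurable_encard_sphere {A : Set ℂ} (hA : IsCompact A) (x : ℂ) :
    Measurable fun r : ℝ => (A ∩ sphere x r).encard := by
  have hk : ∀ k : ℕ, MeasurableSet {r : ℝ | (k : ℕ∞) ≤ (A ∩ sphere x r).encard} := fun k => by
    simp only [le_encard_sphere_iff, ofPred_exists]
    refine MeasurableSet.iUnion fun j => ?_
    convert (isClosed_many hA x k (1 / ((j : ℝ) + 1))).measurableSet using 1
    ext r; simp
  refine measurable_to_countable' fun N => ?_
  induction N using ENat.recTopCoe with
  | top =>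
    have e : (fun r : ℝ => (A ∩ sphere x r).encard) ⁻¹' {⊤} =
        ⋂ k : ℕ, {r : ℝ | (k : ℕ∞) ≤ (A ∩ sphere x r).encard} := by
      ext r
      simp only [mem_preimage, mem_singleton_iff, mem_iInter, mem_ofPred_eq]
      exact ⟨fun h k => h ▸ le_top, fun h => ENat.eq_top_iff_forall_ge.2 h⟩
    rw [e]
    exact MeasurableSet.iInter hk
  | coe n =>
    have e : (fun r : ℝ => (A ∩ sphere x r).encard) ⁻¹' {(n : ℕ∞)} =
        {r : ℝ | (n : ℕ∞) ≤ (A ∩ sphere x r).encard} \
          {r : ℝ | ((n + 1 : ℕ) : ℕ∞) ≤ (A ∩ sphere x r).encard} := by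
      ext r
      simp only [mem_preimage, mem_singleton_iff, Set.mem_sdiff, mem_ofPred_eq, not_le,
        Nat.cast_add, Nat.cast_one, ENat.lt_add_one_iff (ENat.natCast_ne_top n)]
      exact ⟨fun h => ⟨h.ge, h.le⟩, fun h => le_antisymm h.2 h.1⟩
    rw [e]
    exact MeasurableSet.diff (hk n) (hk (n + 1))

/-- At scale `d`: measurable counts of the points on circles, and directions, against length. -/
lemma exists_count {A : Set ℂ} (hP : ConePieces A) (x : ℂ) {a d : ℝ} (hd : 0 < d)
    (hA : ∀ y ∈ A, a ≤ ‖y - x‖) :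
    ∃ U : ℝ → ℝ≥0∞, Measurable U ∧
      (∀ᵐ r : ℝ, ∀ (k : ℕ) (p : Fin k → ℂ), (∀ i, p i ∈ A ∧ dist (p i) x = r) →
        (∀ i i', i ≠ i' → d < dist (p i) (p i')) → (k : ℝ≥0∞) ≤ U r) ∧
      ∫⁻ r, U r ≤ Measure.hausdorffMeasure 1 A ∧
      ∀ l : ℝ, 0 < l → 0 < a →
        ENNReal.ofReal a * Measure.hausdorffMeasure 1 (dir x '' A) + ENNReal.ofReal (1 / l) * ∫⁻ r, U r ≤
          ENNReal.ofReal (l / 2 + 1 / l + (d + 4 * d / a) * (1 + 1 / l)) *
            Measure.hausdorffMeasure 1 A := by
  set m := (Measure.hausdorffMeasure 1 : Measure ℂ)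
  obtain ⟨E, τ, hEm, hEd, hτ, hEA, hcone, hrest⟩ := hP d hd d hd
  set f : ℂ → ℝ := fun y => dist y x with hf
  have hfl : LipschitzWith 1 f := LipschitzWith.dist_left x
  set Z := A \ ⋃ i, E i
  have hfZ : (volume : Measure ℝ) (f '' Z) = 0 := by
    rw [← hausdorffMeasure_real]
    have := hfl.hausdorffMeasure_image_le (d := 1) zero_le_one Z
    rw [hrest, mul_zero] at this
    exact nonpos_iff_eq_zero.1 this
  set M : ℕ → Set ℝ := fun i => toMeasurable volume (f '' E i) with hM
  set U : ℝ → ℝ≥0∞ := fun r => ∑' i, (M i).indicator 1 r with hU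
  have hUm : Measurable U :=
    Measurable.tsum fun i => measurable_one.indicator (measurableSet_toMeasurable _ _)
  have hUint : ∫⁻ r, U r = ∑' i, volume (f '' E i) := by
    rw [hU, lintegral_tsum fun i =>
      (measurable_one.indicator (measurableSet_toMeasurable _ _)).aemeasurable]
    congr 1
    funext i
    rw [lintegral_indicator_one (measurableSet_toMeasurable _ _), measure_toMeasurable]
  have hsum : ∀ L : ℕ → ℝ≥0∞, ∀ c, (∀ i, (E i).Nonempty → L i ≤ c) →
      ∑' i, L i * m (E i) ≤ c * m A := fun L c h =>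
    calc ∑' i, L i * m (E i) ≤ ∑' i, c * m (E i) :=
          ENNReal.tsum_le_tsum fun i => by
            rcases (E i).eq_empty_or_nonempty with he | he
            · simp [he]
            · exact mul_le_mul_left (h i he) _
      _ = c * m (⋃ i, E i) := by rw [ENNReal.tsum_mul_left, measure_iUnion hEd hEm]
      _ ≤ _ := mul_le_mul_right (measure_mono (iUnion_subset hEA)) _
  refine ⟨U, hUm, ?_, ?_, fun l hl ha' => ?_⟩
  · filter_upwards [measure_eq_zero_iff_ae_notMem.1 hfZ] with r hr k p hp hsep
    have hmem : ∀ i, ∃ n, p i ∈ E n := fun i => by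
      by_contra hn
      exact hr ⟨p i, ⟨(hp i).1, fun h' => hn (mem_iUnion.1 h')⟩, (hp i).2⟩
    choose n hn using hmem
    have hinj : Function.Injective n := fun i i' h' => by
      by_contra hne
      have h1 := (hcone (n i) _ (hn i) (p i') (h' ▸ hn i')).1
      have h2 := hsep i i' hne
      rw [dist_eq_norm, norm_sub_rev] at h2
      linarith
    classical
    calc (k : ℝ≥0∞) = ∑ j ∈ Finset.univ.image n, (M j).indicator (1 : ℝ → ℝ≥0∞) r := by
          rw [Finset.sum_image hinj.injOn, Finset.sum_congr rfl (g := fun _ => (1 : ℝ≥0∞))]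
          · simp
          · intro i _
            exact indicator_of_mem (subset_toMeasurable _ _ (show r ∈ f '' E (n i) from
              ⟨p i, hn i, (hp i).2⟩)) (f := (1 : ℝ → ℝ≥0∞))
      _ ≤ U r := ENNReal.sum_le_tsum _
  · rw [hUint]
    refine le_trans ?_ ((hsum (fun _ => 1) 1 fun _ _ => le_rfl).trans_eq (one_mul _))
    refine ENNReal.tsum_le_tsum fun i => ?_
    rw [← hausdorffMeasure_real, one_mul]
    simpa using hfl.hausdorffMeasure_image_le (d := 1) zero_le_one (E i)
  · choose! y₀ hy₀ using fun i (h : (E i).Nonempty) => h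
    set c : ℕ → ℝ := fun i => |dot (τ i) (dir x (y₀ i))| + d + 2 * d / a with hc
    set s : ℕ → ℝ := fun i =>
      (|dot (τ i) (Complex.I * dir x (y₀ i))| + d + 4 * d / a) / a with hs
    have hc0 : ∀ i, 0 ≤ c i := fun i => by simp only [hc]; positivity
    have hs0 : ∀ i, 0 ≤ s i := fun i => by simp only [hs]; positivity
    have hb : ∀ i, ∀ y ∈ E i, ∀ z ∈ E i, |f z - f y| ≤ c i * ‖z - y‖ ∧
        ‖dir x z - dir x y‖ ≤ s i * ‖z - y‖ := by
      intro i y hy z hz
      have h0 := hy₀ i ⟨y, hy⟩
      simpa [hf, hc, hs, dist_eq_norm] using piece_bounds ha' (hτ i) (hA _ (hEA i h0))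
        (hA _ (hEA i hy)) (hA _ (hEA i hz)) ((hcone i _ h0 y hy).1) ((hcone i _ h0 z hz).1)
        (hcone i y hy z hz).2
    have hfE : ∀ i, volume (f '' E i) ≤ ENNReal.ofReal (c i) * m (E i) := by
      intro i
      have h1 : LipschitzOnWith (c i).toNNReal f (E i) :=
        lipschitzOnWith_iff_norm_sub_le.2 fun z hz y hy => by
          rw [Real.coe_toNNReal _ (hc0 i), Real.norm_eq_abs]
          exact (hb i y hy z hz).1
      rw [← hausdorffMeasure_real]
      have := h1.hausdorffMeasure_image_le (d := 1) zero_le_one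
      rwa [ENNReal.rpow_one] at this
    have hdE : ∀ i, m (dir x '' E i) ≤ ENNReal.ofReal (s i) * m (E i) := by
      intro i
      have h1 : LipschitzOnWith (s i).toNNReal (dir x) (E i) :=
        lipschitzOnWith_iff_norm_sub_le.2 fun z hz y hy => by
          rw [Real.coe_toNNReal _ (hs0 i)]
          exact (hb i y hy z hz).2
      have := h1.hausdorffMeasure_image_le (d := 1) zero_le_one
      rwa [ENNReal.rpow_one] at this
    have hdZ : m (dir x '' Z) = 0 := by
      have h1 : LipschitzOnWith (2 / a).toNNReal (dir x) Z :=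
        lipschitzOnWith_iff_norm_sub_le.2 fun z hz y hy => by
          rw [Real.coe_toNNReal _ (by positivity)]
          exact (norm_dir_sub_le ha' (hA _ hy.1) (hA _ hz.1)).trans_eq (by ring)
      have := h1.hausdorffMeasure_image_le (d := 1) zero_le_one
      rw [hrest, mul_zero] at this
      exact nonpos_iff_eq_zero.1 this
    have hdA : m (dir x '' A) ≤ ∑' i, ENNReal.ofReal (s i) * m (E i) :=
      calc m (dir x '' A) ≤ m (dir x '' (⋃ i, E i)) + m (dir x '' Z) := by
            refine le_trans (measure_mono ?_) (measure_union_le _ _)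
            rw [← image_union]
            exact image_mono fun y hy => (em (y ∈ ⋃ i, E i)).imp id fun h => ⟨hy, h⟩
        _ = m (dir x '' (⋃ i, E i)) := by rw [hdZ, add_zero]
        _ ≤ ∑' i, m (dir x '' E i) := by rw [image_iUnion]; exact measure_iUnion_le _
        _ ≤ _ := ENNReal.tsum_le_tsum hdE
    calc ENNReal.ofReal a * m (dir x '' A) + ENNReal.ofReal (1 / l) * ∫⁻ r, U r
        ≤ ENNReal.ofReal a * ∑' i, ENNReal.ofReal (s i) * m (E i) +
          ENNReal.ofReal (1 / l) * ∑' i, ENNReal.ofReal (c i) * m (E i) := by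
          rw [hUint]
          exact add_le_add (mul_le_mul_right hdA _)
            (mul_le_mul_right (ENNReal.tsum_le_tsum hfE) _)
      _ = ∑' i, (ENNReal.ofReal a * ENNReal.ofReal (s i) +
            ENNReal.ofReal (1 / l) * ENNReal.ofReal (c i)) * m (E i) := by
          rw [← ENNReal.tsum_mul_left, ← ENNReal.tsum_mul_left, ← ENNReal.tsum_add]
          simp only [add_mul, mul_assoc]
      _ ≤ _ := by
          refine hsum _ _ fun i hne => ?_
          rw [← ENNReal.ofReal_mul ha'.le, ← ENNReal.ofReal_mul (by positivity),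
            ← ENNReal.ofReal_add (by have := hs0 i; positivity) (by have := hc0 i; positivity)]
          refine ENNReal.ofReal_le_ofReal ?_
          have hu : ‖dir x (y₀ i)‖ = 1 := norm_dir fun h => by
            have := hA _ (hEA i (hy₀ i hne)); simp [h] at this; linarith
          have h1 := dot_sq_add (G := τ i) hu
          rw [hτ i, one_pow] at h1
          simp only [hc, hs]
          set p := |dot (τ i) (dir x (y₀ i))| with hp
          set q := |dot (τ i) (Complex.I * dir x (y₀ i))| with hq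
          rw [← sq_abs, ← sq_abs (dot _ (dir x (y₀ i))), ← hp, ← hq] at h1
          have hp0 : 0 ≤ p := abs_nonneg _
          have hp1 : p ≤ 1 := by nlinarith
          have hq' : q ≤ l / 2 + (1 - p) / l := by
            rw [← sub_nonneg, show l / 2 + (1 - p) / l - q =
              (l ^ 2 + 2 * (1 - p) - 2 * l * q) / (2 * l) by field_simp]
            exact div_nonneg (by nlinarith [sq_nonneg (l - q)]) (by positivity)
          rw [mul_div_cancel₀ _ ha'.ne']
          have h2 : 2 * d / a ≤ 4 * d / a := by gcongr; norm_num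
          calc q + d + 4 * d / a + 1 / l * (p + d + 2 * d / a)
              ≤ (l / 2 + (1 - p) / l) + d + 4 * d / a + 1 / l * (p + d + 4 * d / a) := by
                gcongr
            _ = _ := by field_simp; ring

/-- A preconnected set has at least the length of the distance of two of its points. -/
lemma le_length_of_preconnected {S : Set ℂ} (hS : IsPreconnected S) {p q : ℂ} (hp : p ∈ S)
    (hq : q ∈ S) : ENNReal.ofReal ‖p - q‖ ≤ Measure.hausdorffMeasure 1 S := by
  have hsub : Icc 0 (dist q p) ⊆ (fun w => dist w p) '' S := by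
    intro t ht
    exact hS.intermediate_value hp hq (by fun_prop) ⟨by simpa using ht.1, ht.2⟩
  have h := (LipschitzWith.dist_left p).hausdorffMeasure_image_le (d := 1) zero_le_one S
  rw [hausdorffMeasure_real, ENNReal.coe_one, ENNReal.one_rpow, one_mul] at h
  refine le_trans ?_ ((measure_mono hsub).trans h)
  rw [Real.volume_Icc, sub_zero, dist_eq_norm, norm_sub_rev]

/-- Circles and length. -/
theorem radialGoal : RadialGoal := by
  intro K x a b hK hP hfin ha hab
  set m := (Measure.hausdorffMeasure 1 : Measure ℂ)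
  set A := K ∩ (closedBall x b \ ball x a) with hA
  have hAcl : IsClosed A := hK.inter (isClosed_closedBall.inter isOpen_ball.isClosed_compl)
  have hAc : IsCompact A :=
    (isCompact_closedBall x b).of_isClosed_subset hAcl (inter_subset_right.trans sdiff_subset)
  have hAR : A ⊆ K ∩ ball 0 (‖x‖ + b + 1) := by
    rintro y ⟨hy, hyb, -⟩
    rw [mem_closedBall, dist_eq_norm] at hyb
    exact ⟨hy, mem_ball_zero_iff.2 (by linarith [norm_le_norm_add_norm_sub' y x])⟩
  have hAfin : m A ≠ ⊤ := ne_top_of_le_ne_top (hfin _) (measure_mono hAR)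
  have hAP : ConePieces A := (hP _).mono hAcl.measurableSet hAR
  have hAa : ∀ y ∈ A, a ≤ ‖y - x‖ := fun y hy => by
    simpa [mem_ball, dist_eq_norm, not_lt] using hy.2.2
  have hcount : ∀ n : ℕ, ∃ U : ℝ → ℝ≥0∞, Measurable U ∧ _ := fun n =>
    exists_count hAP x (Nat.one_div_pos_of_nat (n := n) : (0 : ℝ) < 1 / ((n : ℝ) + 1)) hAa
  choose U hUm hUk hUle hUd using hcount
  set N : ℝ → ℝ≥0∞ := fun r => ((A ∩ sphere x r).encard : ℝ≥0∞) with hN
  have hNm : Measurable N := measurable_of_countable (fun k : ℕ∞ => (k : ℝ≥0∞)) |>.comp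
    (measurable_encard_sphere hAc x)
  have hNle : ∀ᵐ r : ℝ, N r ≤ liminf (fun n => U n r) atTop := by
    filter_upwards [ae_all_iff.2 hUk] with r hr
    have key : ∀ k : ℕ, (k : ℕ∞) ≤ (A ∩ sphere x r).encard →
        (k : ℝ≥0∞) ≤ liminf (fun n => U n r) atTop := by
      intro k hk
      obtain ⟨j, p, hp, hs⟩ := (le_encard_sphere_iff x k r).1 hk
      refine le_liminf_of_le (by isBoundedDefault) ?_
      filter_upwards [(tendsto_one_div_add_atTop_nhds_zero_nat (𝕜 := ℝ)).eventually
        (gt_mem_nhds (show (0 : ℝ) < 1 / ((j : ℝ) + 1) by positivity))] with n hn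
      exact hr n k p hp fun i i' hne => hn.trans_le (hs i i' hne)
    rcases eq_or_ne (A ∩ sphere x r).encard ⊤ with htop | htop
    · have : liminf (fun n => U n r) atTop = ⊤ :=
        ENNReal.eq_top_of_forall_nnreal_le fun c => by
          obtain ⟨k, hk⟩ := exists_nat_ge c
          exact le_trans (by exact_mod_cast hk) (key k (htop ▸ le_top))
      rw [this]; exact le_top
    · lift (A ∩ sphere x r).encard to ℕ using htop with k hk
      simpa [hN, ← hk] using key k le_rfl
  have hint : ∫⁻ r in Ioo a b, N r ≤ liminf (fun n => ∫⁻ r, U n r) atTop :=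
    ((lintegral_mono_ae (ae_restrict_of_ae hNle)).trans (setLIntegral_le_lintegral _ _)).trans
      (lintegral_liminf_le hUm)
  have hint1 : ∫⁻ r in Ioo a b, N r ≤ m A :=
    hint.trans (liminf_le_of_frequently_le' (Frequently.of_forall hUle))
  have hsame : ∀ r ∈ Ioo a b, A ∩ sphere x r = K ∩ sphere x r := fun r hr => by
    refine subset_antisymm (fun y hy => ⟨hy.1.1, hy.2⟩) fun y hy => ⟨⟨hy.1, ?_, ?_⟩, hy.2⟩
    · rw [mem_closedBall, show dist y x = r from hy.2]; exact hr.2.le
    · rw [mem_ball, show dist y x = r from hy.2, not_lt]; exact hr.1.le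
  have hfinN : ∀ᵐ r ∂(volume.restrict (Ioo a b)), (A ∩ sphere x r).Finite := by
    filter_upwards [ae_lt_top hNm (ne_top_of_le_ne_top hAfin hint1)] with r hr
    exact encard_ne_top_iff.1 fun h => by simp [hN, h] at hr
  have hcast : ∀ r, (A ∩ sphere x r).Finite →
      ((A ∩ sphere x r).ncard : ℝ) = (N r).toReal := fun r hr => by
    simp [hN, ← hr.cast_ncard_eq]
  have hae : (fun r => ((K ∩ sphere x r).ncard : ℝ)) =ᵐ[volume.restrict (Ioo a b)]
      fun r => (N r).toReal := by
    filter_upwards [hfinN, ae_restrict_mem measurableSet_Ioo] with r hr hr'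
    rw [← hsame r hr']
    exact hcast r hr
  have hNint : IntegrableOn (fun r => (N r).toReal) (Ioo a b) :=
    integrable_toReal_of_lintegral_ne_top hNm.aemeasurable (ne_top_of_le_ne_top hAfin hint1)
  set I := ∫ r in Ioo a b, ((K ∩ sphere x r).ncard : ℝ) with hI
  have hIeq : I = (∫⁻ r in Ioo a b, N r).toReal := by
    rw [hI, integral_congr_ae hae]
    exact integral_toReal hNm.aemeasurable
      (ae_lt_top hNm (ne_top_of_le_ne_top hAfin hint1))
  refine ⟨?_, hNint.congr hae.symm, hIeq ▸ ENNReal.toReal_mono hAfin hint1, ?_⟩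
  · rw [← ae_restrict_iff' measurableSet_Ioo]
    filter_upwards [hfinN, ae_restrict_mem measurableSet_Ioo] with r hr hr'
    exact hsame r hr' ▸ hr
  intro S hS hSp y hy z hz
  rcases ha.eq_or_lt with rfl | ha'
  · rw [zero_mul]; positivity
  set H := (m A).toReal
  have hIH : I ≤ H := hIeq ▸ ENNReal.toReal_mono hAfin hint1
  have hcont : ContinuousOn (dir x) A := by
    unfold dir
    refine ((continuousOn_id.sub continuousOn_const).norm.inv₀ fun w hw => ?_).smul
      (continuousOn_id.sub continuousOn_const)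
    exact (ha'.trans_le (hAa w hw)).ne'
  have hlen : ENNReal.ofReal ‖dir x y - dir x z‖ ≤ m (dir x '' A) :=
    (le_length_of_preconnected (hSp.image _ (hcont.mono hS)) (mem_image_of_mem _ hy)
      (mem_image_of_mem _ hz)).trans (measure_mono (image_mono hS))
  set Δ := a * ‖dir x y - dir x z‖
  have hΔ0 : 0 ≤ Δ := by positivity
  -- the trade-off at each weight
  have key : ∀ l : ℝ, 0 < l → Δ + I / l ≤ (l / 2 + 1 / l) * H := by
    intro l hl
    refine le_of_forall_pos_le_add fun ε hε => ?_
    set q := fun n : ℕ => (1 / ((n : ℝ) + 1) + 4 * (1 / ((n : ℝ) + 1)) / a) * (1 + 1 / l)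
    have hq : Tendsto q atTop (𝓝 0) := by
      have h0 := tendsto_one_div_add_atTop_nhds_zero_nat (𝕜 := ℝ)
      simpa [q] using ((h0.add ((h0.const_mul 4).div_const a)).mul_const (1 + 1 / l))
    have hev : ∀ᶠ n in atTop, ∫⁻ r, U n r ≤
        ENNReal.ofReal (l * ((l / 2 + 1 / l) * H + ε - Δ)) ∧
          0 ≤ l * ((l / 2 + 1 / l) * H + ε - Δ) := by
      filter_upwards [hq.eventually (gt_mem_nhds (show (0 : ℝ) < ε / (H + 1) by positivity))]
        with n hn
      have h := hUd n l hl ha'
      have hne : ∫⁻ r, U n r ≠ ⊤ := ne_top_of_le_ne_top hAfin (hUle n)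
      have h' : ENNReal.ofReal Δ + ENNReal.ofReal (1 / l) * ∫⁻ r, U n r ≤
          ENNReal.ofReal (l / 2 + 1 / l + q n) * m A := by
        refine le_trans (add_le_add ?_ le_rfl) h
        rw [ENNReal.ofReal_mul ha'.le]
        exact mul_le_mul_right hlen _
      have h2 := ENNReal.toReal_mono (ENNReal.mul_ne_top ENNReal.ofReal_ne_top hAfin) h'
      rw [ENNReal.toReal_add ENNReal.ofReal_ne_top (ENNReal.mul_ne_top ENNReal.ofReal_ne_top hne),
        ENNReal.toReal_mul, ENNReal.toReal_mul, ENNReal.toReal_ofReal hΔ0,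
        ENNReal.toReal_ofReal (by positivity), ENNReal.toReal_ofReal (by positivity)] at h2
      have h3 : q n * H ≤ ε := by
        calc q n * H ≤ ε / (H + 1) * (H + 1) :=
              mul_le_mul hn.le (by linarith) ENNReal.toReal_nonneg (by positivity)
          _ = ε := div_mul_cancel₀ _ (by positivity)
      have hmain : (∫⁻ r, U n r).toReal ≤ l * ((l / 2 + 1 / l) * H + ε - Δ) := by
        rw [← div_le_iff₀' hl]
        have e : (∫⁻ r, U n r).toReal / l = 1 / l * (∫⁻ r, U n r).toReal := by ring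
        have e' : (l / 2 + 1 / l + q n) * (m A).toReal = (l / 2 + 1 / l) * H + q n * H := by ring
        rw [e]
        linarith
      refine ⟨?_, ENNReal.toReal_nonneg.trans hmain⟩
      rw [← ENNReal.ofReal_toReal hne]
      exact ENNReal.ofReal_le_ofReal hmain
    obtain ⟨_, -, hpos⟩ := hev.exists
    have hb := hint.trans (liminf_le_of_frequently_le' (hev.mono fun _ h => h.1).frequently)
    have hIle : I ≤ l * ((l / 2 + 1 / l) * H + ε - Δ) :=
      hIeq ▸ ENNReal.toReal_le_of_le_ofReal hpos hb
    have : I / l ≤ (l / 2 + 1 / l) * H + ε - Δ := by rwa [div_le_iff₀' hl]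
    linarith
  -- optimise the weight
  show Δ ≤ 2 * Real.sqrt (H * (H - I))
  have hH0 : 0 ≤ H := ENNReal.toReal_nonneg
  set g := Real.sqrt (H * (H - I))
  have hg : g * g = H * (H - I) := Real.mul_self_sqrt (mul_nonneg hH0 (by linarith))
  refine le_of_forall_pos_le_add fun ε hε => ?_
  rcases hH0.eq_or_lt with hH | hH
  · have := key 1 one_pos
    rw [← hH] at this hIH
    have hI0 : 0 ≤ I := hIeq ▸ ENNReal.toReal_nonneg
    have hg0 : 0 ≤ g := Real.sqrt_nonneg _
    linarith
  · have hl : 0 < (g + ε) / H := div_pos (by positivity) hH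
    have h := key _ hl
    have hg0 : 0 ≤ g := Real.sqrt_nonneg _
    have e1 : (g + ε) / H / 2 * H = (g + ε) / 2 := by field_simp
    have e2 : 1 / ((g + ε) / H) * H - I / ((g + ε) / H) = H * (H - I) / (g + ε) := by field_simp
    have e3 : H * (H - I) / (g + ε) ≤ g := by
      rw [div_le_iff₀ (by positivity), ← hg]
      nlinarith
    linarith [add_mul ((g + ε) / H / 2) (1 / ((g + ε) / H)) H]

end Vale.Agent.P128.Bonnet
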