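import Vale.Agent.P128.Bonnet.GrowthBasic
import Vale.Agent.P128.Connected.Slicing

/-!
# Stars where density and energy are those of a line or a propeller

Most radii are fine: the circle has `k` points in balanced directions. The radial deficit makes
the direction constant on connected parts of the annulus, one of which crosses it, so all fine
radii share one frame.
-/

noncomputable section

namespace Vale.Agent.P128.Bonnet

open MeasureTheory Filter Metric Set Islands Connected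
open scoped Topology ENNReal NNReal Real

/-- A circle with `k` points in almost balanced directions. -/
def IsFine (K : Set ℂ) (x : ℂ) (k : ℕ) (δ r : ℝ) : Prop :=
  (K ∩ sphere x r).Finite ∧ (K ∩ sphere x r).ncard = k ∧
    ‖∑ᶠ z ∈ K ∩ sphere x r, dir x z‖ < δ

/-! ### Continua in an annulus -/

/-- A component missing a closed set is inside a relatively clopen part missing it. -/
lemma exists_clopen_avoid {A F : Set ℂ} (hA : IsCompact A) (hF : IsClosed F) {y : ℂ} (hy : y ∈ A)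
    (h : connectedComponentIn A y ∩ F = ∅) :
    ∃ Z ⊆ A, IsClosed Z ∧ IsClosed (A \ Z) ∧ y ∈ Z ∧ Disjoint Z F := by
  have := isCompact_iff_compactSpace.1 hA
  set p : A := ⟨y, hy⟩
  have hT : IsCompact ((Subtype.val : A → ℂ) ⁻¹' F) :=
    (hF.preimage continuous_subtype_val).isCompact
  obtain ⟨t, ht⟩ := hT.elim_finite_subfamily_closed
    (fun s : { s : Set A // IsClopen s ∧ p ∈ s } => (s : Set A)) (fun s => s.2.1.1) (by
      rw [← connectedComponent_eq_iInter_isClopen, eq_empty_iff_forall_notMem]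
      rintro q ⟨hq, hqc⟩
      exact eq_empty_iff_forall_notMem.1 h q
        ⟨connectedComponentIn_eq_image hy ▸ mem_image_of_mem _ hqc, hq⟩)
  set Z : Set A := ⋂ i ∈ t, (i : Set A)
  have hZ : IsClopen Z := isClopen_biInter_finset fun i _ => i.2.1
  refine ⟨Subtype.val '' Z, Subtype.coe_image_subset _ _,
    (hZ.isClosed.isCompact.image continuous_subtype_val).isClosed, ?_,
    ⟨p, mem_iInter₂.2 fun i _ => i.2.2, rfl⟩, ?_⟩
  · have e : A \ Subtype.val '' Z = Subtype.val '' Zᶜ := by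
      ext w
      constructor
      · exact fun hw => ⟨⟨w, hw.1⟩, fun hz => hw.2 (mem_image_of_mem Subtype.val hz), rfl⟩
      · rintro ⟨q, hq, rfl⟩
        exact ⟨q.2, fun ⟨q', hq', e⟩ => hq (Subtype.ext e ▸ hq')⟩
    rw [e]
    exact (hZ.compl.isClosed.isCompact.image continuous_subtype_val).isClosed
  · rw [disjoint_left]
    rintro _ ⟨q, hq, rfl⟩ hqF
    exact eq_empty_iff_forall_notMem.1 ht q ⟨hqF, hq⟩

variable {u : ℂ → ℝ} {K : Set ℂ} {x : ℂ}

lemma isCompact_annulus (hK : IsClosed K) (x : ℂ) (a b : ℝ) :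
    IsCompact (K ∩ (closedBall x b \ ball x a)) :=
  ((isCompact_closedBall x b).diff isOpen_ball).inter_left hK

/-- Every component in an annulus round a point of `K` reaches one of the circles. -/
lemma component_meets (h : Conn u K) (hx : x ∈ K) {a b : ℝ} (ha : 0 < a)
    {y : ℂ} (hy : y ∈ K ∩ (closedBall x b \ ball x a)) :
    (connectedComponentIn (K ∩ (closedBall x b \ ball x a)) y ∩
      (sphere x a ∪ sphere x b)).Nonempty := by
  by_contra hne
  rw [not_nonempty_iff_eq_empty] at hne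
  obtain ⟨Z, hZA, hZ, hAZ, hyZ, hZF⟩ := exists_clopen_avoid (isCompact_annulus h.reg.isClosed x a b)
    (isClosed_sphere.union isClosed_sphere) hy hne
  set A := K ∩ (closedBall x b \ ball x a) with hA
  have hout : ∀ w ∈ Z, a < dist w x ∧ dist w x < b := by
    intro w hw
    have h1 := (hZA hw).2
    have h2 := disjoint_left.1 hZF hw
    simp only [Set.mem_sdiff, mem_closedBall, mem_ball, not_lt] at h1
    simp only [mem_union, mem_sphere, not_or] at h2
    exact ⟨lt_of_le_of_ne h1.2 (Ne.symm h2.1), lt_of_le_of_ne h1.1 h2.2⟩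
  obtain ⟨w, -, hwZ, hw⟩ := isPreconnected_closed_iff.1 h.connected Z
    ((A \ Z) ∪ (K ∩ closedBall x a) ∪ (K \ ball x b)) hZ
    ((hAZ.union (h.reg.isClosed.inter isClosed_closedBall)).union
      (h.reg.isClosed.sdiff isOpen_ball))
    (fun w hw => by
      by_cases hwA : w ∈ A
      · by_cases hwZ : w ∈ Z
        · exact Or.inl hwZ
        · exact Or.inr (Or.inl (Or.inl ⟨hwA, hwZ⟩))
      · by_cases hwa : w ∈ ball x a
        · exact Or.inr (Or.inl (Or.inr ⟨hw, ball_subset_closedBall hwa⟩))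
        · exact Or.inr (Or.inr ⟨hw, fun hwb => hwA ⟨hw, ball_subset_closedBall hwb, hwa⟩⟩))
    ⟨y, hy.1, hyZ⟩ ⟨x, hx, Or.inl (Or.inr ⟨hx, mem_closedBall_self ha.le⟩)⟩
  obtain ⟨h1, h2⟩ := hout w hwZ
  rcases hw with (hw | hw) | hw
  · exact hw.2 hwZ
  · exact (mem_closedBall.1 hw.2).not_gt h1
  · exact hw.2 (mem_ball.2 h2)

/-- One component crosses the annulus. -/
lemma exists_crossing (h : Conn u K) (hx : x ∈ K) {a b : ℝ} (ha : 0 < a) (hab : a < b)
    (hfin : (K ∩ sphere x a).Finite) :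
    ∃ y ∈ K ∩ sphere x a,
      (connectedComponentIn (K ∩ (closedBall x b \ ball x a)) y ∩ sphere x b).Nonempty := by
  by_contra hne
  push Not at hne
  set A := K ∩ (closedBall x b \ ball x a) with hA
  have hAc : IsCompact A := isCompact_annulus h.reg.isClosed x a b
  have hAs : ∀ y ∈ K ∩ sphere x a, y ∈ A := fun y hy => by
    have := mem_sphere.1 hy.2
    exact ⟨hy.1, mem_closedBall.2 (by linarith), fun hb => by linarith [mem_ball.1 hb]⟩
  choose! Z hZA hZ hAZ hyZ hZF using fun y (hy : y ∈ K ∩ sphere x a) =>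
    exists_clopen_avoid hAc isClosed_sphere (hAs y hy) (hne y hy)
  set U := ⋃ y ∈ K ∩ sphere x a, Z y with hU
  have hUc : IsClosed U := hfin.isClosed_biUnion hZ
  obtain ⟨p, hp⟩ := exists_mem_sphere h hx ha.le
  have hAU : IsClosed (A \ U) := by
    have e : A \ U = ⋂ y ∈ K ∩ sphere x a, A \ Z y := by
      ext w
      simp only [hU, Set.mem_sdiff, mem_iUnion, exists_prop, not_exists, not_and, mem_iInter]
      exact ⟨fun hw y hy => ⟨hw.1, hw.2 y hy⟩, fun hw => ⟨(hw p hp).1, fun y hy => (hw y hy).2⟩⟩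
    rw [e]
    exact isClosed_biInter hAZ
  obtain ⟨q, hq⟩ := exists_mem_sphere h hx (show 0 ≤ b + 1 by linarith)
  have hq' : q ∈ K \ ball x b := ⟨hq.1, fun hb => by
    linarith [mem_ball.1 hb, mem_sphere.1 hq.2]⟩
  obtain ⟨w, hwK, hw1, hw2⟩ := isPreconnected_closed_iff.1 h.connected
    ((K ∩ closedBall x a) ∪ U) ((A \ U) ∪ (K \ ball x b))
    ((h.reg.isClosed.inter isClosed_closedBall).union hUc)
    (hAU.union (h.reg.isClosed.sdiff isOpen_ball))
    (fun w hw => by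
      by_cases hwa : w ∈ closedBall x a
      · exact Or.inl (Or.inl ⟨hw, hwa⟩)
      by_cases hwb : w ∈ ball x b
      · by_cases hwU : w ∈ U
        · exact Or.inl (Or.inr hwU)
        · exact Or.inr (Or.inl ⟨⟨hw, ball_subset_closedBall hwb,
            fun h' => hwa (ball_subset_closedBall h')⟩, hwU⟩)
      · exact Or.inr (Or.inr ⟨hw, hwb⟩))
    ⟨x, hx, Or.inl ⟨hx, mem_closedBall_self ha.le⟩⟩ ⟨q, hq.1, Or.inr hq'⟩
  have hmem : ∀ v ∈ A, v ∈ closedBall x a → v ∈ U := fun v hv hva =>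
    have hvs : v ∈ K ∩ sphere x a :=
      ⟨hv.1, mem_sphere.2 (le_antisymm hva (not_lt.1 hv.2.2))⟩
    mem_iUnion₂.2 ⟨v, hvs, hyZ v hvs⟩
  rcases hw1 with ⟨-, hw1⟩ | hw1 <;> rcases hw2 with hw2 | hw2
  · exact hw2.2 (hmem w hw2.1 hw1)
  · exact hw2.2 (mem_ball.2 ((mem_closedBall.1 hw1).trans_lt hab))
  · exact hw2.2 hw1
  · obtain ⟨y, hy, hwy⟩ := mem_iUnion₂.1 hw1
    refine hw2.2 (mem_ball.2 (lt_of_le_of_ne (hZA y hy hwy).2.1 fun e => ?_))
    exact disjoint_left.1 (hZF y hy) hwy (mem_sphere.2 e)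

/-! ### Frames -/

/-- The third root of unity. -/
def rho : ℂ := ⟨-1 / 2, Real.sqrt 3 / 2⟩

/-- Two unit vectors which with `1` sum almost to zero are almost the roots of unity. -/
lemma roots_near {v w : ℂ} {β : ℝ} (hβ : β ≤ 1 / 50) (hv : ‖v‖ = 1) (hw : ‖w‖ = 1)
    (hs : ‖1 + v + w‖ ≤ β) (him : w.im ≤ v.im) :
    ‖v - rho‖ ≤ 13 * β ∧ ‖w - starRingEnd ℂ rho‖ ≤ 13 * β := by
  have hβ0 : 0 ≤ β := (norm_nonneg _).trans hs
  set e := 1 + v + w with he
  have her : |e.re| ≤ β := (Complex.abs_re_le_norm e).trans hs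
  have hei : |e.im| ≤ β := (Complex.abs_im_le_norm e).trans hs
  have hv2 : v.re ^ 2 + v.im ^ 2 = 1 := by
    have := congrArg (fun t : ℝ => t ^ 2) hv
    simp only [Complex.sq_norm, Complex.normSq_apply] at this
    linarith
  have hw2 : w.re ^ 2 + w.im ^ 2 = 1 := by
    have := congrArg (fun t : ℝ => t ^ 2) hw
    simp only [Complex.sq_norm, Complex.normSq_apply] at this
    linarith
  have ew : w.re = e.re - 1 - v.re ∧ w.im = e.im - v.im := by
    refine ⟨?_, by simp [he]⟩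
    simp [he]; ring
  obtain ⟨e1, e2⟩ := abs_le.1 her
  obtain ⟨e3, e4⟩ := abs_le.1 hei
  obtain ⟨c1, c2⟩ := abs_le.1 ((Complex.abs_re_le_norm v).trans hv.le)
  obtain ⟨c3, c4⟩ := abs_le.1 ((Complex.abs_im_le_norm v).trans hv.le)
  -- `|w| = 1` says where `v` is
  have hid : 2 * v.re + 1 = 2 * (e.re * (1 + v.re)) + 2 * (e.im * v.im) -
      (e.re * e.re + e.im * e.im) := by
    rw [ew.1, ew.2] at hw2
    linear_combination hw2 - hv2
  have hre : |v.re + 1 / 2| ≤ 4 * β := by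
    have b1 : |e.re * (1 + v.re)| ≤ β * 2 := by
      rw [abs_mul]
      exact mul_le_mul her (abs_le.2 ⟨by linarith, by linarith⟩) (abs_nonneg _) hβ0
    have b2 : |e.im * v.im| ≤ β * 1 := by
      rw [abs_mul]
      exact mul_le_mul hei (abs_le.2 ⟨c3, c4⟩) (abs_nonneg _) hβ0
    have b3 : |e.re * e.re| ≤ β * β := by rw [abs_mul]; exact mul_le_mul her her (abs_nonneg _) hβ0
    have b4 : |e.im * e.im| ≤ β * β := by rw [abs_mul]; exact mul_le_mul hei hei (abs_nonneg _) hβ0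
    obtain ⟨p1, p2⟩ := abs_le.1 b1
    obtain ⟨p3, p4⟩ := abs_le.1 b2
    obtain ⟨p5, p6⟩ := abs_le.1 b3
    obtain ⟨p7, p8⟩ := abs_le.1 b4
    have b5 : β * β ≤ β * (1 / 50) := mul_le_mul_of_nonneg_left hβ hβ0
    exact abs_le.2 ⟨by linarith, by linarith⟩
  obtain ⟨r1, r2⟩ := abs_le.1 hre
  have h3 : Real.sqrt 3 ^ 2 = 3 := Real.sq_sqrt (by norm_num)
  have h17 : (17 / 10 : ℝ) ≤ Real.sqrt 3 := Real.le_sqrt_of_sq_le (by norm_num)
  -- `v` is the upper one
  have hvim : 0 ≤ v.im := by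
    by_contra hneg
    push Not at hneg
    have h1 : v.re ^ 2 ≤ (3 / 5) ^ 2 := sq_le_sq' (by linarith) (by linarith)
    have h2 : v.im ^ 2 ≤ (1 / 100) ^ 2 := sq_le_sq' (by linarith [ew.2]) (by linarith)
    linarith
  have him' : |v.im - Real.sqrt 3 / 2| ≤ 6 * β := by
    have hprod : (v.im - Real.sqrt 3 / 2) * (v.im + Real.sqrt 3 / 2) =
        (1 / 2 - v.re) * (1 / 2 + v.re) := by
      linear_combination hv2 - (1 / 4) * h3
    have h1 : |1 / 2 - v.re| ≤ 11 / 10 := abs_le.2 ⟨by linarith, by linarith⟩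
    have h2 : |(1 / 2 - v.re) * (1 / 2 + v.re)| ≤ 11 / 10 * (4 * β) := by
      rw [abs_mul]
      exact mul_le_mul h1 (by rwa [add_comm]) (abs_nonneg _) (by norm_num)
    have h4 : |v.im - Real.sqrt 3 / 2| * (17 / 20) ≤
        |v.im - Real.sqrt 3 / 2| * |v.im + Real.sqrt 3 / 2| :=
      mul_le_mul_of_nonneg_left (le_trans (by linarith) (le_abs_self _)) (abs_nonneg _)
    rw [← abs_mul, hprod] at h4
    linarith
  obtain ⟨i1, i2⟩ := abs_le.1 him'
  constructor
  · refine (Complex.norm_le_abs_re_add_abs_im _).trans ?_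
    simp only [rho, Complex.sub_re, Complex.sub_im]
    have a1 : |v.re - -1 / 2| ≤ 4 * β := abs_le.2 ⟨by linarith, by linarith⟩
    linarith [him']
  · refine (Complex.norm_le_abs_re_add_abs_im _).trans ?_
    simp only [rho, Complex.sub_re, Complex.sub_im, Complex.conj_re, Complex.conj_im]
    have a1 : |w.re - -1 / 2| ≤ 5 * β := abs_le.2 ⟨by linarith, by linarith⟩
    have a2 : |w.im - -(Real.sqrt 3 / 2)| ≤ 7 * β := abs_le.2 ⟨by linarith, by linarith⟩
    linarith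

/-- The frame of a direction. -/
lemma exists_frame {k : ℕ} (hk : k = 2 ∨ k = 3) {d : ℂ} (hd : ‖d‖ = 1) :
    ∃ Ω : Finset ℂ, IsBalanced Ω k ∧ (∀ ω ∈ Ω, ∀ ω' ∈ Ω, ω ≠ ω' → dot ω ω' ≤ -1 / 2) ∧
      ∀ V : Finset ℂ, V.card = k → (∀ v ∈ V, ‖v‖ = 1) → ∀ v₀ ∈ V, ∀ β : ℝ, β ≤ 1 / 100 →
        ‖v₀ - d‖ ≤ β → ‖∑ v ∈ V, v‖ ≤ β → ∀ ω ∈ Ω, ∃ v ∈ V, ‖v - ω‖ ≤ 30 * β := by
  have hdd : dot d d = 1 := by rw [← norm_sq_eq_dot, hd, one_pow]
  have hd0 : d ≠ 0 := fun h => by simp [h] at hd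
  rcases hk with rfl | rfl
  · refine ⟨{d, -d}, ⟨?_, ?_, ?_⟩, ?_, ?_⟩
    · exact Finset.card_pair fun h => hd0 (by simpa [eq_neg_iff_add_eq_zero, ← two_mul] using h)
    · intro ω hω
      simp only [Finset.mem_insert, Finset.mem_singleton] at hω
      rcases hω with rfl | rfl <;> simp [hd]
    · rw [Finset.sum_pair fun h => hd0 (by simpa [eq_neg_iff_add_eq_zero, ← two_mul] using h)]
      simp
    · intro ω hω ω' hω' hne
      simp only [Finset.mem_insert, Finset.mem_singleton] at hω hω'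
      rcases hω with rfl | rfl <;> rcases hω' with rfl | rfl
      · exact absurd rfl hne
      · simp [dot] at hdd ⊢; linarith
      · simp [dot] at hdd ⊢; linarith
      · exact absurd rfl hne
    · intro V hV _ v₀ hv₀ β hβ h0 hs ω hω
      classical
      have hβ0 : 0 ≤ β := (norm_nonneg _).trans h0
      obtain ⟨v, hv⟩ := Finset.card_eq_one.1
        (show (V.erase v₀).card = 1 by rw [Finset.card_erase_of_mem hv₀, hV])
      have hvV : v ∈ V := Finset.mem_of_mem_erase (hv.symm ▸ Finset.mem_singleton_self v)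
      rw [← Finset.add_sum_erase V _ hv₀, hv, Finset.sum_singleton] at hs
      simp only [Finset.mem_insert, Finset.mem_singleton] at hω
      rcases hω with rfl | rfl
      · exact ⟨v₀, hv₀, h0.trans (by linarith)⟩
      · refine ⟨v, hvV, ?_⟩
        calc ‖v - -d‖ = ‖(v₀ + v) - (v₀ - d)‖ := by congr 1; ring
          _ ≤ ‖v₀ + v‖ + ‖v₀ - d‖ := norm_sub_le _ _
          _ ≤ 30 * β := by linarith
  · have hcd : starRingEnd ℂ d * d = 1 := by
      rw [mul_comm, Complex.mul_conj, Complex.normSq_eq_norm_sq, hd, one_pow, Complex.ofReal_one]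
    have h3 : Real.sqrt 3 ^ 2 = 3 := Real.sq_sqrt (by norm_num)
    have h3' : 0 < Real.sqrt 3 := Real.sqrt_pos.2 (by norm_num)
    set cr := starRingEnd ℂ rho with hcr
    have hρ : ‖rho‖ = 1 := by
      rw [← Real.sqrt_sq (norm_nonneg rho), Complex.sq_norm, Complex.normSq_apply]
      rw [Real.sqrt_eq_one]
      simp [rho]
      linear_combination (1 / 4 : ℝ) * h3
    have hne1 : d ≠ d * rho := fun h => by
      have := mul_left_cancel₀ hd0 ((mul_one d).trans h)
      simp [rho, Complex.ext_iff] at this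
      norm_num at this
    have hne2 : d ≠ d * cr := fun h => by
      have := mul_left_cancel₀ hd0 ((mul_one d).trans h)
      simp [cr, rho, Complex.ext_iff] at this
    have hne3 : d * rho ≠ d * cr := fun h => by
      have := congrArg Complex.im (mul_left_cancel₀ hd0 h)
      simp [cr, rho] at this
      linarith
    have hdot : ∀ a b : ℂ, dot (d * a) (d * b) = dot a b := fun a b => by
      simp only [dot, Complex.mul_re, Complex.mul_im] at hdd ⊢
      linear_combination (a.re * b.re + a.im * b.im) * hdd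
    have hdot1 : ∀ b : ℂ, dot d (d * b) = b.re := fun b => by
      have := hdot 1 b
      rw [mul_one] at this
      rw [this]; simp [dot]
    refine ⟨{d, d * rho, d * cr}, ⟨?_, ?_, ?_⟩, ?_, ?_⟩
    · rw [Finset.card_eq_three]
      exact ⟨d, d * rho, d * cr, hne1, hne2, hne3, rfl⟩
    · intro ω hω
      simp only [Finset.mem_insert, Finset.mem_singleton] at hω
      rcases hω with rfl | rfl | rfl
      · exact hd
      · rw [norm_mul, hd, hρ, one_mul]
      · rw [norm_mul, hd, hcr, Complex.norm_conj, hρ, one_mul]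
    · rw [Finset.sum_insert (by simp [hne1, hne2]), Finset.sum_pair hne3]
      have e : d + (d * rho + d * cr) = d * (1 + rho + cr) := by ring
      have e2 : (1 : ℂ) + rho + cr = 0 := by
        apply Complex.ext <;> simp [cr, rho]
        norm_num
      rw [e, e2, mul_zero]
    · have hrc : dot rho cr = -1 / 2 := by
        simp [dot, cr, rho]; linear_combination (-(1 / 4) : ℝ) * h3
      have hsym : ∀ a b : ℂ, dot a b = dot b a := fun a b => by simp [dot]; ring
      intro ω hω ω' hω' hne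
      simp only [Finset.mem_insert, Finset.mem_singleton] at hω hω'
      rcases hω with rfl | rfl | rfl <;> rcases hω' with rfl | rfl | rfl
      · exact absurd rfl hne
      · rw [hdot1]; simp [rho]
      · rw [hdot1]; simp [cr, rho]
      · rw [hsym, hdot1]; simp [rho]
      · exact absurd rfl hne
      · rw [hdot, hrc]
      · rw [hsym, hdot1]; simp [cr, rho]
      · rw [hdot, hsym, hrc]
      · exact absurd rfl hne
    · intro V hV hVn v₀ hv₀ β hβ h0 hs ω hω
      classical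
      have hβ0 : 0 ≤ β := (norm_nonneg _).trans h0
      obtain ⟨v, w, hvw, hvw'⟩ := Finset.card_eq_two.1
        (show (V.erase v₀).card = 2 by rw [Finset.card_erase_of_mem hv₀, hV])
      have hvV : v ∈ V := Finset.mem_of_mem_erase (hvw'.symm ▸ Finset.mem_insert_self v _)
      have hwV : w ∈ V := Finset.mem_of_mem_erase
        (hvw'.symm ▸ Finset.mem_insert_of_mem (Finset.mem_singleton_self w))
      rw [← Finset.add_sum_erase V _ hv₀, hvw', Finset.sum_pair hvw] at hs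
      have hrot : ∀ z, ‖starRingEnd ℂ d * z‖ = ‖z‖ := fun z => by
        rw [norm_mul, Complex.norm_conj, hd, one_mul]
      have hsum : ‖1 + starRingEnd ℂ d * v + starRingEnd ℂ d * w‖ ≤ 2 * β := by
        calc ‖1 + starRingEnd ℂ d * v + starRingEnd ℂ d * w‖
            = ‖starRingEnd ℂ d * ((v₀ + (v + w)) - (v₀ - d))‖ := by
              congr 1; linear_combination (-1 : ℂ) * hcd
          _ ≤ ‖v₀ + (v + w)‖ + ‖v₀ - d‖ := by rw [hrot]; exact norm_sub_le _ _
          _ ≤ 2 * β := by linarith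
      have back : ∀ z z' : ℂ, ‖z - d * z'‖ = ‖starRingEnd ℂ d * z - z'‖ := fun z z' => by
        rw [← hrot (z - d * z')]
        congr 1
        linear_combination (-z') * hcd
      have key : ∃ p ∈ V, ∃ p' ∈ V, ‖p - d * rho‖ ≤ 30 * β ∧ ‖p' - d * cr‖ ≤ 30 * β := by
        rcases le_total (starRingEnd ℂ d * w).im (starRingEnd ℂ d * v).im with him | him
        · obtain ⟨a, b⟩ := roots_near (by linarith) ((hrot v).trans (hVn v hvV))
            ((hrot w).trans (hVn w hwV)) hsum him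
          exact ⟨v, hvV, w, hwV, (back v _).trans_le (a.trans (by linarith)),
            (back w _).trans_le (b.trans (by linarith))⟩
        · rw [add_right_comm] at hsum
          obtain ⟨a, b⟩ := roots_near (by linarith) ((hrot w).trans (hVn w hwV))
            ((hrot v).trans (hVn v hvV)) hsum him
          exact ⟨w, hwV, v, hvV, (back w _).trans_le (a.trans (by linarith)),
            (back v _).trans_le (b.trans (by linarith))⟩
      obtain ⟨p, hp, p', hp', a, b⟩ := key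
      simp only [Finset.mem_insert, Finset.mem_singleton] at hω
      rcases hω with rfl | rfl | rfl
      · exact ⟨v₀, hv₀, h0.trans (by linarith)⟩
      · exact ⟨p, hp, a⟩
      · exact ⟨p', hp', b⟩

lemma frame_sep {Ω : Finset ℂ} (hu : ∀ ω ∈ Ω, ‖ω‖ = 1)
    (hd : ∀ ω ∈ Ω, ∀ ω' ∈ Ω, ω ≠ ω' → dot ω ω' ≤ -1 / 2) {ω ω' : ℂ} (hω : ω ∈ Ω) (hω' : ω' ∈ Ω)
    (h : ‖ω - ω'‖ ≤ 1) : ω = ω' := by
  by_contra hne
  have h1 := hd ω hω ω' hω' hne
  have h2 := pow_le_pow_left₀ (norm_nonneg _) h 2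
  have ha := norm_sq_eq_dot ω
  have hb := norm_sq_eq_dot ω'
  rw [hu ω hω] at ha
  rw [hu ω' hω'] at hb
  rw [norm_sq_eq_dot] at h2
  simp only [dot, Complex.sub_re, Complex.sub_im] at h1 h2 ha hb
  nlinarith

/-- The points on a fine circle correspond to the directions of the frame. -/
lemma fine_circle {Ω : Finset ℂ} {k : ℕ} (hΩ : IsBalanced Ω k)
    (hd : ∀ ω ∈ Ω, ∀ ω' ∈ Ω, ω ≠ ω' → dot ω ω' ≤ -1 / 2) {P : Set ℂ} (hf : P.Finite)
    (hc : P.ncard = k) {B : ℝ} (hB : B ≤ 1 / 4)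
    (hnear : ∀ ω ∈ Ω, ∃ z ∈ P, ‖dir x z - ω‖ ≤ B) :
    (∀ z ∈ P, ∃ ω ∈ Ω, ‖dir x z - ω‖ ≤ B) ∧
      ∀ z ∈ P, ∀ z' ∈ P, ∀ ω ∈ Ω, ‖dir x z - ω‖ ≤ B → ‖dir x z' - ω‖ ≤ B → z = z' := by
  classical
  choose! p hpP hp using hnear
  have hinj : Set.InjOn p Ω := fun a ha b hb e => by
    refine frame_sep hΩ.2.1 hd ha hb ?_
    calc ‖a - b‖ = ‖(dir x (p b) - b) - (dir x (p a) - a)‖ := by rw [e]; congr 1; ring
      _ ≤ ‖dir x (p b) - b‖ + ‖dir x (p a) - a‖ := norm_sub_le _ _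
      _ ≤ 1 := by linarith [hp a ha, hp b hb]
  have himg : Ω.image p = hf.toFinset := by
    refine Finset.eq_of_subset_of_card_le (fun z hz => ?_) ?_
    · obtain ⟨ω, hω, rfl⟩ := Finset.mem_image.1 hz
      exact hf.mem_toFinset.2 (hpP ω hω)
    · rw [← ncard_eq_toFinset_card _ hf, hc, Finset.card_image_of_injOn hinj, hΩ.1]
  have hsurj : ∀ z ∈ P, ∃ ω ∈ Ω, p ω = z := fun z hz => by
    simpa using (himg.symm ▸ hf.mem_toFinset.2 hz : z ∈ Ω.image p)
  refine ⟨fun z hz => ?_, fun z hz z' hz' ω hω h1 h2 => ?_⟩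
  · obtain ⟨ω, hω, rfl⟩ := hsurj z hz
    exact ⟨ω, hω, hp ω hω⟩
  · obtain ⟨a, ha, rfl⟩ := hsurj z hz
    obtain ⟨b, hb, rfl⟩ := hsurj z' hz'
    have ea : a = ω := by
      refine frame_sep hΩ.2.1 hd ha hω ?_
      calc ‖a - ω‖ = ‖(dir x (p a) - ω) - (dir x (p a) - a)‖ := by congr 1; ring
        _ ≤ ‖dir x (p a) - ω‖ + ‖dir x (p a) - a‖ := norm_sub_le _ _
        _ ≤ 1 := by linarith [hp a ha]
    have eb : b = ω := by
      refine frame_sep hΩ.2.1 hd hb hω ?_
      calc ‖b - ω‖ = ‖(dir x (p b) - ω) - (dir x (p b) - b)‖ := by congr 1; ring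
        _ ≤ ‖dir x (p b) - ω‖ + ‖dir x (p b) - b‖ := norm_sub_le _ _
        _ ≤ 1 := by linarith [hp b hb]
    rw [ea, eb]

/-- An integral is at most the extended integral of its positive part. -/
lemma integral_le_of_lintegral_le {α : Type*} [MeasurableSpace α] {μ : Measure α} {f : α → ℝ}
    (hf : Integrable f μ) {c : ℝ≥0∞} (hc : c ≠ ⊤) (h : ∫⁻ a, ENNReal.ofReal (f a) ∂μ ≤ c) :
    ∫ a, f a ∂μ ≤ c.toReal := by
  rw [integral_eq_lintegral_pos_part_sub_lintegral_neg_part hf]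
  exact (sub_le_self _ ENNReal.toReal_nonneg).trans (ENNReal.toReal_mono hc h)

/-! ### Weights on radii -/

/-- A weight with small integral which is large on the radii which are not fine. -/
lemma exists_weight (hPol : PolarGoal) (hRad : RadialGoal) (h : Conn u K) {k : ℕ}
    {δ₁ η C q σ a₀ : ℝ} (hk2' : (k : ℝ) ≤ 3) (hq0 : 0 < q) (hq4 : q ≤ 1 / 4)
    (hηq : C * q + q ^ 8 < η) (hC1 : C * q + q ^ 8 < 1) (hσ : 0 < σ) (ha₀0 : 0 < a₀)
    (hab₀ : a₀ < 4 * σ)
    (hgood : ∀ᵐ r : ℝ, 0 < r → ∀ q : ℝ, 0 < q → q ≤ 1 / 4 → C * q < 1 → circEn u x r ≤ q ^ 4 →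
      (K ∩ sphere x r).Finite ∧ 2 ≤ (K ∩ sphere x r).ncard ∧
        Len K x r ≤ (cnt K x r + C * q) * r ∧
        (4 ≤ (K ∩ sphere x r).ncard → Len K x r ≤ (cnt K x r - η + C * q) * r) ∧
        ((K ∩ sphere x r).ncard ≤ 3 → δ₁ ≤ ‖∑ᶠ z ∈ K ∩ sphere x r, dir x z‖ →
          Len K x r ≤ (cnt K x r - η + C * q) * r))
    (hrange : ∀ s ∈ Icc a₀ (4 * σ),
      En u x s ≤ q ^ 8 * s ∧ |Len K x s - k * s| ≤ q ^ 8 * s) :
    ∃ g : ℝ → ℝ, IntegrableOn g (Ioo a₀ (4 * σ)) ∧
      ∫ r in Ioo a₀ (4 * σ), g r ≤ 24 * q ^ 4 * σ ∧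
      ∀ᵐ r : ℝ, r ∈ Ioo a₀ (4 * σ) → 0 ≤ g r ∧ (¬ IsFine K x k δ₁ r → 1 ≤ g r) := by
  set ε := q ^ 8 with hε
  have hε0 : 0 < ε := by positivity
  have hε4 : ε ≤ q ^ 4 := pow_le_pow_of_le_one hq0.le (by linarith) (by norm_num)
  set g : ℝ → ℝ := fun r => cnt K x r - k + (k + 1) / q ^ 4 * circEn u x r with hg
  have hgb : ∀ᵐ r : ℝ, r ∈ Ioo a₀ (4 * σ) →
      0 ≤ g r ∧ (¬ IsFine K x k δ₁ r → 1 ≤ g r) := by
    filter_upwards [hgood] with r hr hrI
    have hr0 : 0 < r := ha₀0.trans hrI.1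
    rcases le_or_gt (circEn u x r) (q ^ 4) with hE | hE
    · obtain ⟨hf, hN2, hA, -, hBal⟩ := hr hr0 q hq0 hq4 (by linarith) hE
      have hL := (abs_le.1 (hrange r ⟨hrI.1.le, hrI.2.le⟩).2).1
      have hcE : 0 ≤ ((k : ℝ) + 1) / q ^ 4 * circEn u x r :=
        mul_nonneg (by positivity) (circEn_nonneg u x hr0.le)
      have hNk : k ≤ (K ∩ sphere x r).ncard := by
        by_contra hlt
        push Not at hlt
        have h1 : cnt K x r ≤ (k : ℝ) - 1 := by
          rw [cnt, le_sub_iff_add_le]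
          exact_mod_cast hlt
        have h2 := mul_le_mul_of_nonneg_right h1 hr0.le
        have h3 := mul_lt_mul_of_pos_right hC1 hr0
        linarith
      refine ⟨?_, fun hnf => ?_⟩
      · have : (k : ℝ) ≤ cnt K x r := by rw [cnt]; exact_mod_cast hNk
        simp only [hg]; linarith
      · rcases hNk.eq_or_lt with hN | hN
        · exfalso
          have hsum : δ₁ ≤ ‖∑ᶠ z ∈ K ∩ sphere x r, dir x z‖ :=
            not_lt.1 fun h' => hnf ⟨hf, hN.symm, h'⟩
          have h1 := hBal (hN ▸ (by exact_mod_cast hk2' : k ≤ 3)) hsum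
          rw [cnt, ← hN] at h1
          have h3 := mul_lt_mul_of_pos_right hηq hr0
          linarith
        · have : (k : ℝ) + 1 ≤ cnt K x r := by rw [cnt]; exact_mod_cast hN
          simp only [hg]; linarith
    · have h1 : (k : ℝ) + 1 ≤ ((k : ℝ) + 1) / q ^ 4 * circEn u x r := by
        rw [div_mul_eq_mul_div, le_div_iff₀ (by positivity)]
        exact mul_le_mul_of_nonneg_left hE.le (by positivity)
      have h2 := cnt_nonneg K x r
      refine ⟨?_, fun _ => ?_⟩ <;> simp only [hg] <;> linarith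
  obtain ⟨hT, hEn⟩ := hPol u K x h.reg
  have hTi : IntegrableOn (circEn u x) (Ioc 0 (4 * σ)) := hT (4 * σ) (by positivity)
  have hsub : Ioo a₀ (4 * σ) ⊆ Ioc 0 (4 * σ) := fun r hr => ⟨ha₀0.trans hr.1, hr.2.le⟩
  obtain ⟨-, hci, hcle⟩ := count_le hRad h x ha₀0.le hab₀
  have hconst : IntegrableOn (fun _ : ℝ => (k : ℝ)) (Ioo a₀ (4 * σ)) := integrableOn_const (by simp)
  have hgi : IntegrableOn g (Ioo a₀ (4 * σ)) :=
    (hci.sub hconst).add ((hTi.mono_set hsub).const_mul _)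
  refine ⟨g, hgi, ?_, hgb⟩
  have hE : ∫ r in Ioo a₀ (4 * σ), circEn u x r ≤ ε * (4 * σ) := by
    refine le_trans (setIntegral_mono_set hTi ?_ hsub.eventuallyLE) ?_
    · exact (ae_restrict_iff' measurableSet_Ioc).2
        (Eventually.of_forall fun r hr => circEn_nonneg u x hr.1.le)
    · exact (hEn (4 * σ) (by positivity)).symm.le.trans (hrange _ ⟨hab₀.le, le_rfl⟩).1
  have hL1 := (abs_le.1 (hrange _ ⟨hab₀.le, le_rfl⟩).2).2
  have hL2 := (abs_le.1 (hrange _ ⟨le_rfl, hab₀.le⟩).2).1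
  have hc' : ((k : ℝ) + 1) / q ^ 4 * ∫ r in Ioo a₀ (4 * σ), circEn u x r ≤ 16 * q ^ 4 * σ := by
    refine (mul_le_mul_of_nonneg_left hE (by positivity)).trans ?_
    have e1 : ((k : ℝ) + 1) / q ^ 4 * (ε * (4 * σ)) = ((k : ℝ) + 1) * (4 * (q ^ 4 * σ)) := by
      rw [hε, show q ^ 8 = q ^ 4 * q ^ 4 by ring]
      field_simp
    rw [e1]
    linarith [mul_le_mul_of_nonneg_right (show (k : ℝ) + 1 ≤ 4 by linarith)
      (show 0 ≤ 4 * (q ^ 4 * σ) by positivity)]
  simp only [hg]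
  have hi1 : Integrable (fun r => cnt K x r - k) (volume.restrict (Ioo a₀ (4 * σ))) :=
    hci.sub hconst
  have hi2 : Integrable (fun r => ((k : ℝ) + 1) / q ^ 4 * circEn u x r)
      (volume.restrict (Ioo a₀ (4 * σ))) := (hTi.mono_set hsub).const_mul _
  rw [integral_add hi1 hi2,
    integral_sub hci hconst, integral_const_mul, setIntegral_const, Measure.real,
    Real.volume_Ioo, ENNReal.toReal_ofReal (by linarith), smul_eq_mul]
  have : ε * (4 * σ + a₀) ≤ q ^ 4 * (8 * σ) :=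
    mul_le_mul hε4 (by linarith) (by linarith) (by positivity)
  linarith

/-- Fine radii are dense. -/
lemma exists_fine {k : ℕ} {δ₁ a₀ b₀ e : ℝ} {g : ℝ → ℝ} (hgi : IntegrableOn g (Ioo a₀ b₀))
    (hge : ∫ r in Ioo a₀ b₀, g r ≤ e)
    (hgb : ∀ᵐ r : ℝ, r ∈ Ioo a₀ b₀ → 0 ≤ g r ∧ (¬ IsFine K x k δ₁ r → 1 ≤ g r))
    (he0 : 0 ≤ e) {p p' : ℝ} (hp : a₀ ≤ p) (hp' : p' ≤ b₀) (hlen : e < p' - p) :
    ∃ r ∈ Ioo p p', IsFine K x k δ₁ r := by
  have hg0 : 0 ≤ᵐ[volume.restrict (Ioo a₀ b₀)] g :=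
    (ae_restrict_iff' measurableSet_Ioo).2 (hgb.mono fun r hr hr' => (hr hr').1)
  by_contra hn
  push Not at hn
  have hsub' : Ioo p p' ⊆ Ioo a₀ b₀ := Ioo_subset_Ioo hp hp'
  have h1 : p' - p ≤ ∫ r in Ioo p p', g r := by
    calc p' - p = ∫ _ in Ioo p p', (1 : ℝ) := by
          rw [setIntegral_const, Measure.real, Real.volume_Ioo,
            ENNReal.toReal_ofReal (by linarith), smul_eq_mul, mul_one]
      _ ≤ _ := setIntegral_mono_ae_restrict (integrableOn_const (by simp)) (hgi.mono_set hsub')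
          ((ae_restrict_iff' measurableSet_Ioo).2
            (hgb.mono fun r hr hr' => (hr (hsub' hr')).2 (hn r hr')))
  have h2 : ∫ r in Ioo p p', g r ≤ ∫ r in Ioo a₀ b₀, g r :=
    setIntegral_mono_set hgi hg0 hsub'.eventuallyLE
  linarith

/-- The annulus has almost no deficit, so the direction is almost constant on connected parts. -/
lemma annulus_deficit (hRad : RadialGoal) (h : Conn u K) {k : ℕ} {δ₁ q σ a₀ a b : ℝ} {g : ℝ → ℝ}
    (hk2' : (k : ℝ) ≤ 3) (hq0 : 0 < q) (hq4 : q ≤ 1 / 4) (hσ : 0 < σ) (ha0 : 0 < a)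
    (ha₀a : a₀ ≤ a) (haσ : a < σ) (hbI : b ∈ Ioo (2 * σ) (3 * σ))
    (hrange : ∀ s ∈ Icc a₀ (4 * σ),
      En u x s ≤ q ^ 8 * s ∧ |Len K x s - k * s| ≤ q ^ 8 * s)
    (hgi : IntegrableOn g (Ioo a₀ (4 * σ)))
    (hge : ∫ r in Ioo a₀ (4 * σ), g r ≤ 24 * q ^ 4 * σ)
    (hgb : ∀ᵐ r : ℝ, r ∈ Ioo a₀ (4 * σ) → 0 ≤ g r ∧ (¬ IsFine K x k δ₁ r → 1 ≤ g r)) :
    (Measure.hausdorffMeasure 1 (K ∩ (closedBall x b \ ball x a))).toReal ≤
        k * (b - a) + 19 * (q ^ 8 * σ) ∧
      ∫ r in Ioo a b, g r ≤ 24 * q ^ 4 * σ ∧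
      ∀ S ⊆ K ∩ (closedBall x b \ ball x a), IsPreconnected S → ∀ y ∈ S, ∀ z ∈ S,
        a * ‖dir x y - dir x z‖ ≤ 62 * (q ^ 2 * σ) := by
  have hab : a < b := by linarith [hbI.1]
  have hb4 : b ≤ 4 * σ := by linarith [hbI.2]
  set ε := q ^ 8 with hε
  set e := 24 * q ^ 4 * σ with he
  have hε0 : 0 < ε := by positivity
  have he0 : 0 < e := by positivity
  have hε4 : ε ≤ q ^ 4 := pow_le_pow_of_le_one hq0.le (by linarith) (by norm_num)
  have hεq : ε ≤ q := pow_le_of_le_one hq0.le (by linarith) (by norm_num)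
  have hq4' : q ^ 4 ≤ q := pow_le_of_le_one hq0.le (by linarith) (by norm_num)
  have hg0 : 0 ≤ᵐ[volume.restrict (Ioo a₀ (4 * σ))] g :=
    (ae_restrict_iff' measurableSet_Ioo).2 (hgb.mono fun r hr hr' => (hr hr').1)
  set A := K ∩ (closedBall x b \ ball x a) with hA
  set H := (Measure.hausdorffMeasure 1 A).toReal with hH
  obtain ⟨-, hNi, hIH, hrad⟩ :=
    hRad K x a b h.reg.isClosed h.pieces h.reg.length_ne_top ha0.le hab
  set I := ∫ r in Ioo a b, ((K ∩ sphere x r).ncard : ℝ) with hI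
  have hsubab : Ioo a b ⊆ Ioo a₀ (4 * σ) := Ioo_subset_Ioo ha₀a hb4
  have hgab : ∫ r in Ioo a b, g r ≤ e :=
    (setIntegral_mono_set hgi hg0 hsubab.eventuallyLE).trans hge
  have hconst' : IntegrableOn (fun _ : ℝ => (k : ℝ)) (Ioo a b) := integrableOn_const (by simp)
  have hIlow : (k : ℝ) * (b - a) - k * e ≤ I := by
    have h1 : ∫ r in Ioo a b, ((k : ℝ) - k * g r) ≤ I := by
      refine setIntegral_mono_ae_restrict (hconst'.sub ((hgi.mono_set hsubab).const_mul _)) hNi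
        ((ae_restrict_iff' measurableSet_Ioo).2 (hgb.mono fun r hr hr' => ?_))
      obtain ⟨g0, g1⟩ := hr (hsubab hr')
      rcases em (IsFine K x k δ₁ r) with hF | hF
      · show _ ≤ ((K ∩ sphere x r).ncard : ℝ)
        rw [show ((K ∩ sphere x r).ncard : ℝ) = k by exact_mod_cast hF.2.1]
        linarith [mul_nonneg (show (0 : ℝ) ≤ k by positivity) g0]
      · have := mul_le_mul_of_nonneg_left (g1 hF) (show (0 : ℝ) ≤ k by positivity)
        linarith [show (0 : ℝ) ≤ ((K ∩ sphere x r).ncard : ℝ) from Nat.cast_nonneg _]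
    rw [integral_sub hconst' ((hgi.mono_set hsubab).const_mul _), integral_const_mul,
      setIntegral_const, Measure.real, Real.volume_Ioo, ENNReal.toReal_ofReal (by linarith),
      smul_eq_mul] at h1
    linarith [mul_le_mul_of_nonneg_left hgab (show (0 : ℝ) ≤ k by positivity)]
  have hHle : H ≤ k * (b - a) + 19 * (ε * σ) := by
    have hεb : b ≤ b * (1 + ε) ∧ b * (1 + ε) ≤ 4 * σ := by
      have h1 : 0 ≤ b * ε := mul_nonneg (by linarith) hε0.le
      have h2 : b * ε ≤ b * 1 := mul_le_mul_of_nonneg_left (by linarith) (by linarith)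
      have h3 : b * ε ≤ 3 * σ * ε := mul_le_mul_of_nonneg_right hbI.2.le hε0.le
      have h4 : σ * ε ≤ σ * (1 / 4) := mul_le_mul_of_nonneg_left (by linarith) hσ.le
      constructor <;> linarith [hbI.2]
    have h1 : H ≤ Len K x (b * (1 + ε)) - Len K x a := annulus_le h.reg x hab.le
      (by linarith [mul_pos (show (0 : ℝ) < b by linarith) hε0])
    have h2 := (abs_le.1 (hrange _ ⟨by linarith, hεb.2⟩).2).2
    have h3 := (abs_le.1 (hrange a ⟨ha₀a, by linarith⟩).2).1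
    have h4 : ε * (b * (1 + ε)) ≤ ε * (4 * σ) := mul_le_mul_of_nonneg_left hεb.2 hε0.le
    have h5 : ε * a ≤ ε * σ := mul_le_mul_of_nonneg_left (by linarith) hε0.le
    have h6 : (k : ℝ) * b * ε ≤ 3 * (3 * σ) * ε := mul_le_mul_of_nonneg_right
      (mul_le_mul hk2' hbI.2.le (by linarith) (by norm_num)) hε0.le
    linarith [mul_pos hε0 hσ]
  have hεσ : ε * σ ≤ q ^ 4 * σ := mul_le_mul_of_nonneg_right hε4 hσ.le
  refine ⟨hHle, hgab, fun S hS hSp y hy z hz => ?_⟩
  have h1 := hrad S hS hSp y hy z hz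
  have hH0 : 0 ≤ H := ENNReal.toReal_nonneg
  have hk3 : (k : ℝ) * (b - a) ≤ 3 * (3 * σ) :=
    mul_le_mul hk2' (by linarith [hbI.2]) (by linarith) (by norm_num)
  have hke : (k : ℝ) * e ≤ 3 * e := mul_le_mul_of_nonneg_right hk2' he0.le
  have hεσ' : ε * σ ≤ 1 / 100 * σ := by
    refine mul_le_mul_of_nonneg_right (hε4.trans ?_) hσ.le
    exact (pow_le_pow_left₀ hq0.le hq4 4).trans (by norm_num)
  have h3 : Real.sqrt (H * (H - I)) ≤ 31 * (q ^ 2 * σ) := by
    rw [Real.sqrt_le_left (by positivity)]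
    have hHσ : H ≤ 10 * σ := by linarith
    have hd : H - I ≤ 91 * (q ^ 4 * σ) := by rw [he] at hke hIlow; linarith
    calc H * (H - I) ≤ 10 * σ * (91 * (q ^ 4 * σ)) :=
          mul_le_mul hHσ hd (by linarith) (by positivity)
      _ ≤ (31 * (q ^ 2 * σ)) ^ 2 := by nlinarith [sq_nonneg (q ^ 2 * σ)]
  rw [← hA, ← hH] at h1
  linarith

/-- All fine radii share one frame. -/
lemma exists_common_frame (h : Conn u K) (hx : x ∈ K) {k : ℕ} (hk : k = 2 ∨ k = 3)
    {δ₁ γ a b : ℝ} (ha0 : 0 < a) (hab : a < b) (hδ₁ : 0 ≤ δ₁) (hγ0 : 0 ≤ γ)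
    (hsmall : δ₁ + γ ≤ 1 / 200)
    (hfa : IsFine K x k δ₁ a) (hfb : IsFine K x k δ₁ b)
    (hosc : ∀ S ⊆ K ∩ (closedBall x b \ ball x a), IsPreconnected S →
      ∀ y ∈ S, ∀ z ∈ S, ‖dir x y - dir x z‖ ≤ γ) :
    ∃ Ω : Finset ℂ, IsBalanced Ω k ∧ (∀ ω ∈ Ω, ∀ ω' ∈ Ω, ω ≠ ω' → dot ω ω' ≤ -1 / 2) ∧
      (∀ r ∈ Icc a b, IsFine K x k δ₁ r →
        (∀ ω ∈ Ω, ∃ z ∈ K ∩ sphere x r, ‖dir x z - ω‖ ≤ 30 * (δ₁ + γ)) ∧
        (∀ z ∈ K ∩ sphere x r, ∃ ω ∈ Ω, ‖dir x z - ω‖ ≤ 30 * (δ₁ + γ)) ∧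
        ∀ z ∈ K ∩ sphere x r, ∀ z' ∈ K ∩ sphere x r, ∀ ω ∈ Ω,
          ‖dir x z - ω‖ ≤ 30 * (δ₁ + γ) → ‖dir x z' - ω‖ ≤ 30 * (δ₁ + γ) → z = z') ∧
      ∀ y ∈ K ∩ (closedBall x b \ ball x a),
        ∃ ω ∈ Ω, ‖dir x y - ω‖ ≤ γ + 30 * (δ₁ + γ) := by
  set A := K ∩ (closedBall x b \ ball x a) with hA
  -- the crossing component and its frame
  obtain ⟨p, hp, hpb⟩ := exists_crossing h hx ha0 hab hfa.1
  have hsA : ∀ r ∈ Icc a b, K ∩ sphere x r ⊆ A := fun r hr z hz => by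
    have := mem_sphere.1 hz.2
    exact ⟨hz.1, mem_closedBall.2 (by linarith [hr.2]), fun hb => by
      linarith [mem_ball.1 hb, hr.1]⟩
  have hpA : p ∈ A := hsA a (left_mem_Icc.2 hab.le) hp
  set Cp := connectedComponentIn A p
  have hCpA : Cp ⊆ A := connectedComponentIn_subset _ _
  have hpx : p ≠ x := fun h' => by
    have := mem_sphere.1 hp.2
    rw [h', dist_self] at this
    linarith
  obtain ⟨Ω, hΩ, hΩd, hframe⟩ := exists_frame hk (norm_dir hpx)
  set B := 30 * (δ₁ + γ) with hB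
  have hB4 : B ≤ 1 / 4 := by rw [hB]; linarith
  have hne : ∀ {r : ℝ} {z : ℂ}, 0 < r → z ∈ sphere x r → z ≠ x := fun hr hz h' => by
    have := mem_sphere.1 hz
    rw [h', dist_self] at this
    linarith
  have hcirc : ∀ r ∈ Icc a b, IsFine K x k δ₁ r →
      (∀ ω ∈ Ω, ∃ z ∈ K ∩ sphere x r, ‖dir x z - ω‖ ≤ B) ∧
      (∀ z ∈ K ∩ sphere x r, ∃ ω ∈ Ω, ‖dir x z - ω‖ ≤ B) ∧
      ∀ z ∈ K ∩ sphere x r, ∀ z' ∈ K ∩ sphere x r, ∀ ω ∈ Ω,
        ‖dir x z - ω‖ ≤ B → ‖dir x z' - ω‖ ≤ B → z = z' := by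
    intro r hr hF
    have hr0 : 0 < r := lt_of_lt_of_le ha0 hr.1
    obtain ⟨q₁, hq₁, hq₁b⟩ := hpb
    obtain ⟨z₀, hz₀, hz₀r⟩ := isPreconnected_connectedComponentIn.intermediate_value
      (mem_connectedComponentIn hpA) hq₁ (f := fun y => dist y x) (by fun_prop)
      (show r ∈ Icc (dist p x) (dist q₁ x) by
        rw [mem_sphere.1 hp.2, mem_sphere.1 hq₁b]; exact hr)
    have hz₀K : z₀ ∈ K ∩ sphere x r := ⟨(hCpA hz₀).1, mem_sphere.2 hz₀r⟩
    classical
    have hinj : Set.InjOn (dir x) (K ∩ sphere x r) := fun z hz z' hz' e' => by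
      have e1 := sub_eq_smul_dir x z
      have e2 := sub_eq_smul_dir x z'
      rw [e', dist_eq_of_mem_sphere hz.2] at e1
      rw [dist_eq_of_mem_sphere hz'.2] at e2
      exact sub_left_inj.1 (e1.trans e2.symm)
    set V := hF.1.toFinset.image (dir x) with hV
    have hinj' : Set.InjOn (dir x) (hF.1.toFinset : Set ℂ) := by simpa using hinj
    have hVc : V.card = k := by
      rw [hV, Finset.card_image_of_injOn hinj', ← ncard_eq_toFinset_card _ hF.1, hF.2.1]
    have hsum : ‖∑ v ∈ V, v‖ ≤ δ₁ + γ := by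
      rw [hV, Finset.sum_image hinj', ← finsum_mem_eq_finite_toFinset_sum _ hF.1]
      linarith [hF.2.2]
    have hnear : ∀ ω ∈ Ω, ∃ z ∈ K ∩ sphere x r, ‖dir x z - ω‖ ≤ B := fun ω hω => by
      obtain ⟨v, hv, hvω⟩ := hframe V hVc (fun v hv => by
          obtain ⟨z, hz, rfl⟩ := Finset.mem_image.1 hv
          exact norm_dir (hne hr0 (hF.1.mem_toFinset.1 hz).2))
        (dir x z₀) (Finset.mem_image_of_mem _ (hF.1.mem_toFinset.2 hz₀K)) (δ₁ + γ)
        (by linarith)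
        ((hosc Cp hCpA isPreconnected_connectedComponentIn z₀ hz₀ p
          (mem_connectedComponentIn hpA)).trans (by linarith)) hsum ω hω
      obtain ⟨z, hz, rfl⟩ := Finset.mem_image.1 hv
      exact ⟨z, hF.1.mem_toFinset.1 hz, hvω⟩
    obtain ⟨h1, h2⟩ := fine_circle hΩ hΩd hF.1 hF.2.1 hB4 hnear
    exact ⟨hnear, h1, h2⟩
  have hall : ∀ y ∈ A, ∃ ω ∈ Ω, ‖dir x y - ω‖ ≤ γ + B := by
    intro y hy
    obtain ⟨z, hz, hzs⟩ := component_meets h hx ha0 hy
    have hzK : z ∈ K := (connectedComponentIn_subset _ _ hz).1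
    obtain ⟨ω, hω, hω'⟩ : ∃ ω ∈ Ω, ‖dir x z - ω‖ ≤ B := by
      rcases hzs with hzs | hzs
      · exact (hcirc a (left_mem_Icc.2 hab.le) hfa).2.1 z ⟨hzK, hzs⟩
      · exact (hcirc b (right_mem_Icc.2 hab.le) hfb).2.1 z ⟨hzK, hzs⟩
    refine ⟨ω, hω, ?_⟩
    have h1 := hosc _ (connectedComponentIn_subset _ _) isPreconnected_connectedComponentIn y
      (mem_connectedComponentIn hy) z hz
    have h2 := norm_sub_le_norm_sub_add_norm_sub (dir x y) (dir x z) ω
    linarith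
  exact ⟨Ω, hΩ, hΩd, hcirc, hall⟩

/-- The length along an arm. -/
lemma arm_length (h : Conn u K) {k : ℕ} {δ₁ B σ a₀ a b e E : ℝ}
    {g : ℝ → ℝ} {Ω : Finset ℂ} (hΩ : IsBalanced Ω k)
    (hΩd : ∀ ω ∈ Ω, ∀ ω' ∈ Ω, ω ≠ ω' → dot ω ω' ≤ -1 / 2) (hB4 : B ≤ 1 / 4)
    (ha0 : 0 < a) (hab : a < b) (hσb : σ < b) (hbσ : b < 4 * σ)
    (hsubab : Ioo a b ⊆ Ioo a₀ (4 * σ))
    (hgi : IntegrableOn g (Ioo a₀ (4 * σ))) (hgab : ∫ r in Ioo a b, g r ≤ e)
    (hgb : ∀ᵐ r : ℝ, r ∈ Ioo a₀ (4 * σ) → 0 ≤ g r ∧ (¬ IsFine K x k δ₁ r → 1 ≤ g r))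
    (hcirc : ∀ r ∈ Icc a b, IsFine K x k δ₁ r →
      (∀ z ∈ K ∩ sphere x r, ∃ ω ∈ Ω, ‖dir x z - ω‖ ≤ B) ∧
      ∀ z ∈ K ∩ sphere x r, ∀ z' ∈ K ∩ sphere x r, ∀ ω ∈ Ω,
        ‖dir x z - ω‖ ≤ B → ‖dir x z' - ω‖ ≤ B → z = z')
    (hHle : (Measure.hausdorffMeasure 1 (K ∩ (closedBall x b \ ball x a))).toReal ≤
      k * (b - a) + E)
    {ω : ℂ} (hω : ω ∈ Ω) {t ρ : ℝ} (hρ : 0 < ρ) (hρt : ρ ≤ t) (htρ : t + ρ ≤ σ) :
    Len K (x + t • ω) ρ ≤ 2 * ρ + Len K x a + E + k * e := by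
  set A := K ∩ (closedBall x b \ ball x a) with hA
  set H := (Measure.hausdorffMeasure 1 A).toReal with hH
  have hconst' : IntegrableOn (fun _ : ℝ => (k : ℝ)) (Ioo a b) := integrableOn_const (by simp)
  have hne : ∀ {r : ℝ} {z : ℂ}, 0 < r → z ∈ sphere x r → z ≠ x := fun hr hz h' => by
    have := mem_sphere.1 hz
    rw [h', dist_self] at this
    linarith
  have hsA : ∀ r ∈ Icc a b, K ∩ sphere x r ⊆ A := fun r hr z hz => by
    have := mem_sphere.1 hz.2
    exact ⟨hz.1, mem_closedBall.2 (by linarith [hr.2]), fun hb => by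
      linarith [mem_ball.1 hb, hr.1]⟩
  set c := x + t • ω with hc
  have hcx : ‖c - x‖ = t := by
    rw [hc, add_sub_cancel_left, norm_smul, hΩ.2.1 ω hω, mul_one, Real.norm_eq_abs,
      abs_of_nonneg (by linarith)]
  set T := A ∩ ball c ρ with hT'
  set S := A \ T with hS'
  set J := Ioo (t - ρ) (t + ρ) with hJ
  set f : ℝ → ℝ := fun r => (k : ℝ) - J.indicator (fun _ => (1 : ℝ)) r - k * g r with hf
  have hjle : ∀ r, 0 ≤ J.indicator (fun _ => (1 : ℝ)) r := fun r =>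
    indicator_nonneg (fun _ _ => zero_le_one) r
  have hpt : ∀ᵐ r : ℝ, r ∈ Ioo a b →
      ENNReal.ofReal (f r) ≤ ((S ∩ sphere x r).encard : ℝ≥0∞) := by
    filter_upwards [hgb] with r hr hrI
    obtain ⟨g0, g1⟩ := hr (hsubab hrI)
    have hk0 : (0 : ℝ) ≤ k := by positivity
    rcases em (IsFine K x k δ₁ r) with hF | hF
    swap
    · rw [ENNReal.ofReal_eq_zero.2]
      · exact zero_le
      · simp only [hf]
        linarith [mul_le_mul_of_nonneg_left (g1 hF) hk0, hjle r]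
    have hrab : r ∈ Icc a b := Ioo_subset_Icc_self hrI
    obtain ⟨hC2, hC3⟩ := hcirc r hrab hF
    have hr0 : 0 < r := ha0.trans hrI.1
    have harm : ∀ z ∈ T ∩ sphere x r, r ∈ J ∧ ‖dir x z - ω‖ ≤ B := by
      rintro z ⟨⟨hzA, hzc⟩, hzr⟩
      have hzd : ‖z - x‖ = r := dist_eq_of_mem_sphere hzr
      rw [mem_ball, dist_eq_norm] at hzc
      have hd' := abs_norm_sub_norm_le (z - x) (c - x)
      rw [sub_sub_sub_cancel_right, hcx, hzd] at hd'
      obtain ⟨d1, d2⟩ := abs_le.1 hd'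
      refine ⟨⟨by linarith, by linarith⟩, ?_⟩
      obtain ⟨ω', hω', hz'⟩ := hC2 z ⟨hzA.1, hzr⟩
      by_cases hne' : ω' = ω
      · exact hne' ▸ hz'
      exfalso
      have h1 := hΩd ω' hω' ω hω hne'
      have h2 : dot (dir x z) ω ≤ -1 / 2 + B := by
        have e1 : dot (dir x z) ω = dot ω' ω + dot (dir x z - ω') ω := by
          simp only [dot, Complex.sub_re, Complex.sub_im]; ring
        have e2 := (abs_le.1 ((abs_dot_le (dir x z - ω') ω).trans
          (show ‖dir x z - ω'‖ * ‖ω‖ ≤ B by rw [hΩ.2.1 ω hω, mul_one]; exact hz'))).2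
        linarith
      have h3 : ‖z - c‖ ^ 2 = r ^ 2 - 2 * (t * r) * dot (dir x z) ω + t ^ 2 := by
        have e1 : z - c = r • dir x z - t • ω := by
          rw [hc, ← sub_sub, sub_eq_smul_dir x z, hzd]
        have n1 : dot (dir x z) (dir x z) = 1 := by
          rw [← norm_sq_eq_dot, norm_dir (hne hr0 hzr), one_pow]
        have n2 : dot ω ω = 1 := by rw [← norm_sq_eq_dot, hΩ.2.1 ω hω, one_pow]
        rw [norm_sq_eq_dot, e1]
        simp only [dot, Complex.sub_re, Complex.sub_im, Complex.smul_re, Complex.smul_im,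
          smul_eq_mul] at n1 n2 ⊢
        linear_combination r ^ 2 * n1 + t ^ 2 * n2
      have h4 : ‖z - c‖ ^ 2 < ρ ^ 2 := pow_lt_pow_left₀ hzc (norm_nonneg _) two_ne_zero
      have h5 : ρ ^ 2 ≤ t ^ 2 := pow_le_pow_left₀ hρ.le hρt 2
      have h6 := mul_le_mul_of_nonneg_left (show dot (dir x z) ω ≤ 0 by linarith)
        (show (0 : ℝ) ≤ t * r by exact mul_nonneg (by linarith) hr0.le)
      nlinarith
    have hsplit : K ∩ sphere x r ⊆ (S ∩ sphere x r) ∪ (T ∩ sphere x r) := fun z hz => by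
      by_cases hzT : z ∈ T
      · exact Or.inr ⟨hzT, hz.2⟩
      · exact Or.inl ⟨⟨hsA r hrab hz, hzT⟩, hz.2⟩
    have hsubK : ∀ R : Set ℂ, R ⊆ A → R ∩ sphere x r ⊆ K ∩ sphere x r := fun R hR z hz =>
      ⟨(hR hz.1).1, hz.2⟩
    have hSf : (S ∩ sphere x r).Finite := hF.1.subset (hsubK S sdiff_subset)
    have hTc : ((T ∩ sphere x r).ncard : ℝ) ≤ J.indicator (fun _ => (1 : ℝ)) r := by
      rcases (T ∩ sphere x r).eq_empty_or_nonempty with he' | ⟨z, hz⟩
      · rw [he', ncard_empty, Nat.cast_zero]; exact hjle r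
      · rw [indicator_of_mem (harm z hz).1]
        have : (T ∩ sphere x r).ncard ≤ 1 :=
          (ncard_le_one (hF.1.subset (hsubK T inter_subset_left))).2 fun z₁ hz₁ z₂ hz₂ =>
            hC3 z₁ (hsubK T inter_subset_left hz₁) z₂ (hsubK T inter_subset_left hz₂) ω hω
              (harm z₁ hz₁).2 (harm z₂ hz₂).2
        exact_mod_cast this
    have hcard : (k : ℝ) ≤ (S ∩ sphere x r).ncard + (T ∩ sphere x r).ncard := by
      have h1 := (ncard_le_ncard hsplit (hSf.union (hF.1.subset (hsubK T inter_subset_left)))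
        ).trans (ncard_union_le _ _)
      rw [hF.2.1] at h1
      exact_mod_cast h1
    rw [← hSf.cast_ncard_eq, ENat.toENNReal_coe, ← ENNReal.ofReal_natCast]
    refine ENNReal.ofReal_le_ofReal ?_
    simp only [hf]
    linarith [mul_nonneg hk0 g0]
  have hfin : Measure.hausdorffMeasure 1 (K ∩ ball x (4 * σ)) ≠ ⊤ := len_ball_ne_top h.reg x _
  have hAsub : A ⊆ K ∩ ball x (4 * σ) := fun y hy =>
    ⟨hy.1, closedBall_subset_ball hbσ hy.2.1⟩
  have hAfin := ne_top_of_le_ne_top hfin (measure_mono hAsub)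
  have hSfin : Measure.hausdorffMeasure 1 S ≠ ⊤ :=
    ne_top_of_le_ne_top hAfin (measure_mono sdiff_subset)
  have hTfin : Measure.hausdorffMeasure 1 T ≠ ⊤ :=
    ne_top_of_le_ne_top hAfin (measure_mono inter_subset_left)
  have hJi : IntegrableOn (J.indicator fun _ => (1 : ℝ)) (Ioo a b) :=
    (integrableOn_const (by simp)).indicator measurableSet_Ioo
  have hfi : IntegrableOn f (Ioo a b) :=
    (hconst'.sub hJi).sub ((hgi.mono_set hsubab).const_mul _)
  have hlowS : ∫ r in Ioo a b, f r ≤ (Measure.hausdorffMeasure 1 S).toReal := by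
    refine integral_le_of_lintegral_le hfi hSfin ?_
    refine (lintegral_mono_ae ((ae_restrict_iff' measurableSet_Ioo).2 hpt)).trans ?_
    exact (setLIntegral_le_lintegral _ _).trans (lintegral_encard_sphere_le x S)
  have hfint : (k : ℝ) * (b - a) - 2 * ρ - k * e ≤ ∫ r in Ioo a b, f r := by
    simp only [hf]
    have hi1 : Integrable (fun r => (k : ℝ) - J.indicator (fun _ => (1 : ℝ)) r)
        (volume.restrict (Ioo a b)) := hconst'.sub hJi
    have hi2 : Integrable (fun r => (k : ℝ) * g r) (volume.restrict (Ioo a b)) :=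
      (hgi.mono_set hsubab).const_mul _
    rw [integral_sub hi1 hi2, integral_sub hconst' hJi, setIntegral_const, Measure.real, Real.volume_Ioo,
      ENNReal.toReal_ofReal (by linarith), smul_eq_mul, integral_const_mul]
    have h1 : ∫ r in Ioo a b, J.indicator (fun _ => (1 : ℝ)) r ≤ 2 * ρ := by
      rw [setIntegral_indicator measurableSet_Ioo, setIntegral_const, smul_eq_mul, mul_one]
      refine (measureReal_mono inter_subset_right (by simp)).trans ?_
      rw [Measure.real, Real.volume_Ioo, ENNReal.toReal_ofReal (by linarith)]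
      linarith
    linarith [mul_le_mul_of_nonneg_left hgab (show (0 : ℝ) ≤ k by positivity)]
  have hsum : H = (Measure.hausdorffMeasure 1 T).toReal +
      (Measure.hausdorffMeasure 1 S).toReal := by
    rw [hH, ← ENNReal.toReal_add hTfin hSfin, hT', hS', hT', sdiff_self_inter,
      measure_inter_add_sdiff A measurableSet_ball]
  have hLen : Len K c ρ ≤ Len K x a + (Measure.hausdorffMeasure 1 T).toReal := by
    have hs' : K ∩ ball c ρ ⊆ (K ∩ ball x a) ∪ T := by
      rintro y ⟨hyK, hyc⟩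
      by_cases hya : y ∈ ball x a
      · exact Or.inl ⟨hyK, hya⟩
      · refine Or.inr ⟨⟨hyK, ?_, hya⟩, hyc⟩
        have := dist_triangle y c x
        rw [mem_ball] at hyc
        rw [mem_closedBall]
        rw [dist_eq_norm c x, hcx] at this
        linarith [hσb]
    have h1 := (measure_mono (μ := Measure.hausdorffMeasure 1) hs').trans (measure_union_le _ _)
    have h2 := ENNReal.toReal_mono (ENNReal.add_ne_top.2 ⟨len_ball_ne_top h.reg x a, hTfin⟩) h1
    rwa [ENNReal.toReal_add (len_ball_ne_top h.reg x a) hTfin] at h2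
  linarith

/-! ### The star -/

/-- Where density and energy are almost those of a line or a propeller, so is the set. -/
theorem starGoal (hPol : PolarGoal) (hRad : RadialGoal) (hDel : DeleteGoal) (hTree : TreeGoal) :
    StarGoal := by
  intro δ hδ
  set δ' := min δ 1 with hδ'
  have hδ0 : 0 < δ' := lt_min hδ one_pos
  have hδ1 : δ' ≤ 1 := min_le_right _ _
  have hδle : δ' ≤ δ := min_le_left _ _
  set th := δ' / 100 with hth
  obtain ⟨η, hη, C, hC, hgood⟩ := exists_good hRad hDel hTree (show 0 < δ' / 5000 by positivity)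
  set q := min (δ' ^ 2 / 10 ^ 9) (min η 1 / (2 * (C + 1))) with hq
  have hq0 : 0 < q := lt_min (by positivity) (div_pos (lt_min hη one_pos) (by positivity))
  have hqδ : q ≤ δ' ^ 2 / 10 ^ 9 := min_le_left _ _
  have hq9 : q ≤ δ' / 10 ^ 9 :=
    hqδ.trans (div_le_div_of_nonneg_right (by nlinarith) (by norm_num))
  have hqC : q * (2 * (C + 1)) ≤ min η 1 :=
    (le_div_iff₀ (by positivity)).1 (min_le_right _ _)
  have hq4 : q ≤ 1 / 4 := by linarith
  have hqp : ∀ n : ℕ, 1 ≤ n → q ^ n ≤ q := fun n hn =>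
    pow_le_of_le_one hq0.le (by linarith) (Nat.one_le_iff_ne_zero.1 hn)
  set ε := q ^ 8 with hε
  have hε0 : 0 < ε := by positivity
  have hεq : ε ≤ q := hqp 8 (by norm_num)
  have hε4 : ε ≤ q ^ 4 := pow_le_pow_of_le_one hq0.le (by linarith) (by norm_num)
  have hCq : C * q + ε ≤ min η 1 / 2 := by linarith
  have hηq : C * q + ε < η := by linarith [min_le_left η 1]
  have hC1 : C * q + ε < 1 := by linarith [min_le_right η 1]
  refine ⟨ε, hε0, 8 / th, by rw [gt_iff_lt, lt_div_iff₀ (by positivity)]; linarith, ?_⟩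
  intro u K x σ k h hx hσ hk hs
  have hk2 : 2 ≤ k ∧ k ≤ 3 := by omega
  have hk2' : (2 : ℝ) ≤ k ∧ (k : ℝ) ≤ 3 := ⟨by exact_mod_cast hk2.1, by exact_mod_cast hk2.2⟩
  have hths : th * σ ≤ σ / 100 := by
    have := mul_le_mul_of_nonneg_right hδ1 hσ.le
    rw [hth]; linarith
  have hths0 : 0 < th * σ := by positivity
  set a₀ := th * σ / 4 with ha₀
  have ha₀0 : 0 < a₀ := by positivity
  have hrange : ∀ s ∈ Icc a₀ (4 * σ), En u x s ≤ ε * s ∧ |Len K x s - k * s| ≤ ε * s := by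
    intro s hs'
    refine hs s ⟨?_, ?_⟩
    · refine le_trans ?_ hs'.1
      rw [ha₀, div_div_eq_mul_div, div_le_iff₀ (by norm_num)]
      linarith
    · refine hs'.2.trans ?_
      rw [div_mul_eq_mul_div, le_div_iff₀ (by positivity)]
      linarith
  -- the weight which is large on radii which are not fine
  obtain ⟨g, hgi, hge, hgb⟩ := exists_weight hPol hRad h hk2'.2 hq0 hq4 hηq hC1 hσ ha₀0
    (by rw [ha₀]; linarith) (hgood u K x h hx) hrange
  set e := 24 * q ^ 4 * σ with he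
  have he0 : 0 < e := by positivity
  have hfine : ∀ p p' : ℝ, a₀ ≤ p → p' ≤ 4 * σ → e < p' - p →
      ∃ r ∈ Ioo p p', IsFine K x k (δ' / 5000) r := fun p p' hp hp' hlen =>
    exists_fine hgi hge hgb he0.le hp hp' hlen
  have hq4σ : q ^ 4 * σ ≤ th * σ / 1000000 := by
    have h1 : q ^ 4 ≤ th / 1000000 := by
      have := hqp 4 (by norm_num)
      rw [hth]; linarith
    have := mul_le_mul_of_nonneg_right h1 hσ.le
    linarith
  have heσ : e < th * σ / 4 := by rw [he]; linarith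
  obtain ⟨a, haI, hfa⟩ := hfine (th * σ / 2) (th * σ) (by linarith) (by linarith) (by linarith)
  obtain ⟨b, hbI, hfb⟩ := hfine (2 * σ) (3 * σ) (by linarith) (by linarith) (by linarith)
  have ha0 : 0 < a := by linarith [haI.1]
  have hab : a < b := by linarith [haI.2, hbI.1]
  have ha₀a : a₀ ≤ a := by linarith [haI.1]
  have hb4 : b ≤ 4 * σ := by linarith [hbI.2]
  have hsubab : Ioo a b ⊆ Ioo a₀ (4 * σ) := Ioo_subset_Ioo ha₀a hb4
  obtain ⟨hHle, hgab, hrad⟩ := annulus_deficit hRad h hk2'.2 hq0 hq4 hσ ha0 ha₀a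
    (by linarith [haI.2]) hbI hrange hgi hge hgb
  have hεσ : ε * σ ≤ q ^ 4 * σ := mul_le_mul_of_nonneg_right hε4 hσ.le
  -- constancy of the direction
  set γ := 130 * q ^ 2 / th with hγ
  have hγ' : γ ≤ δ' / 5000 := by
    rw [hγ, hth, div_div_eq_mul_div, div_le_iff₀ hδ0]
    have h1 : q ^ 2 ≤ q := hqp 2 (by norm_num)
    linarith
  have hγ0 : 0 ≤ γ := by positivity
  have hosc : ∀ S ⊆ K ∩ (closedBall x b \ ball x a), IsPreconnected S →
      ∀ y ∈ S, ∀ z ∈ S, ‖dir x y - dir x z‖ ≤ γ := by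
    intro S hS hSp y hy z hz
    have h1 := hrad S hS hSp y hy z hz
    have h4 : th * σ / 2 * ‖dir x y - dir x z‖ ≤ a * ‖dir x y - dir x z‖ :=
      mul_le_mul_of_nonneg_right haI.1.le (norm_nonneg _)
    rw [hγ, le_div_iff₀ (show 0 < th by positivity)]
    refine le_of_mul_le_mul_right ?_ hσ
    have : 0 ≤ q ^ 2 * σ := by positivity
    linarith
  obtain ⟨Ω, hΩ, hΩd, hcirc, hall⟩ := exists_common_frame h hx hk ha0 hab
    (show 0 ≤ δ' / 5000 by positivity) hγ0 (by linarith) hfa hfb hosc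
  refine ⟨Ω, hΩ, ?_⟩
  set B := 30 * (δ' / 5000 + γ) with hB
  set A := K ∩ (closedBall x b \ ball x a) with hA
  refine ⟨?_, ?_, ?_⟩
  · -- points of K are near the star
    intro y hy hyσ
    obtain ⟨ω₀, hω₀⟩ : Ω.Nonempty := Finset.card_pos.1 (by rw [hΩ.1]; omega)
    rcases lt_or_ge ‖y - x‖ a with hlt | hge
    · refine ⟨x, ⟨ω₀, hω₀, 0, le_rfl, by simp⟩, ?_⟩
      have := mul_le_mul_of_nonneg_right hδle hσ.le
      have : th * σ ≤ δ' * σ := mul_le_mul_of_nonneg_right (by rw [hth]; linarith) hσ.le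
      linarith [haI.2]
    · have hyA : y ∈ A := ⟨hy, mem_closedBall.2 (by rw [dist_eq_norm]; linarith [hbI.1]),
        fun hb => by rw [mem_ball, dist_eq_norm] at hb; linarith⟩
      obtain ⟨ω, hω, hyω⟩ := hall y hyA
      refine ⟨x + ‖y - x‖ • ω, ⟨ω, hω, ‖y - x‖, norm_nonneg _, rfl⟩, ?_⟩
      calc ‖y - (x + ‖y - x‖ • ω)‖ = ‖‖y - x‖ • (dir x y - ω)‖ := by
            rw [smul_sub, ← sub_eq_smul_dir, sub_sub]
        _ ≤ σ * (γ + B) := by
            rw [norm_smul, norm_norm]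
            exact mul_le_mul hyσ hyω (norm_nonneg _) hσ.le
        _ ≤ δ * σ := by
            rw [mul_comm δ]
            exact mul_le_mul_of_nonneg_left (by rw [hB]; linarith) hσ.le
  · -- the star is near K
    rintro _ ⟨ω, hω, t, ht, rfl⟩ htσ
    rw [add_sub_cancel_left, norm_smul, hΩ.2.1 ω hω, mul_one, Real.norm_eq_abs,
      abs_of_nonneg ht] at htσ
    have hδσ : δ' * σ ≤ δ * σ := mul_le_mul_of_nonneg_right hδle hσ.le
    have h2th : 2 * (th * σ) ≤ δ' * σ := by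
      rw [hth]; linarith [mul_nonneg hδ0.le hσ.le]
    rcases lt_or_ge t (2 * (th * σ)) with hlt | hge
    · refine ⟨x, hx, ?_⟩
      rw [sub_add_cancel_left, norm_neg, norm_smul, hΩ.2.1 ω hω, mul_one, Real.norm_eq_abs,
        abs_of_nonneg ht]
      linarith
    · obtain ⟨r, hr, hF⟩ := hfine (t - th * σ) t (by linarith) (by linarith) (by linarith)
      have hrab : r ∈ Icc a b := ⟨by linarith [hr.1, haI.2], by linarith [hr.2, hbI.1]⟩
      obtain ⟨z, hz, hzω⟩ := (hcirc r hrab hF).1 ω hω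
      refine ⟨z, hz.1, ?_⟩
      have hzr := sub_eq_smul_dir x z
      rw [dist_eq_of_mem_sphere hz.2] at hzr
      calc ‖z - (x + t • ω)‖ = ‖r • (dir x z - ω) + (r - t) • ω‖ := by
            rw [← sub_sub, hzr, smul_sub, sub_smul]; congr 1; abel
        _ ≤ r * B + (th * σ) := by
            refine (norm_add_le _ _).trans (add_le_add ?_ ?_)
            · rw [norm_smul, Real.norm_eq_abs, abs_of_nonneg (by linarith [hr.1])]
              exact mul_le_mul_of_nonneg_left hzω (by linarith [hr.1])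
            · rw [norm_smul, hΩ.2.1 ω hω, mul_one, Real.norm_eq_abs, abs_le]
              constructor <;> linarith [hr.1, hr.2]
        _ ≤ δ * σ := by
            have : r * B ≤ σ * (δ' / 50) :=
              mul_le_mul (by linarith [hr.2]) (by rw [hB]; linarith) (by positivity) hσ.le
            linarith
  · -- the length along an arm
    intro ω hω t ρ hρ hρt htρ
    have h1 := arm_length h hΩ hΩd (by rw [hB]; linarith) ha0 hab (by linarith [hbI.1])
      (by linarith [hbI.2]) hsubab hgi hgab hgb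
      (fun r hr hF => (hcirc r hr hF).2) hHle hω hρ hρt htρ
    have hLa : Len K x a ≤ 4 * (th * σ) := by
      have h1 := (abs_le.1 (hrange a ⟨ha₀a, by linarith [haI.2]⟩).2).2
      have h2 : ((k : ℝ) + ε) * a ≤ 4 * (th * σ) :=
        mul_le_mul (by linarith) haI.2.le ha0.le (by norm_num)
      linarith
    have hke : (k : ℝ) * e ≤ 3 * e := mul_le_mul_of_nonneg_right hk2'.2 he0.le
    have hfinal : 4 * (th * σ) + 19 * (ε * σ) + 3 * e ≤ δ * σ := by
      have := mul_le_mul_of_nonneg_right hδle hσ.le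
      have : th * σ = δ' * σ / 100 := by rw [hth]; ring
      rw [he]
      linarith [mul_nonneg hδ0.le hσ.le]
    linarith

end Vale.Agent.P128.Bonnet
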