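import Vale.Agent.P128.Bonnet.Tip.Cut
import Vale.Agent.P128.Bonnet.Tip.NoHole
import Vale.Agent.P128.Islands.Topology

/-!
# A part hanging at one point has a point of positive energy density

Otherwise the part does not separate the plane, every point of it is flat or triple at small
scales and so cuts it, which no continuum of finite length allows.
-/

namespace Vale.Agent.P128.Bonnet

open MeasureTheory Filter Metric Set Islands Connected
open scoped Topology ENNReal NNReal

lemma isPreconnected_compl_closedBall (x : ℂ) (R : ℝ) : IsPreconnected (closedBall x R)ᶜ := by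
  refine isPreconnected_of_forall_pair fun a ha b hb => ?_
  rw [mem_compl_iff, mem_closedBall, not_le] at ha hb
  refine ⟨(ball x (min (dist a x) (dist b x)))ᶜ, ?_, ?_, ?_, Plane.isPreconnected_compl_ball x _⟩
  · intro z hz hz'
    rw [mem_compl_iff, mem_ball, not_lt] at hz
    rw [mem_closedBall] at hz'
    exact absurd (hz.trans hz') (not_le.2 (lt_min ha hb))
  · rw [mem_compl_iff, mem_ball, not_lt]; exact min_le_left _ _
  · rw [mem_compl_iff, mem_ball, not_lt]; exact min_le_right _ _

theorem tipGoal (hR : RadialGoal) (hG : GrowthGoal) (hS : StarGoal) (hDel : DeleteGoal)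
    (hU : UnicoherentGoal) : TipGoal := by
  intro u K x p R h hxK hR0 hp hsmall
  obtain ⟨C, hC⟩ := hDel
  set δ' : ℝ := 1 / (16 * (|C| + 1)) with hδ'
  have hδ'0 : 0 < δ' := by positivity
  have hCδ : 16 * |C| * δ' ≤ 1 := by
    rw [hδ', mul_one_div, div_le_one (by positivity)]; linarith
  have hδ'1 : δ' ≤ 1 / 4 :=
    one_div_le_one_div_of_le (by norm_num) (by linarith [abs_nonneg C])
  set δ : ℝ := min (1 / 300) (δ' / 75) with hδ
  have hδ0 : 0 < δ := lt_min (by norm_num) (by positivity)
  have hδ1 : δ ≤ 1 / 300 := min_le_left _ _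
  have hδ2 : 75 * δ ≤ δ' := by linarith [min_le_right (1 / 300 : ℝ) (δ' / 75)]
  set J := K ∩ closedBall x R with hJ
  have hJc : IsCompact J := (isCompact_closedBall x R).inter_left h.reg.isClosed
  have hτ0 : (0 : ℝ) < δ' ^ 2 / 10000 := by positivity
  obtain ⟨σ₀, T, S⟩ := exists_scales hG hS hδ0 hτ0 (hδ1.trans (by norm_num)) h hJc inter_subset_left
    hsmall
  have hreach := component_reaches hR hC h hR0 hp S hδ0 hδ1 hδ2 hδ'1 hCδ hτ0 (by linarith)
  have hpp : p ∈ K ∩ sphere x R := hp.symm ▸ mem_singleton p
  have hpJ : p ∈ J := ⟨hpp.1, sphere_subset_closedBall hpp.2⟩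
  have hxJ : x ∈ J := ⟨hxK, mem_closedBall_self hR0.le⟩
  have hxp : x ≠ p := fun h' => by
    have := hpp.2
    rw [← h', mem_sphere, dist_self] at this
    linarith
  have hJp : IsPreconnected J := isPreconnected_of_forall p fun a ha => by
    obtain ⟨b, hb, hbs⟩ := component_meets_sphere_at h.reg.isClosed h.connected h.unbounded ha
    have hbp : b ∈ K ∩ sphere x R := ⟨(connectedComponentIn_subset _ _ hb).1, hbs⟩
    rw [hp, mem_singleton_iff] at hbp
    exact ⟨_, connectedComponentIn_subset _ _, hbp ▸ hb, mem_connectedComponentIn ha,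
      isPreconnected_connectedComponentIn⟩
  have hfin : Measure.hausdorffMeasure 1 J ≠ ⊤ :=
    ne_top_of_le_ne_top (h.reg.length_ne_top (R + ‖x‖ + 1)) (measure_mono (inter_subset_inter_right _
      ((closedBall_subset_ball (lt_add_one R)).trans (ball_subset_ball' (by
        rw [dist_zero_right]; linarith)))))
  -- the hanging part does not separate
  have hcompl : IsPreconnected Jᶜ := by
    set W := (ball x R)ᶜ \ {p} with hW
    have hWp : IsPreconnected W := by
      refine (isPreconnected_compl_closedBall x R).subset_closure ?_ ?_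
      · intro z hz
        refine ⟨fun h' => hz (ball_subset_closedBall h'), fun h' => hz ?_⟩
        rw [mem_singleton_iff.1 h']
        exact hpJ.2
      · rw [closure_compl, interior_closedBall _ hR0.ne']
        exact sdiff_subset
    have hWJ : W ⊆ Jᶜ := by
      rintro z ⟨hz, hzp⟩ ⟨hzK, hz2⟩
      rw [mem_compl_iff, mem_ball, not_lt] at hz
      exact hzp (hp.subset ⟨hzK, le_antisymm (mem_closedBall.1 hz2) hz⟩)
    obtain ⟨o, ho⟩ : ∃ o, o ∈ W := by
      refine ⟨x + ((R + 1 : ℝ) : ℂ), ?_, fun h' => ?_⟩
      · rw [mem_compl_iff, mem_ball, dist_eq_norm, add_sub_cancel_left, Complex.norm_real,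
          Real.norm_of_nonneg (by linarith), not_lt]
        linarith
      · have h2 := hpp.2
        rw [← mem_singleton_iff.1 h', mem_sphere, dist_eq_norm, add_sub_cancel_left,
          Complex.norm_real, Real.norm_of_nonneg (by linarith)] at h2
        linarith
    refine isPreconnected_of_forall o fun a ha => ?_
    by_cases haW : a ∈ W
    · exact ⟨W, hWJ, ho, haW, hWp⟩
    have hab : a ∈ ball x R := by
      by_contra hc
      exact haW ⟨hc, fun h' => ha (by rw [mem_singleton_iff.1 h']; exact hpJ)⟩
    have haK : a ∉ K := fun h' => ha ⟨h', ball_subset_closedBall hab⟩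
    obtain ⟨b, hb, hbs⟩ := hreach a hab haK
    have hbW : b ∈ W := ⟨fun h' => (ne_of_lt (mem_ball.1 h')) hbs, fun h' =>
      connectedComponentIn_subset _ _ hb (by rw [mem_singleton_iff.1 h']; exact hpp.1)⟩
    exact ⟨W ∪ connectedComponentIn Kᶜ a,
      union_subset hWJ fun z hz hzJ => connectedComponentIn_subset _ _ hz hzJ.1, Or.inl ho,
      Or.inr (mem_connectedComponentIn haK),
      hWp.union b hbW hb isPreconnected_connectedComponentIn⟩
  have hdense : Dense Jᶜ :=
    interior_eq_empty_iff_dense_compl.1 (eq_empty_of_subset_empty fun z hz => by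
      obtain ⟨e, he, hsub⟩ := Metric.isOpen_iff.1 isOpen_interior z hz
      exact absurd (measure_mono_null (hsub.trans (interior_subset.trans inter_subset_left))
        h.reg.null) (measure_ball_pos volume z he).ne')
  have huni : ∀ A B : Set ℂ, A ⊆ J → B ⊆ J → IsCompact A → IsCompact B → IsPreconnected A →
      IsPreconnected B → IsPreconnected (A ∩ B) := fun A B hA hB hAc hBc hAp hBp =>
    hU A B hAc hBc hAp hBp (ne_top_of_le_ne_top hfin (measure_mono hA))
      (ne_top_of_le_ne_top hfin (measure_mono hB))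
      (hcompl.subset_closure (compl_subset_compl.2 (union_subset hA hB))
        (by rw [hdense.closure_eq]; exact subset_univ _))
  obtain ⟨γ, Cγ, hγ, hγJ⟩ := continuumGoal J hJc hJp ⟨x, hxJ⟩ hfin
  refine false_of_cut hJc hJp hpJ hxJ hxp hfin fun y hy hyp => ?_
  obtain ⟨k, hk, s, hs, hst⟩ := S.kind y hy
  have hyb : dist y x < R := lt_of_le_of_ne hy.2 fun h' => hyp (hp.subset ⟨hy.1, h'⟩)
  set s' := min s (R - dist y x) with hs'
  have hs0 : 0 < s' := lt_min hs (by linarith)
  obtain ⟨A, B, hA, hB, hAc, hBc, hAp, hBp, hAB, hAn, hBn⟩ := two_sided h (s := s') hy.1 hk hs0 hδ1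
    fun σ hσ => hst σ ⟨hσ.1, hσ.2.trans (min_le_left _ _)⟩
  have hsub : K ∩ closedBall y s' ⊆ J := inter_subset_inter_right _
    (closedBall_subset_closedBall' (by linarith [min_le_right s (R - dist y x)]))
  exact not_preconnected_compl_point hγ hγJ huni (hA.trans hsub) (hB.trans hsub) hAc hBc hAp hBp hAB
    hAn hBn

end Vale.Agent.P128.Bonnet
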