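import Vale.Agent.P128.Bonnet.Interface
import Vale.Agent.P128.Connected.Continua
import Vale.Agent.P128.Connected.Potential.Curve
import Vale.Agent.P128.Connected.SecondVar

/-!
# Two continua whose union does not separate the plane meet in a connected set
-/

namespace Vale.Agent.P128.Bonnet

open MeasureTheory Filter Metric Set Islands Connected Connected.Potential
open scoped Topology ENNReal NNReal ContDiff

/-- A test gradient pairs with the dipole to the difference of the values at the poles. -/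
lemma integral_test_dipole {χ : ℂ → ℝ} (hχ : IsTest univ χ) (a b : ℂ) :
    ∫ z, dot (grad χ z) (kern a z - kern b z) = -4 * (∫ z, bell z) * (χ a - χ b) := by
  have hc : Continuous (grad χ) :=
    continuousOn_univ.1 (contDiffOn_grad isOpen_univ hχ.1.contDiffOn).continuousOn
  have hs : HasCompactSupport (grad χ) :=
    HasCompactSupport.intro hχ.2.1.isCompact fun z hz => grad_eq_zero_of_notMem_tsupport hz
  obtain ⟨L, hL⟩ := hs.exists_bound_of_continuous hc
  have hi : Integrable (grad χ) := hc.integrable_of_hasCompactSupport hs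
  have hL0 : 0 ≤ L := (norm_nonneg _).trans (hL 0)
  set T := ∫ z, ‖grad χ z‖ with hT
  have hT0 : 0 ≤ T := integral_nonneg fun z => norm_nonneg _
  have g : Growth (grad χ) (L * Real.pi + T) := by
    refine ⟨hc.measurable, fun c r => hi.integrableOn, fun c r hr => ?_⟩
    rcases le_or_gt r 1 with h1 | h1
    · have h2 := norm_setIntegral_le_of_norm_le_const (μ := (volume : Measure ℂ)) (s := ball c r)
        (f := fun z => ‖grad χ z‖) (C := L) measure_ball_lt_top fun z _ => by
          rw [norm_norm]; exact hL z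
      rw [Real.norm_of_nonneg (integral_nonneg fun z => norm_nonneg _), measureReal_def,
        Complex.volume_ball] at h2
      simp [hr] at h2
      refine h2.trans ?_
      have : r * r ≤ r * Real.sqrt r := by
        refine mul_le_mul_of_nonneg_left ?_ hr
        nlinarith [Real.sq_sqrt hr, Real.sqrt_nonneg r, Real.sqrt_le_one.2 h1]
      nlinarith [mul_nonneg hT0 (mul_nonneg hr (Real.sqrt_nonneg r)),
        mul_le_mul_of_nonneg_left this (mul_nonneg hL0 Real.pi_pos.le)]
    · refine (setIntegral_le_integral hi.norm (Eventually.of_forall fun z => norm_nonneg _)).trans ?_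
      rw [← hT]
      have : 1 ≤ r * Real.sqrt r :=
        one_le_mul_of_one_le_of_one_le h1.le (Real.one_le_sqrt.2 h1.le)
      nlinarith [mul_nonneg (mul_nonneg hL0 Real.pi_pos.le) (zero_le_one.trans this)]
  have hw : ∀ z, HasFDerivAt χ (innerSL ℝ (grad χ z)) z := fun z => by
    have he : fderiv ℝ χ z = innerSL ℝ (grad χ z) := by
      refine ContinuousLinearMap.ext fun v => ?_
      have e : v = v.re • (1 : ℂ) + v.im • Complex.I := by simp
      conv_lhs => rw [e]
      rw [map_add, map_smul, map_smul]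
      simp [innerSL_apply_apply, grad]
    exact he ▸ (hχ.1.differentiable (by simp) z).hasFDerivAt
  have h0 : Tendsto (fun R => Potential.shift (grad χ) R a b) atTop (𝓝 0) := by
    refine squeeze_zero_norm' ((eventually_gt_atTop 0).mono fun R hR => abs_shift_le g hR a b) ?_
    exact tendsto_const_nhds.div_atTop Real.tendsto_sqrt_atTop
  have h := ((h0.sub (tendsto_radial_sub g a b)).div_const (∫ z, bell z))
  have h' : Tendsto (fun _ : ℝ => χ a - χ b) atTop
      (𝓝 ((0 - (1 / 4) * ∫ z, dot (grad χ z) (kern a z - kern b z)) / ∫ z, bell z)) := by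
    refine h.congr fun R => ?_
    rw [← val_of_gradient hc hw R a b, val]
    ring
  have := tendsto_nhds_unique tendsto_const_nhds h'
  rw [this]
  field_simp [integral_bell_pos.ne']
  ring

/-- A curve in a continuum of finite length between two given points. -/
lemma exists_path {C : Set ℂ} (hC : IsCompact C) (hCp : IsPreconnected C)
    (hfin : Measure.hausdorffMeasure 1 C ≠ ⊤) {a b : ℂ} (ha : a ∈ C) (hb : b ∈ C) :
    ∃ (γ : ℝ → ℂ) (L : ℝ≥0), LipschitzWith L γ ∧ γ '' Icc 0 1 ⊆ C ∧ γ 0 = a ∧ γ 1 = b := by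
  obtain ⟨γ, L, hγ, him⟩ := continuumGoal C hC hCp ⟨a, ha⟩ hfin
  obtain ⟨s, hs, rfl⟩ : a ∈ γ '' Icc 0 1 := him.symm ▸ ha
  obtain ⟨t, ht, rfl⟩ : b ∈ γ '' Icc 0 1 := him.symm ▸ hb
  refine ⟨fun x => γ (s + x * (t - s)), L * ‖t - s‖₊, hγ.comp (LipschitzWith.of_dist_le_mul
    fun x y => ?_), ?_, by simp, by simp⟩
  · simp [Real.dist_eq, ← sub_mul, abs_mul, mul_comm]
  · rintro _ ⟨x, hx, rfl⟩
    rw [← him]
    refine mem_image_of_mem γ ((convex_Icc (𝕜 := ℝ) (0 : ℝ) 1).segment_subset hs ht ?_)
    exact ⟨1 - x, x, by linarith [hx.2], hx.1, by ring, by simp only [smul_eq_mul]; ring⟩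

theorem unicoherentGoal : UnicoherentGoal := by
  intro C D hC hD hCp hDp hCf hDf hout
  rw [isPreconnected_closed_iff]
  intro A B hA hB hcov ⟨a, ⟨haC, haD⟩, haA⟩ ⟨b, ⟨hbC, hbD⟩, hbB⟩
  by_contra hdis
  set A' := C ∩ D ∩ A with hA'
  set B' := C ∩ D ∩ B with hB'
  have hA'c : IsCompact A' := (hC.inter hD).inter_right hA
  have hB'c : IsClosed B' := ((hC.inter hD).inter_right hB).isClosed
  have hAB : A' ⊆ B'ᶜ := fun z hz hz' => hdis ⟨z, hz.1, hz.2, hz'.2⟩
  obtain ⟨χ, hχ, hone⟩ := exists_cutoff hA'c hB'c.isOpen_compl hAB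
  obtain ⟨γ, L, hγ, hγC, hγ0, hγ1⟩ := exists_path hC hCp hCf haC hbC
  obtain ⟨δ, M, hδ, hδD, hδ0, hδ1⟩ := exists_path hD hDp hDf haD hbD
  set F : ℂ → ℂ := fun z => Complex.I * (kern b z - kern a z) with hF
  set p := Potential.angle γ with hp
  set q := Potential.angle δ with hq
  have hps : ContDiffOn ℝ ∞ p Cᶜ := (contDiffOn_angle hγ).mono (compl_subset_compl.2 hγC)
  have hqs : ContDiffOn ℝ ∞ q Dᶜ := (contDiffOn_angle hδ).mono (compl_subset_compl.2 hδD)
  have hpg : ∀ z ∉ C, grad p z = F z := fun z hz => by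
    rw [hp, grad_angle hγ fun h => hz (hγC h), hγ0, hγ1]
  have hqg : ∀ z ∉ D, grad q z = F z := fun z hz => by
    rw [hq, grad_angle hδ fun h => hz (hδD h), hδ0, hδ1]
  have hCo := hC.isClosed.isOpen_compl
  have hDo := hD.isClosed.isOpen_compl
  have hpd : ∀ z ∉ C, DifferentiableAt ℝ p z := fun z hz =>
    ((hps z hz).contDiffAt (hCo.mem_nhds hz)).differentiableAt (by simp)
  have hqd : ∀ z ∉ D, DifferentiableAt ℝ q z := fun z hz =>
    ((hqs z hz).contDiffAt (hDo.mem_nhds hz)).differentiableAt (by simp)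
  obtain ⟨k, hk⟩ := (hC.union hD).isClosed.isOpen_compl.exists_is_const_of_fderiv_eq_zero hout
    (f := fun z => p z - q z)
    (fun z hz => ((hpd z fun h => hz (Or.inl h)).sub
      (hqd z fun h => hz (Or.inr h))).differentiableWithinAt)
    fun z hz => by
      have h1 := grad_sub (hpd z fun h => hz (Or.inl h)) (hqd z fun h => hz (Or.inr h))
      rw [hpg z fun h => hz (Or.inl h), hqg z fun h => hz (Or.inr h), sub_self] at h1
      refine ContinuousLinearMap.ext fun v => ?_
      rw [fderiv_eq_dot_grad, h1]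
      simp [dot]
  classical
  set P : ℂ → ℝ := fun z => if z ∈ C then q z + k else p z with hP
  set Z := (C ∩ D)ᶜ with hZ
  have hZo : IsOpen Z := (hC.inter hD).isClosed.isOpen_compl
  have hloc : ∀ z ∈ Z, (z ∉ C ∧ P =ᶠ[𝓝 z] p) ∨ (z ∉ D ∧ P =ᶠ[𝓝 z] fun w => q w + k) := by
    intro z hz
    by_cases hzC : z ∈ C
    · have hzD : z ∉ D := fun h => hz ⟨hzC, h⟩
      refine Or.inr ⟨hzD, ?_⟩
      filter_upwards [hDo.mem_nhds hzD] with w hw
      by_cases hwC : w ∈ C
      · simp [hP, hwC]
      · have := hk w (by simp [hwC, show w ∉ D from hw])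
        simp [hP, hwC]
        linarith
    · refine Or.inl ⟨hzC, ?_⟩
      filter_upwards [hCo.mem_nhds hzC] with w hw
      simp [hP, show w ∉ C from hw]
  have hPs : ContDiffOn ℝ ∞ P Z := fun z hz => by
    rcases hloc z hz with ⟨h1, h2⟩ | ⟨h1, h2⟩
    · exact (((hps z h1).contDiffAt (hCo.mem_nhds h1)).congr_of_eventuallyEq h2).contDiffWithinAt
    · exact ((((hqs z h1).contDiffAt (hDo.mem_nhds h1)).add
        contDiffAt_const).congr_of_eventuallyEq h2).contDiffWithinAt
  have hPg : ∀ z ∈ Z, grad P z = F z := fun z hz => by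
    rcases hloc z hz with ⟨h1, h2⟩ | ⟨h1, h2⟩
    · rw [grad_congr h2, hpg z h1]
    · rw [grad_congr h2]
      simp [grad, fderiv_add_const, ← hqg z h1]
  have htest : ∀ v, IsTest Z fun z => fderiv ℝ χ z v := fun v => by
    refine ⟨(hχ.fderiv_apply v).1, (hχ.fderiv_apply v).2.1, fun z hz hzZ => ?_⟩
    rcases hcov hzZ with hzA | hzB
    · refine notMem_tsupport_iff_eventuallyEq.2 ?_ hz
      filter_upwards [(eventually_nhdsSet_iff_forall.1 hone z ⟨hzZ, hzA⟩).eventually_nhds] with w hw
      simp [Filter.EventuallyEq.fderiv_eq (f := fun _ => (1 : ℝ)) hw]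
    · exact (hχ.fderiv_apply v).2.2 hz ⟨hzZ, hzB⟩
  have hz0 := integral_cross_eq_zero hZo hPs (htest 1) (htest Complex.I)
    (fun z => fderiv_comm_apply (hχ.1.contDiffAt.of_le (WithTop.coe_le_coe.2 le_top)) _ _)
  have hint : ∫ z, dot (grad χ z) (kern a z - kern b z) = 0 := by
    rw [← neg_eq_zero, ← integral_neg, ← hz0]
    refine integral_congr_ae (Eventually.of_forall fun z => ?_)
    by_cases hz : z ∈ Z
    · have h1 := congrArg Complex.re (hPg z hz)
      have h2 := congrArg Complex.im (hPg z hz)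
      rw [grad_re] at h1
      rw [grad_im] at h2
      simp only [h1, h2, hF, dot, grad_re, grad_im]
      simp
      ring
    · have h1 := image_eq_zero_of_notMem_tsupport fun h => hz ((htest 1).2.2 h)
      have h2 := image_eq_zero_of_notMem_tsupport fun h => hz ((htest Complex.I).2.2 h)
      simp [dot, grad_re, grad_im, h1, h2]
  rw [integral_test_dipole (hχ.mono (subset_univ _)),
    (eventually_nhdsSet_iff_forall.1 hone a ⟨⟨haC, haD⟩, haA⟩).self_of_nhds,
    image_eq_zero_of_notMem_tsupport fun h => hχ.2.2 h ⟨⟨hbC, hbD⟩, hbB⟩] at hint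
  linarith [integral_bell_pos]

end Vale.Agent.P128.Bonnet
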