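import Vale.Agent.P128.Bonnet.Interface
import Vale.Agent.P128.Bonnet.Unit.Flux

/-!
# Almost constant positive density is almost one

On most circles of a fixed range the deficit is small: the singular set crosses them in one small
arc and, the crossing being connected and hardly longer than the width, in nearly one direction.
A radius is then a good competitor, and translating the disk in that direction balances the
length with the flux of momentum, which is the density.
-/

noncomputable section

namespace Vale.Agent.P128.Bonnet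

open MeasureTheory Filter Metric Set Islands Connected
open scoped Topology ENNReal NNReal

namespace Unit

/-- A connected closed set from the centre to infinity crosses every annulus. -/
lemma exists_crossing {K : Set ℂ} (hK : IsClosed K) (hc : IsPreconnected K) {x : ℂ} (hx : x ∈ K)
    (hub : ¬ Bornology.IsBounded K) {a b : ℝ} (ha : 0 < a) (hab : a < b) :
    ∃ S ⊆ K ∩ (closedBall x b \ ball x a), IsPreconnected S ∧
      (∃ y ∈ S, rad x y = a) ∧ ∃ z ∈ S, rad x z = b := by
  set X := K ∩ (closedBall x b \ ball x a) with hX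
  have hXc : IsCompact X := ((isCompact_closedBall x b).diff isOpen_ball).inter_left hK
  have := isCompact_iff_compactSpace.1 hXc
  by_contra hno
  push Not at hno
  set A : Set X := Subtype.val ⁻¹' {y | rad x y = a}
  set B : Set X := Subtype.val ⁻¹' {y | rad x y = b}
  have hA : IsClosed A :=
    (isClosed_eq (continuous_rad x) continuous_const).preimage continuous_subtype_val
  have hB : IsClosed B :=
    (isClosed_eq (continuous_rad x) continuous_const).preimage continuous_subtype_val
  -- each point of the inner circle has a clopen neighbourhood off the outer circle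
  have hp : ∀ p ∈ A, ∃ Z : Set X, IsClopen Z ∧ p ∈ Z ∧ Disjoint Z B := by
    intro p hp
    obtain ⟨t, ht⟩ := hB.isCompact.elim_finite_subfamily_closed
      (fun s : { s : Set X // IsClopen s ∧ p ∈ s } => (s : Set X)) (fun s => s.2.1.1) (by
        rw [← connectedComponent_eq_iInter_isClopen, eq_empty_iff_forall_notMem]
        rintro q ⟨hqB, hq⟩
        exact hno (Subtype.val '' connectedComponent p)
          (by rintro _ ⟨w, -, rfl⟩; exact w.2)
          (isPreconnected_connectedComponent.image _ continuous_subtype_val.continuousOn)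
          ⟨p, mem_image_of_mem _ mem_connectedComponent, hp⟩ q (mem_image_of_mem _ hq) hqB)
    exact ⟨⋂ i ∈ t, (i : Set X), isClopen_biInter_finset fun i _ => i.2.1,
      mem_iInter₂.2 fun i _ => i.2.2,
      disjoint_left.2 fun q hq hqB => eq_empty_iff_forall_notMem.1 ht q ⟨hqB, hq⟩⟩
  choose! Z hZ using hp
  obtain ⟨t, ht⟩ := hA.isCompact.elim_finite_subcover (fun p : A => Z p)
    (fun p => (hZ p p.2).1.isOpen) fun q hq => mem_iUnion.2 ⟨⟨q, hq⟩, (hZ q hq).2.1⟩
  set U : Set X := ⋃ p ∈ t, Z p with hU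
  have hUc : IsClopen U := t.finite_toSet.isClopen_biUnion fun p _ => (hZ p p.2).1
  have hUB : Disjoint U B := by
    simp only [hU, disjoint_iUnion_left]
    exact fun p _ => (hZ p p.2).2.2
  set C : Set ℂ := (K ∩ closedBall x a) ∪ Subtype.val '' U
  set C' : Set ℂ := (K \ ball x b) ∪ Subtype.val '' Uᶜ
  have hC : IsClosed C :=
    (hK.inter isClosed_closedBall).union (hUc.isClosed.isCompact.image continuous_subtype_val).isClosed
  have hC' : IsClosed C' := (hK.sdiff isOpen_ball).union
    (hUc.compl.isClosed.isCompact.image continuous_subtype_val).isClosed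
  have hcov : K ⊆ C ∪ C' := by
    intro y hy
    by_cases h1 : y ∈ closedBall x a
    · exact Or.inl (Or.inl ⟨hy, h1⟩)
    by_cases h2 : y ∈ ball x b
    · have hyX : y ∈ X :=
        ⟨hy, ball_subset_closedBall h2, fun h => h1 (ball_subset_closedBall h)⟩
      by_cases h3 : (⟨y, hyX⟩ : X) ∈ U
      · exact Or.inl (Or.inr ⟨_, h3, rfl⟩)
      · exact Or.inr (Or.inr ⟨_, h3, rfl⟩)
    · exact Or.inr (Or.inl ⟨hy, h2⟩)
  obtain ⟨y, hy, hyb⟩ : ∃ y ∈ K, b ≤ rad x y := by
    by_contra h
    push Not at h
    exact hub ((isBounded_ball (x := x) (r := b)).subset fun z hz => by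
      rw [mem_ball, dist_eq_norm]; exact h z hz)
  have hdisj : ∀ p : X, p.1 ∈ closedBall x a → p ∈ U := fun p hp => by
    have h2 := p.2.2.2
    rw [mem_ball, dist_eq_norm, not_lt] at h2
    rw [mem_closedBall, dist_eq_norm] at hp
    exact ht (show p ∈ A from le_antisymm hp h2)
  obtain ⟨w, -, hw⟩ := isPreconnected_closed_iff.1 hc C C' hC hC' hcov
    ⟨x, hx, Or.inl ⟨hx, mem_closedBall_self ha.le⟩⟩
    ⟨y, hy, Or.inl ⟨hy, by rw [mem_ball, dist_eq_norm, not_lt]; exact hyb⟩⟩
  rcases hw with ⟨⟨-, hwa⟩ | ⟨p, hp, rfl⟩, ⟨-, hwb⟩ | ⟨q, hq, hqe⟩⟩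
  · exact hwb (closedBall_subset_ball hab hwa)
  · exact hq (hdisj q (by rw [hqe]; exact hwa))
  · refine disjoint_left.1 hUB hp ?_
    have h2 := p.2.2.1
    rw [mem_closedBall, dist_eq_norm] at h2
    rw [mem_ball, dist_eq_norm, not_lt] at hwb
    exact le_antisymm h2 hwb
  · exact hq (Subtype.ext hqe ▸ hp)

variable {u : ℂ → ℝ} {K : Set ℂ} {x : ℂ}

lemma exists_on_circle (hc : Conn u K) (hx : x ∈ K) {s : ℝ} (hs : 0 ≤ s) :
    ∃ y ∈ K, rad x y = s := by
  obtain ⟨y, hy, hys⟩ : ∃ y ∈ K, s ≤ rad x y := by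
    by_contra h
    push Not at h
    exact hc.unbounded ((isBounded_ball (x := x) (r := s)).subset fun z hz => by
      rw [mem_ball, dist_eq_norm]; exact h z hz)
  exact hc.connected.intermediate_value hx hy (continuous_rad x).continuousOn
    ⟨by simpa [rad] using hs, hys⟩

lemma length_ne_top (hc : Conn u K) (x : ℂ) (R : ℝ) {A : Set ℂ} (hA : A ⊆ K ∩ ball x R) :
    Measure.hausdorffMeasure 1 A ≠ ⊤ :=
  ne_top_of_le_ne_top (hc.reg.length_ne_top (‖x‖ + R)) (measure_mono (hA.trans
    (inter_subset_inter_right K fun z hz => by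
      rw [mem_ball_zero_iff]
      rw [mem_ball, dist_eq_norm] at hz
      linarith [norm_le_norm_add_norm_sub' z x])))

lemma le_len (hc : Conn u K) (hx : x ∈ K) {r : ℝ} (hr : 0 ≤ r) : r ≤ Len K x r := by
  have h := volume_le_length (x := x) (S := K ∩ ball x r) (I := Ioo 0 r) fun s hs => by
    obtain ⟨y, hy, hys⟩ := exists_on_circle hc hx hs.1.le
    exact ⟨y, ⟨hy, by rw [mem_ball, dist_eq_norm]; exact (show rad x y < r from hys.symm ▸ hs.2)⟩,
      hys⟩
  have := ENNReal.toReal_mono (length_ne_top hc x r Subset.rfl) h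
  rwa [Real.volume_Ioo, sub_zero, ENNReal.toReal_ofReal hr] at this

/-- The normalised energy. -/
def dens (u : ℂ → ℝ) (x : ℂ) (s : ℝ) : ℝ := En u x s / s

/-- The whole energy on a circle. -/
def total (u : ℂ → ℝ) (x : ℂ) (s : ℝ) : ℝ := tang u x s + nor u x s

/-- The deficit of a circle. -/
def defi (u : ℂ → ℝ) (x : ℂ) (s : ℝ) : ℝ := total u x s - dens u x s

/-- The error in the length. -/
def omega (l η : ℝ) : ℝ :=
  10 * (16 * Real.sqrt η / l) + Real.sqrt η + 4 * Real.sqrt (8 * Real.sqrt η)

/-- The excess of length in the annulus. -/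
def excess (l η : ℝ) : ℝ :=
  2 * omega l η + 5 * Real.sqrt η + 5 * Real.sqrt η * omega l η

/-- The aperture of the crossing. -/
def aperture (l η : ℝ) : ℝ :=
  16 * Real.sqrt η / l + 2 * Real.sqrt ((1 + excess l η) * excess l η)

/-- The error in the density. -/
def errUnit (M₀ l η : ℝ) : ℝ :=
  M₀ * ((1 + excess l η) * aperture l η + 2 * (excess l η + 4 * Real.sqrt η) + 2 * excess l η) +
    M₀ * excess l η +
    (M₀ * (16 * η + aperture l η * (8 + 4 * η) + 2 * (32 * Real.sqrt η + 4 * η)) + η + 4 * M₀ * η)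

/-- The scales where the monotone quantity is almost constant. -/
structure Flat (u : ℂ → ℝ) (K : Set ℂ) (x : ℂ) (r l η : ℝ) : Prop where
  conn : Conn u K
  mem : x ∈ K
  pos : 0 < r
  lpos : 0 < l
  lower : l ≤ dens u x r
  ηpos : 0 < η
  ηle : η ≤ l / 2
  small : Real.sqrt η ≤ 1 / 10
  thin : 16 * Real.sqrt η / l ≤ 1 / 4
  flat : dens u x (4 * r) - dens u x (r / 4) ≤ η
  mono : MonotoneOn (dens u x) (Ioi 0)

variable {r l η : ℝ}

lemma Flat.dens_le (h : Flat u K x r l η) {s : ℝ} (hs : 0 < s) : dens u x s ≤ 7 := by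
  have h1 := (h.conn.density x s hs.le).2
  rw [dens, En, div_le_iff₀ hs]
  have := mul_le_mul_of_nonneg_right (show 2 * Real.pi ≤ 7 by linarith [Real.pi_lt_d2]) hs.le
  linarith

lemma Flat.close (h : Flat u K x r l η) {s : ℝ} (hs : s ∈ Icc (r / 4) (4 * r)) :
    |dens u x s - dens u x r| ≤ η := by
  have hr := h.pos
  have p1 : (r / 4 : ℝ) ∈ Ioi (0 : ℝ) := mem_Ioi.2 (by positivity)
  have p2 : (4 * r) ∈ Ioi (0 : ℝ) := mem_Ioi.2 (by positivity)
  have p3 : s ∈ Ioi (0 : ℝ) := mem_Ioi.2 (lt_of_lt_of_le (by positivity) hs.1)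
  have a1 := h.mono p1 p3 hs.1
  have a2 := h.mono p3 p2 hs.2
  have a3 := h.mono p1 (mem_Ioi.2 hr) (by linarith)
  have a4 := h.mono (mem_Ioi.2 hr) p2 (by linarith)
  have := h.flat
  rw [abs_le]
  constructor <;> linarith

lemma Flat.integrable_parts (h : Flat u K x r l η) (hPolar : PolarGoal) {a b : ℝ} (ha : 0 < a) :
    IntegrableOn (total u x) (Ioo a b) ∧ IntegrableOn (dens u x) (Ioo a b) ∧
      IntegrableOn (defi u x) (Ioo a b) := by
  have h1 : IntegrableOn (total u x) (Ioo a b) := by
    rcases le_or_gt b a with hab | hab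
    · simp [Ioo_eq_empty_of_le hab]
    · exact ((hPolar u K x h.conn.reg).1 b (ha.trans hab).le).mono_set fun s hs =>
        ⟨ha.trans hs.1, hs.2.le⟩
  have h2 : IntegrableOn (dens u x) (Ioo a b) :=
    ((h.mono.mono fun s hs => mem_Ioi.2 (lt_of_lt_of_le ha hs.1)).integrableOn_isCompact
      isCompact_Icc).mono_set Ioo_subset_Icc_self
  exact ⟨h1, h2, h1.sub h2⟩

lemma Flat.ae_defi_nonneg (h : Flat u K x r l η) (hDef : DeficitGoal) :
    ∀ᵐ s : ℝ, 0 < s → 0 ≤ defi u x s :=
  (hDef u K x h.conn h.mem).mono fun _ hs hs0 => sub_nonneg.2 (hs hs0).1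

/-- The deficit is small in the mean. -/
lemma Flat.deficit (h : Flat u K x r l η) (hPolar : PolarGoal) {a b : ℝ} (ha : r / 4 ≤ a)
    (hab : a ≤ b) (hb : b ≤ 4 * r) : ∫ s in Ioo a b, defi u x s ≤ 4 * η * r := by
  have hr := h.pos
  have ha0 : 0 < a := lt_of_lt_of_le (by positivity) ha
  obtain ⟨i1, i2, i3⟩ := h.integrable_parts hPolar (b := b) ha0
  obtain ⟨p1, p2⟩ := hPolar u K x h.conn.reg
  have e1 : ∫ s in Ioo a b, total u x s = En u x b - En u x a := by
    rw [p2 b (ha0.le.trans hab), p2 a ha0.le, ← Ioc_union_Ioc_eq_Ioc ha0.le hab,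
      setIntegral_union (Ioc_disjoint_Ioc_of_le le_rfl) measurableSet_Ioc (p1 a ha0.le)
        ((p1 b (ha0.le.trans hab)).mono_set (Ioc_subset_Ioc_left ha0.le)),
      integral_Ioc_eq_integral_Ioo (x := a)]
    show _ = (_ + ∫ s in Ioo a b, total u x s) - _
    ring
  have e2 : (b - a) * dens u x a ≤ ∫ s in Ioo a b, dens u x s := by
    have := setIntegral_mono_on (integrableOn_const (by simp)) i2 measurableSet_Ioo
      fun s hs => h.mono (mem_Ioi.2 ha0) (mem_Ioi.2 (ha0.trans hs.1)) hs.1.le
    rwa [setIntegral_const, Real.volume_real_Ioo_of_le hab, smul_eq_mul] at this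
  have ea : En u x a = a * dens u x a := by rw [dens]; field_simp
  have eb : En u x b = b * dens u x b := by
    rw [dens]; field_simp [(ha0.trans_le hab).ne']
  have hd : dens u x b - dens u x a ≤ η := by
    have a1 := h.mono (mem_Ioi.2 (by positivity : (0 : ℝ) < r / 4)) (mem_Ioi.2 ha0) ha
    have a2 := h.mono (mem_Ioi.2 (ha0.trans_le hab)) (mem_Ioi.2 (by positivity : (0 : ℝ) < 4 * r)) hb
    linarith [h.flat]
  have hd0 : 0 ≤ dens u x b - dens u x a :=
    sub_nonneg.2 (h.mono (mem_Ioi.2 ha0) (mem_Ioi.2 (ha0.trans_le hab)) hab)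
  rw [show defi u x = fun s => total u x s - dens u x s from rfl, integral_sub i1 i2, e1, ea, eb]
  calc b * dens u x b - a * dens u x a - ∫ s in Ioo a b, dens u x s
      ≤ b * (dens u x b - dens u x a) := by linarith
    _ ≤ 4 * r * η := mul_le_mul hb hd hd0 (by linarith)
    _ = 4 * η * r := by ring

/-- Every short range of radii has a circle with small deficit. -/
lemma Flat.exists_good (h : Flat u K x r l η) (hPolar : PolarGoal)
    {P : ℝ → Prop} {a b : ℝ} (ha : r ≤ a) (hb : b ≤ 4 * r) (hab : a + 5 * Real.sqrt η * r ≤ b)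
    (hP : ∀ᵐ s : ℝ, s ∈ Ioo a b → P s) :
    ∃ s ∈ Ioo a b, P s ∧ defi u x s ≤ Real.sqrt η := by
  have hr := h.pos
  have hq : 0 < Real.sqrt η := Real.sqrt_pos.2 h.ηpos
  have hle : a ≤ b := by nlinarith
  by_contra hno
  push Not at hno
  obtain ⟨-, -, i3⟩ := h.integrable_parts hPolar (b := b) (lt_of_lt_of_le hr ha)
  have h1 : ∫ _s in Ioo a b, Real.sqrt η ≤ ∫ s in Ioo a b, defi u x s := by
    refine setIntegral_mono_on_ae (integrableOn_const (by simp)) i3 measurableSet_Ioo ?_
    filter_upwards [hP] with s hs hs'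
    exact (hno s hs' (hs hs')).le
  rw [setIntegral_const, Real.volume_real_Ioo_of_le hle, smul_eq_mul] at h1
  have h2 := h.deficit hPolar (by linarith) hle hb
  have h3 : 5 * Real.sqrt η * r * Real.sqrt η ≤ (b - a) * Real.sqrt η :=
    mul_le_mul_of_nonneg_right (by linarith) hq.le
  have h4 : Real.sqrt η * Real.sqrt η = η := Real.mul_self_sqrt h.ηpos.le
  nlinarith [mul_pos h.ηpos hr]

/-- A circle with small deficit meets the singular set in a small arc. -/
lemma Flat.arc (h : Flat u K x r l η) {s : ℝ} (hs : s ∈ Icc r (4 * r))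
    (hd : defi u x s ≤ Real.sqrt η) (h0 : 0 ≤ defi u x s) {z w : ℂ}
    (hineq : ∀ δ ∈ Icc (0 : ℝ) 1, δ * s ≤ ‖w - z‖ →
      En u x s / s ≤ (1 - δ / (2 * Real.pi)) * (tang u x s + nor u x s)) :
    ‖w - z‖ ≤ 16 * Real.sqrt η / l * s := by
  have hr := h.pos
  have hl := h.lpos
  set δ := 16 * Real.sqrt η / l
  have hδ0 : 0 < δ := div_pos (mul_pos (by norm_num) (Real.sqrt_pos.2 h.ηpos)) hl
  by_contra hn
  have h1 := hineq δ ⟨hδ0.le, h.thin.trans (by norm_num)⟩ (le_of_not_ge hn)
  have hc := abs_le.1 (h.close (s := s) ⟨by linarith [hs.1], hs.2⟩)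
  have hT : l / 2 ≤ total u x s := by
    have := h.lower
    have := h.ηle
    simp only [defi] at h0
    linarith
  have h2 : δ / (2 * Real.pi) * total u x s ≤ defi u x s := by
    simp only [defi, dens, total] at *
    linarith
  have h3 : 8 * Real.sqrt η / (2 * Real.pi) ≤ δ / (2 * Real.pi) * total u x s := by
    have h' := mul_le_mul_of_nonneg_left hT (div_nonneg hδ0.le (by positivity : 0 ≤ 2 * Real.pi))
    refine le_trans (le_of_eq ?_) h'
    simp only [δ]
    field_simp
    ring
  have h4 : Real.sqrt η < 8 * Real.sqrt η / (2 * Real.pi) := by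
    rw [lt_div_iff₀ (by positivity)]
    nlinarith [Real.pi_lt_d2, Real.sqrt_pos.2 h.ηpos]
  linarith

/-- The length in disks is at most a radius, nearly. -/
lemma Flat.len_le (h : Flat u K x r l η) (hPolar : PolarGoal) (hRad : RadialGoal)
    (hDef : DeficitGoal) (hSpoke : SpokeGoal) {τ : ℝ} (h1 : r ≤ τ) (h2 : τ ≤ 2 * r) :
    Len K x τ ≤ (1 + omega l η) * (τ + 5 * Real.sqrt η * r) ∧
    ∃ s, τ < s ∧ Len K x s ≤ (1 + omega l η) * (τ + 5 * Real.sqrt η * r) := by
  have hr := h.pos
  have hq := Real.sqrt_pos.2 h.ηpos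
  set σ := 5 * Real.sqrt η * r with hσd
  have hσ : σ ≤ r := by nlinarith [h.small]
  have hae : ∀ᵐ s : ℝ, s ∈ Ioo τ (τ + σ) → (K ∩ sphere x s).Finite ∧ 0 ≤ defi u x s ∧
      (∀ z ∈ K ∩ sphere x s,
        (|tang u x s - nor u x s| ≤ 4 * Real.sqrt (total u x s * defi u x s)) ∧
        ∀ w ∈ K ∩ sphere x s, ∀ δ ∈ Icc (0 : ℝ) 1, δ * s ≤ ‖w - z‖ →
          En u x s / s ≤ (1 - δ / (2 * Real.pi)) * (tang u x s + nor u x s)) ∧
      ∀ z ∈ sphere x s, ∀ δ ∈ Ioc (0 : ℝ) (1 / 4), (K ∩ sphere x s).Finite →
        (∀ w ∈ K ∩ sphere x s, ‖w - z‖ ≤ δ * s) →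
        Len K x s + En u x s ≤ (1 + 10 * δ + 2 * tang u x s) * s := by
    obtain ⟨hf, -⟩ := hRad K x τ (τ + σ) h.conn.reg.isClosed h.conn.pieces h.conn.reg.length_ne_top
      (by linarith) (by nlinarith)
    filter_upwards [hf, hDef u K x h.conn h.mem, hSpoke u K x h.conn.reg, h.ae_defi_nonneg hDef]
      with s a1 a2 a3 a4 hs
    have hs0 : 0 < s := lt_of_lt_of_le hr (h1.trans hs.1.le)
    exact ⟨a1 hs, a4 hs0, fun z hz => ⟨((a2 hs0).2 z hz).2.1, ((a2 hs0).2 z hz).2.2⟩, a3 hs0⟩
  obtain ⟨s, hs, ⟨hfin, hd0, hdef, hsp⟩, hd⟩ :=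
    h.exists_good hPolar h1 (by linarith) le_rfl hae
  have hs0 : 0 < s := lt_of_lt_of_le hr (h1.trans hs.1.le)
  obtain ⟨z, hzK, hzs⟩ := exists_on_circle h.conn h.mem hs0.le
  have hz : z ∈ K ∩ sphere x s := ⟨hzK, by rw [mem_sphere, dist_eq_norm]; exact hzs⟩
  set δ := 16 * Real.sqrt η / l
  have hδ : δ ∈ Ioc (0 : ℝ) (1 / 4) :=
    ⟨div_pos (by positivity) h.lpos, h.thin⟩
  have hsI : s ∈ Icc r (4 * r) := ⟨h1.trans hs.1.le, by linarith [hs.2]⟩
  have hL := hsp z hz.2 δ hδ hfin fun w hw =>
    h.arc hsI hd hd0 fun d hd' hdw => (hdef z hz).2 w hw d hd' hdw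
  have htan : 2 * tang u x s ≤ total u x s + 4 * Real.sqrt (8 * Real.sqrt η) := by
    have h3 := (le_abs_self _).trans (hdef z hz).1
    have h4 : Real.sqrt (total u x s * defi u x s) ≤ Real.sqrt (8 * Real.sqrt η) := by
      refine Real.sqrt_le_sqrt ?_
      have h5 : total u x s ≤ 8 := by
        have := h.dens_le hs0
        have := h.small
        simp only [defi] at hd
        linarith
      exact mul_le_mul h5 hd hd0 (by norm_num)
    simp only [total] at *
    linarith
  have hls : Len K x s ≤ (1 + omega l η) * s := by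
    have e : En u x s = dens u x s * s := by rw [dens, div_mul_cancel₀ _ hs0.ne']
    have h3 := mul_le_mul_of_nonneg_right
      (show 2 * tang u x s - dens u x s ≤ Real.sqrt η + 4 * Real.sqrt (8 * Real.sqrt η) by
        simp only [defi] at hd
        linarith) hs0.le
    simp only [omega, δ] at *
    linarith
  have hω : 0 ≤ omega l η := by have := h.lpos; simp only [omega]; positivity
  have hb : (1 + omega l η) * s ≤ (1 + omega l η) * (τ + σ) :=
    mul_le_mul_of_nonneg_left hs.2.le (by linarith)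
  refine ⟨le_trans ?_ (hls.trans hb), s, hs.1, hls.trans hb⟩
  exact ENNReal.toReal_mono (length_ne_top h.conn x s Subset.rfl)
    (measure_mono (inter_subset_inter_right K (ball_subset_ball hs.1.le)))

/-- The band between the radii `r` and `2 r`. -/
structure Cross (u : ℂ → ℝ) (K : Set ℂ) (x : ℂ) (r l η : ℝ) (v : ℂ) (G : Set ℝ) : Prop where
  unit : ‖v‖ = 1
  meas : MeasurableSet G
  sub : G ⊆ Ioo r (2 * r)
  bad : (volume (Ioo r (2 * r) \ G)).toReal ≤ 4 * Real.sqrt η * r
  dir_close : ∀ y ∈ K, rad x y ∈ G → ‖v - dir x y‖ ≤ aperture l η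
  flux_close : ∀ᵐ s : ℝ, s ∈ G →
    stress u x s v ≤ -total u x s + 4 * defi u x s + aperture l η * total u x s
  length : (Measure.hausdorffMeasure 1 (K ∩ (ball x (2 * r) \ closedBall x r))).toReal ≤
    r + excess l η * r

lemma Flat.exists_cross (h : Flat u K x r l η) (hPolar : PolarGoal) (hRad : RadialGoal)
    (hDef : DeficitGoal) (hSpoke : SpokeGoal) :
    ∃ v G, Cross u K x r l η v G := by
  have hr := h.pos
  have hl := h.lpos
  have hq := Real.sqrt_pos.2 h.ηpos
  set A := K ∩ (closedBall x (2 * r) \ ball x r) with hA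
  obtain ⟨-, s₀, hs₀, hlen⟩ := h.len_le hPolar hRad hDef hSpoke (τ := 2 * r) (by linarith) le_rfl
  have hAs : A ⊆ K ∩ ball x s₀ := fun y hy =>
    ⟨hy.1, closedBall_subset_ball hs₀ hy.2.1⟩
  have hAfin := length_ne_top h.conn x s₀ hAs
  set HA := (Measure.hausdorffMeasure 1 A).toReal
  have hHA : HA ≤ r + excess l η * r := by
    have hd : Disjoint (K ∩ ball x r) A := disjoint_left.2 fun y hy hy' => hy'.2.2 hy.2
    have hAm : MeasurableSet A :=
      h.conn.reg.isClosed.measurableSet.inter (measurableSet_closedBall.diff measurableSet_ball)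
    have h1 : (Measure.hausdorffMeasure 1 (K ∩ ball x r ∪ A)).toReal ≤ Len K x s₀ :=
      ENNReal.toReal_mono (length_ne_top h.conn x s₀ Subset.rfl) (measure_mono
        (union_subset (inter_subset_inter_right K (ball_subset_ball (by linarith))) hAs))
    rw [measure_union hd hAm,
      ENNReal.toReal_add (length_ne_top h.conn x r Subset.rfl) hAfin] at h1
    have h2 := le_len h.conn h.mem hr.le
    simp only [Len] at h2
    simp only [excess, HA] at *
    nlinarith
  obtain ⟨S₀, hS₀, hS₀c, ⟨y₀, hy₀, hy₀r⟩, z₀, hz₀, hz₀r⟩ := exists_crossing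
    h.conn.reg.isClosed h.conn.connected h.mem h.conn.unbounded hr (show r < 2 * r by linarith)
  obtain ⟨hf, hNint, hN, hosc⟩ := hRad K x r (2 * r) h.conn.reg.isClosed h.conn.pieces
    h.conn.reg.length_ne_top hr.le (by linarith)
  have hcross : ∀ s ∈ Icc r (2 * r), ∃ z ∈ S₀, rad x z = s := fun s hs =>
    hS₀c.intermediate_value hy₀ hz₀ (continuous_rad x).continuousOn
      (show s ∈ Icc (rad x y₀) (rad x z₀) by rw [hy₀r, hz₀r]; exact hs)
  -- the crossing is nearly straight
  have hIN : r ≤ ∫ s in Ioo r (2 * r), ((K ∩ sphere x s).ncard : ℝ) := by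
    have h1 : ∫ _s in Ioo r (2 * r), (1 : ℝ) ≤
        ∫ s in Ioo r (2 * r), ((K ∩ sphere x s).ncard : ℝ) := by
      refine setIntegral_mono_on_ae (integrableOn_const (by simp)) hNint measurableSet_Ioo ?_
      filter_upwards [hf] with s hs hs'
      obtain ⟨z, hz, hzs⟩ := hcross s (Ioo_subset_Icc_self hs')
      have hne : (K ∩ sphere x s).Nonempty :=
        ⟨z, (hS₀ hz).1, by rw [mem_sphere, dist_eq_norm]; exact hzs⟩
      exact_mod_cast (ncard_pos (hs hs')).2 hne
    rw [setIntegral_const, Real.volume_real_Ioo_of_le (by linarith), smul_eq_mul, mul_one] at h1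
    linarith
  set v := dir x y₀
  have hy₀x : y₀ ≠ x := fun e => by
    rw [rad, e, sub_self, norm_zero] at hy₀r
    linarith
  set osc := 2 * Real.sqrt ((1 + excess l η) * excess l η) with hosc'
  have hex : 0 ≤ excess l η := by
    have h1 : 0 ≤ omega l η := by simp only [omega]; positivity
    simp only [excess]; positivity
  have hline : ∀ z ∈ S₀, ‖v - dir x z‖ ≤ osc := by
    intro z hz
    have h1 := hosc S₀ hS₀ hS₀c y₀ hy₀ z hz
    have h2 : Real.sqrt (HA * (HA - ∫ s in Ioo r (2 * r), ((K ∩ sphere x s).ncard : ℝ))) ≤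
        r * Real.sqrt ((1 + excess l η) * excess l η) := by
      rw [← Real.sqrt_sq hr.le, ← Real.sqrt_mul (sq_nonneg r)]
      refine Real.sqrt_le_sqrt ?_
      rw [Real.sqrt_sq hr.le]
      have h3 : HA - (∫ s in Ioo r (2 * r), ((K ∩ sphere x s).ncard : ℝ)) ≤ excess l η * r := by
        linarith
      calc HA * (HA - ∫ s in Ioo r (2 * r), ((K ∩ sphere x s).ncard : ℝ))
          ≤ (r + excess l η * r) * (excess l η * r) :=
            mul_le_mul hHA h3 (by linarith) (by positivity)
        _ = _ := by ring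
    have h4 : r * ‖v - dir x z‖ ≤ r * osc := by
      refine h1.trans ?_
      simp only [hosc']
      linarith
    exact le_of_mul_le_mul_left h4 hr
  -- the good circles
  have hae : ∀ᵐ s : ℝ, s ∈ Ioo r (2 * r) → 0 ≤ defi u x s ∧ GoodCircle u x s ∧
      ∀ z ∈ K ∩ sphere x s,
        total u x s - 4 * defi u x s ≤ stress u x s (-dir x z) ∧
        ∀ w ∈ K ∩ sphere x s, ∀ δ ∈ Icc (0 : ℝ) 1, δ * s ≤ ‖w - z‖ →
          En u x s / s ≤ (1 - δ / (2 * Real.pi)) * (tang u x s + nor u x s) := by
    filter_upwards [hDef u K x h.conn h.mem, h.ae_defi_nonneg hDef,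
      ae_goodCircle h.conn.reg x (2 * r)] with s a2 a4 a5 hs
    have hs0 : 0 < s := hr.trans hs.1
    exact ⟨a4 hs0, a5 ⟨hs0, hs.2⟩, fun z hz => ⟨((a2 hs0).2 z hz).1, ((a2 hs0).2 z hz).2.2⟩⟩
  obtain ⟨-, -, i3⟩ := h.integrable_parts hPolar (b := 2 * r) hr
  set D' := i3.aestronglyMeasurable.mk (defi u x)
  have hD' : defi u x =ᵐ[volume.restrict (Ioo r (2 * r))] D' := i3.aestronglyMeasurable.ae_eq_mk
  have hae' : ∀ᵐ s : ℝ, s ∈ Ioo r (2 * r) → defi u x s = D' s :=
    (ae_restrict_iff' measurableSet_Ioo).1 hD'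
  obtain ⟨N, hN', hNm, hN0⟩ := exists_measurable_superset_of_null (ae_iff.1 (hae.and hae'))
  set G : Set ℝ := (Ioo r (2 * r) ∩ {s | D' s ≤ Real.sqrt η}) \ N
  have hG : ∀ s ∈ G, (s ∈ Ioo r (2 * r)) ∧ defi u x s ≤ Real.sqrt η ∧
      0 ≤ defi u x s ∧ GoodCircle u x s ∧ ∀ z ∈ K ∩ sphere x s,
        total u x s - 4 * defi u x s ≤ stress u x s (-dir x z) ∧
        ∀ w ∈ K ∩ sphere x s, ∀ δ ∈ Icc (0 : ℝ) 1, δ * s ≤ ‖w - z‖ →
          En u x s / s ≤ (1 - δ / (2 * Real.pi)) * (tang u x s + nor u x s) := by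
    rintro s ⟨⟨hs, hsD⟩, hsN⟩
    have h1 : (s ∈ Ioo r (2 * r) → _) ∧ (s ∈ Ioo r (2 * r) → defi u x s = D' s) :=
      by_contra fun hh => hsN (hN' hh)
    exact ⟨hs, (h1.2 hs).trans_le hsD, h1.1 hs⟩
  have hap : ∀ s ∈ G, ∀ w ∈ K ∩ sphere x s, ‖v - dir x w‖ ≤ aperture l η := by
    intro s hs w hw
    obtain ⟨hsI, hd, hd0, -, hz⟩ := hG s hs
    obtain ⟨z, hzS, hzs⟩ := hcross s (Ioo_subset_Icc_self hsI)
    have hz' : z ∈ K ∩ sphere x s := ⟨(hS₀ hzS).1, by rw [mem_sphere, dist_eq_norm]; exact hzs⟩
    have h1 := h.arc ⟨hsI.1.le, by linarith [hsI.2]⟩ hd hd0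
      fun d hd' hdw => (hz z hz').2 w hw d hd' hdw
    have hs0 : 0 < s := hr.trans hsI.1
    have hwn : ‖w - x‖ = s := by simpa [mem_sphere, dist_eq_norm] using hw.2
    have hzn : ‖z - x‖ = s := hzs
    have h2 : ‖dir x z - dir x w‖ ≤ 16 * Real.sqrt η / l := by
      simp only [dir, hwn, hzn, ← smul_sub, norm_smul, Real.norm_eq_abs,
        abs_of_pos (inv_pos.2 hs0), sub_sub_sub_cancel_right]
      rw [inv_mul_le_iff₀ hs0, norm_sub_rev, mul_comm]
      exact h1
    have e : v - dir x w = (v - dir x z) + (dir x z - dir x w) := by abel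
    rw [e]
    refine (norm_add_le _ _).trans ((add_le_add (hline z hzS) h2).trans (le_of_eq ?_))
    simp only [aperture, hosc']; ring
  refine ⟨v, G, ⟨norm_dir hy₀x, ?_, fun s hs => (hG s hs).1, ?_,
    fun y hy hyG => hap _ hyG y ⟨hy, by rw [mem_sphere, dist_eq_norm]; rfl⟩, ?_, ?_⟩⟩
  · exact (measurableSet_Ioo.inter (measurableSet_le
      i3.aestronglyMeasurable.stronglyMeasurable_mk.measurable measurable_const)).diff hNm
  · -- few radii have a large deficit
    have hsub : Ioo r (2 * r) \ G ⊆ {s | Real.sqrt η ≤ D' s} ∩ Ioo r (2 * r) ∪ N := by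
      rintro s ⟨hs, hsG⟩
      by_cases hN1 : s ∈ N
      · exact Or.inr hN1
      · refine Or.inl ⟨?_, hs⟩
        by_contra hlt
        exact hsG ⟨⟨hs, (not_le.1 (show ¬ Real.sqrt η ≤ D' s from hlt)).le⟩, hN1⟩
    set X := {s | Real.sqrt η ≤ D' s} ∩ Ioo r (2 * r)
    have hXfin : volume X ≠ ⊤ := ne_top_of_le_ne_top (by simp) (measure_mono inter_subset_right)
    have hv : (volume (Ioo r (2 * r) \ G)).toReal ≤ (volume X).toReal :=
      ENNReal.toReal_mono hXfin ((measure_mono hsub).trans
        ((measure_union_le _ _).trans (by rw [hN0, add_zero])))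
    have hi' : IntegrableOn D' (Ioo r (2 * r)) := i3.congr hD'
    have hnn : 0 ≤ᵐ[volume.restrict (Ioo r (2 * r))] D' := by
      filter_upwards [hD', (ae_restrict_iff' measurableSet_Ioo).2 (hae.mono fun s hs hs' =>
        (hs hs').1)] with s e hs
      exact e ▸ hs
    have hm := mul_meas_ge_le_integral_of_nonneg hnn hi' (Real.sqrt η)
    rw [measureReal_def, Measure.restrict_apply' measurableSet_Ioo, ← integral_congr_ae hD'] at hm
    have hd := h.deficit hPolar (a := r) (b := 2 * r) (by linarith) (by linarith) (by linarith)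
    have h5 : Real.sqrt η * (volume X).toReal ≤ Real.sqrt η * (4 * Real.sqrt η * r) := by
      calc Real.sqrt η * (volume X).toReal ≤ 4 * η * r := hm.trans hd
        _ = Real.sqrt η * (4 * Real.sqrt η * r) := by
            rw [show Real.sqrt η * (4 * Real.sqrt η * r) =
              4 * (Real.sqrt η * Real.sqrt η) * r by ring, Real.mul_self_sqrt h.ηpos.le]
    exact hv.trans (le_of_mul_le_mul_left h5 hq)
  · refine Eventually.of_forall fun s hs => ?_
    obtain ⟨hsI, -, -, hgood, hz⟩ := hG s hs
    obtain ⟨z, hzS, hzs⟩ := hcross s (Ioo_subset_Icc_self hsI)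
    have hz' : z ∈ K ∩ sphere x s := ⟨(hS₀ hzS).1, by rw [mem_sphere, dist_eq_norm]; exact hzs⟩
    have h1 := (hz z hz').1
    rw [stress_neg] at h1
    have h2 := hgood.stress_sub v (dir x z)
    have h3 := (le_abs_self _).trans (hgood.abs_stress_le (v - dir x z))
    have hT : 0 ≤ total u x s := by
      have := hgood.abs_stress_le (dir x z)
      rw [norm_dir (fun e => by rw [rad, e, sub_self, norm_zero] at hzs; linarith [hsI.1]),
        one_mul] at this
      exact (abs_nonneg _).trans this
    have h4 := mul_le_mul_of_nonneg_right (hap s hs z hz') hT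
    simp only [total] at *
    linarith
  · refine le_trans (ENNReal.toReal_mono hAfin (measure_mono fun y hy => ⟨hy.1,
      ball_subset_closedBall hy.2.1, fun h' => hy.2.2 (ball_subset_closedBall h')⟩)) hHA

/-- The density is nearly one. -/
lemma Flat.dens_near_one (h : Flat u K x r l η) (hPolar : PolarGoal) (hRad : RadialGoal)
    (hDef : DeficitGoal) (hSpoke : SpokeGoal) {M₀ : ℝ}
    (hM : ∀ s, deriv Islands.Weak.step s ≤ M₀) : |dens u x r - 1| ≤ errUnit M₀ l η := by
  obtain ⟨v, G, hc⟩ := h.exists_cross hPolar hRad hDef hSpoke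
  have hr := h.pos
  set B := M₀ / r with hBd
  have hM0 : 0 ≤ M₀ := (deriv_step_nonneg' 0).trans (hM 0)
  have hB0 : 0 ≤ B := div_nonneg hM0 hr.le
  have hwB : ∀ s, weight r s ≤ B := fun s => (div_le_div_iff_of_pos_right hr).2 (hM _)
  set S := K ∩ (ball x (2 * r) \ closedBall x r) with hSd
  set m := (Measure.hausdorffMeasure 1 : Measure ℂ)
  have hfin : m S ≠ ⊤ := length_ne_top h.conn x (2 * r) fun y hy => ⟨hy.1, hy.2.1⟩
  have : IsFiniteMeasure (m.restrict S) := isFiniteMeasure_restrict.2 hfin
  have hcov : Ioo r (2 * r) ⊆ rad x '' S := fun s hs => by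
    obtain ⟨y, hy, hys⟩ := exists_on_circle h.conn h.mem (hr.trans hs.1).le
    refine ⟨y, ⟨hy, ?_, ?_⟩, hys⟩
    · rw [mem_ball, dist_eq_norm]
      exact (show rad x y < 2 * r from hys.symm ▸ hs.2)
    · rw [mem_closedBall, dist_eq_norm, not_le]
      exact (show r < rad x y from hys.symm ▸ hs.1)
  set HS := (m S).toReal
  set L := ∫ y in S, weight r (rad x y) ∂m
  have hHS : r ≤ HS := by
    have := ENNReal.toReal_mono hfin (volume_le_length hcov)
    rwa [Real.volume_Ioo, ENNReal.toReal_ofReal (by linarith),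
      show 2 * r - r = r by ring] at this
  have hHS' : HS ≤ r + excess l η * r := hc.length
  have habs : ∀ s, |weight r s| ≤ B := fun s => by
    rw [abs_of_nonneg (weight_nonneg hr s)]; exact hwB s
  have hL1 : 1 ≤ L := by
    have := setIntegral_rad_ge hfin hcov (continuous_weight r) habs (weight_nonneg hr)
    rwa [integral_weight hr] at this
  have hwi : Integrable (fun y => weight r (rad x y)) (m.restrict S) :=
    (integrable_const B).mono' ((continuous_weight r).comp (continuous_rad x)).aestronglyMeasurable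
      (Eventually.of_forall fun y => by rw [Real.norm_eq_abs]; exact habs _)
  have hL2 : L ≤ 1 + M₀ * excess l η := by
    have h1 := setIntegral_rad_ge (f := fun s => B - weight r s) hfin hcov
      (continuous_const.sub (continuous_weight r)) (B := B) (fun s => by
        rw [abs_of_nonneg (sub_nonneg.2 (hwB s))]; linarith [weight_nonneg hr s])
      (fun s => sub_nonneg.2 (hwB s))
    have hcB : IntegrableOn (fun _ : ℝ => B) (Ioo r (2 * r)) := integrableOn_const (by simp)
    have hwI : IntegrableOn (weight r) (Ioo r (2 * r)) :=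
      (continuous_weight r).integrableOn_Icc.mono_set Ioo_subset_Icc_self
    rw [integral_sub hcB hwI, integral_sub (integrable_const _) hwi, integral_weight hr,
      setIntegral_const, setIntegral_const, Real.volume_real_Ioo_of_le (by linarith),
      measureReal_def, smul_eq_mul, smul_eq_mul] at h1
    have h2 : (HS - r) * B ≤ excess l η * r * B := mul_le_mul_of_nonneg_right (by linarith) hB0
    have h3 : excess l η * r * B = M₀ * excess l η := by simp only [hBd]; field_simp
    linarith
  set ap := aperture l η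
  have hap0 : 0 ≤ ap := by
    have := h.lpos
    simp only [ap, aperture]; positivity
  have hint : ∫ y in S, ‖v - dir x y‖ ∂m ≤
      ap * HS + 2 * (excess l η * r + 4 * Real.sqrt η * r) := by
    set T := S ∩ rad x ⁻¹' Gᶜ
    have hSm : MeasurableSet S :=
      h.conn.reg.isClosed.measurableSet.inter (measurableSet_ball.diff measurableSet_closedBall)
    have hpre : MeasurableSet (rad x ⁻¹' G) := (continuous_rad x).measurable hc.meas
    have h1 : ∫ y in S, ‖v - dir x y‖ ∂m ≤
        ∫ y in S, (ap + (rad x ⁻¹' Gᶜ).indicator (fun _ => (2 : ℝ)) y) ∂m := by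
      refine integral_mono_of_nonneg (Eventually.of_forall fun y => norm_nonneg _)
        ((integrable_const _).add ((integrable_const _).indicator hpre.compl)) ?_
      filter_upwards [ae_restrict_mem hSm] with y hy
      by_cases hyG : rad x y ∈ G
      · rw [indicator_of_notMem (by simpa using hyG), add_zero]
        exact hc.dir_close y hy.1 hyG
      · rw [indicator_of_mem (show y ∈ rad x ⁻¹' Gᶜ from hyG)]
        refine (norm_sub_le _ _).trans ?_
        rw [hc.unit]
        linarith [norm_dir_le x y]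
    rw [integral_add (integrable_const _) ((integrable_const _).indicator hpre.compl),
      setIntegral_indicator (show MeasurableSet (rad x ⁻¹' Gᶜ) from hpre.compl), setIntegral_const, setIntegral_const, measureReal_def,
      measureReal_def, smul_eq_mul, smul_eq_mul] at h1
    have hT : (m T).toReal ≤ excess l η * r + 4 * Real.sqrt η * r := by
      have f1 : m (S ∩ rad x ⁻¹' G) ≠ ⊤ := ne_top_of_le_ne_top hfin (measure_mono inter_subset_left)
      have f2 : m T ≠ ⊤ := ne_top_of_le_ne_top hfin (measure_mono inter_subset_left)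
      have e : HS = (m (S ∩ rad x ⁻¹' G)).toReal + (m T).toReal := by
        rw [← ENNReal.toReal_add f1 f2,
          show T = S \ rad x ⁻¹' G by ext y; simp [T], measure_inter_add_sdiff S hpre]
      have h2 := ENNReal.toReal_mono f1 (volume_le_length_preimage hcov G)
      rw [inter_eq_self_of_subset_left hc.sub] at h2
      have h3 : (volume G).toReal + (volume (Ioo r (2 * r) \ G)).toReal = r := by
        have hfG : volume G ≠ ⊤ := ne_top_of_le_ne_top (by simp) (measure_mono hc.sub)
        have e2 := measure_inter_add_sdiff (μ := volume) (Ioo r (2 * r)) hc.meas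
        rw [inter_eq_self_of_subset_right hc.sub] at e2
        rw [← ENNReal.toReal_add hfG (ne_top_of_le_ne_top (by simp) (measure_mono sdiff_subset)),
          e2, Real.volume_Ioo, ENNReal.toReal_ofReal (by linarith)]
        ring
      linarith [hc.bad]
    linarith
  -- the flux
  obtain ⟨hfl, hfi⟩ := flux_eq h.conn.reg x hr v
  obtain ⟨i1, i2, i3⟩ := h.integrable_parts hPolar (b := 2 * r) hr
  set ind := (Ioo r (2 * r) \ G).indicator fun _ => (1 : ℝ)
  have hw : ∀ f : ℝ → ℝ, IntegrableOn f (Ioo r (2 * r)) →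
      IntegrableOn (fun s => weight r s * f s) (Ioo r (2 * r)) := fun f hf =>
    hf.bdd_mul (c := B) (continuous_weight r).aestronglyMeasurable
      (Eventually.of_forall fun s => by rw [Real.norm_eq_abs]; exact habs s)
  have hae : ∀ᵐ s : ℝ, s ∈ Ioo r (2 * r) →
      0 ≤ weight r s * stress u x s v + weight r s * total u x s ∧
      weight r s * stress u x s v + weight r s * total u x s ≤
        B * (4 * defi u x s + ap * total u x s + 2 * (8 * ind s + defi u x s)) := by
    filter_upwards [ae_goodCircle h.conn.reg x (2 * r), h.ae_defi_nonneg hDef, hc.flux_close]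
      with s hg hd hG hs
    have hs0 : 0 < s := hr.trans hs.1
    have hd0 := hd hs0
    have hg' := hg ⟨hs0, hs.2⟩
    have h1 := hg'.abs_stress_le v
    rw [hc.unit, one_mul] at h1
    obtain ⟨hlo, hhi⟩ := abs_le.1 h1
    have hT0 : 0 ≤ total u x s := (abs_nonneg _).trans h1
    have hpos : 0 ≤ stress u x s v + total u x s := by simp only [total]; linarith
    rw [← mul_add]
    refine ⟨mul_nonneg (weight_nonneg hr s) hpos, mul_le_mul (hwB s) ?_ hpos hB0⟩
    by_cases hsG : s ∈ G
    · have e0 : ind s = 0 := indicator_of_notMem (fun h' => h'.2 hsG) _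
      have := hG hsG
      rw [e0]
      linarith
    · have e1 : ind s = 1 := indicator_of_mem (show s ∈ Ioo r (2 * r) \ G from ⟨hs, hsG⟩) _
      have := h.dens_le hs0
      have := mul_nonneg hap0 hT0
      rw [e1]
      simp only [defi, total] at *
      linarith
  have hindm : MeasurableSet (Ioo r (2 * r) \ G) := measurableSet_Ioo.diff hc.meas
  have hindi : IntegrableOn ind (Ioo r (2 * r)) :=
    (integrableOn_const (by simp)).indicator hindm
  set X := ∫ s in Ioo r (2 * r), weight r s * total u x s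
  have hsum : 0 ≤ flux u x r v + X ∧ flux u x r v + X ≤
      M₀ * (16 * η + ap * (8 + 4 * η) + 2 * (32 * Real.sqrt η + 4 * η)) := by
    rw [hfl, ← integral_add hfi (hw _ i1)]
    have hbd := (((i3.const_mul 4).add (i1.const_mul ap)).add
      (((hindi.const_mul 8).add i3).const_mul 2)).const_mul B
    refine ⟨setIntegral_nonneg_of_ae_restrict ((ae_restrict_iff' measurableSet_Ioo).2
      (hae.mono fun s hs hs' => (hs hs').1)), ?_⟩
    refine (setIntegral_mono_on_ae (hfi.add (hw _ i1)) hbd measurableSet_Ioo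
      (hae.mono fun s hs hs' => (hs hs').2)).trans ?_
    simp only [Pi.add_apply]
    rw [integral_const_mul, integral_add, integral_add, integral_const_mul, integral_const_mul,
      integral_const_mul, integral_add, integral_const_mul]
    rotate_left
    · exact hindi.const_mul 8
    · exact i3
    · exact i3.const_mul 4
    · exact i1.const_mul ap
    · exact (i3.const_mul 4).add (i1.const_mul ap)
    · exact ((hindi.const_mul 8).add i3).const_mul 2
    have hD := h.deficit hPolar (a := r) (b := 2 * r) (by linarith) (by linarith) (by linarith)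
    have hE : ∫ s in Ioo r (2 * r), total u x s ≤ 8 * r + 4 * η * r := by
      have h1 : ∫ s in Ioo r (2 * r), dens u x s ≤ r * 7 := by
        have := setIntegral_mono_on i2 (integrableOn_const (C := (7 : ℝ)) (by simp))
          measurableSet_Ioo fun s hs => h.dens_le (hr.trans hs.1)
        rw [setIntegral_const, Real.volume_real_Ioo_of_le (by linarith), smul_eq_mul] at this
        linarith
      have h2 : ∫ s in Ioo r (2 * r), defi u x s = (∫ s in Ioo r (2 * r), total u x s) -
          ∫ s in Ioo r (2 * r), dens u x s := integral_sub i1 i2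
      linarith
    have hI : ∫ s in Ioo r (2 * r), ind s ≤ 4 * Real.sqrt η * r := by
      rw [setIntegral_indicator hindm, setIntegral_const, smul_eq_mul, mul_one,
        inter_eq_self_of_subset_right sdiff_subset]
      exact hc.bad
    calc _ ≤ B * (4 * (4 * η * r) + ap * (8 * r + 4 * η * r) +
          2 * (8 * (4 * Real.sqrt η * r) + 4 * η * r)) := by gcongr
      _ = _ := by simp only [hBd]; field_simp; ring
  have hX : |X - dens u x r| ≤ η + 4 * M₀ * η := by
    have e : ∀ s, weight r s * total u x s = weight r s * dens u x s + weight r s * defi u x s :=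
      fun s => by simp only [defi]; ring
    have hwI : IntegrableOn (weight r) (Ioo r (2 * r)) :=
      (continuous_weight r).integrableOn_Icc.mono_set Ioo_subset_Icc_self
    simp only [X, e]
    rw [integral_add (hw _ i2) (hw _ i3)]
    have h1 : |(∫ s in Ioo r (2 * r), weight r s * dens u x s) - dens u x r| ≤ η := by
      have e2 : (∫ s in Ioo r (2 * r), weight r s * dens u x s) - dens u x r =
          ∫ s in Ioo r (2 * r), weight r s * (dens u x s - dens u x r) := by
        simp only [mul_sub]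
        rw [integral_sub (hw _ i2) (hwI.mul_const _), integral_mul_const, integral_weight hr,
          one_mul]
      rw [e2]
      refine (abs_integral_le_integral_abs).trans ?_
      calc ∫ s in Ioo r (2 * r), |weight r s * (dens u x s - dens u x r)|
          ≤ ∫ s in Ioo r (2 * r), weight r s * η := by
            refine setIntegral_mono_on
              (hw (fun s => dens u x s - dens u x r) (i2.sub (integrableOn_const (by simp)))).abs
              (hwI.mul_const _) measurableSet_Ioo fun s hs => ?_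
            rw [abs_mul, abs_of_nonneg (weight_nonneg hr s)]
            exact mul_le_mul_of_nonneg_left
              (h.close ⟨by linarith [hs.1], by linarith [hs.2]⟩) (weight_nonneg hr s)
        _ = η := by rw [integral_mul_const, integral_weight hr, one_mul]
    have h2 : 0 ≤ ∫ s in Ioo r (2 * r), weight r s * defi u x s ∧
        ∫ s in Ioo r (2 * r), weight r s * defi u x s ≤ 4 * M₀ * η := by
      refine ⟨setIntegral_nonneg_of_ae_restrict ((ae_restrict_iff' measurableSet_Ioo).2
        ((h.ae_defi_nonneg hDef).mono fun s hs hs' =>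
          mul_nonneg (weight_nonneg hr s) (hs (hr.trans hs'.1)))), ?_⟩
      refine (setIntegral_mono_on_ae (hw _ i3) (i3.const_mul B) measurableSet_Ioo
        ((h.ae_defi_nonneg hDef).mono fun s hs hs' =>
          mul_le_mul_of_nonneg_right (hwB s) (hs (hr.trans hs'.1)))).trans ?_
      rw [integral_const_mul]
      refine (mul_le_mul_of_nonneg_left
        (h.deficit hPolar (by linarith) (by linarith) (by linarith)) hB0).trans (le_of_eq ?_)
      simp only [hBd]; field_simp
    rw [abs_le] at h1 ⊢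
    constructor <;> linarith [h2.1, h2.2]
  have hvar := fun σ (hσ : |σ| = 1) =>
    first_variation h.conn.reg h.conn.pieces hr hcov hwB hc.unit (σ := σ) hσ
  have hQ : B * (∫ y in S, ‖v - dir x y‖ ∂m) + 2 * B * (HS - r) ≤
      M₀ * ((1 + excess l η) * ap + 2 * (excess l η + 4 * Real.sqrt η) + 2 * excess l η) := by
    calc _ ≤ B * (ap * (r + excess l η * r) + 2 * (excess l η * r + 4 * Real.sqrt η * r)) +
          2 * B * (excess l η * r) := by
          gcongr
          · exact hint.trans (by gcongr)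
          · linarith
      _ = _ := by simp only [hBd]; field_simp
  have v1 := (hvar 1 abs_one).trans hQ
  have v2 := (hvar (-1) (by rw [abs_neg, abs_one])).trans hQ
  rw [abs_le] at hX ⊢
  simp only [errUnit]
  constructor <;> linarith [hsum.1, hsum.2]

end Unit

open Vale.Agent.P128.Bonnet.Unit in
/-- **Almost constant positive density is almost one.** -/
theorem unitGoal (hPolar : PolarGoal) (hRad : RadialGoal) (hDef : DeficitGoal)
    (hMono : MonotoneGoal) (hSpoke : SpokeGoal) : UnitGoal := by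
  intro ε hε l hl
  obtain ⟨M₀, -, hM⟩ := exists_step_bound
  have t1 : Tendsto (fun η => errUnit M₀ l η) (𝓝[>] 0) (𝓝 0) := by
    have : Continuous fun η => errUnit M₀ l η := by
      simp only [errUnit, aperture, excess, omega]; fun_prop
    simpa [errUnit, aperture, excess, omega] using (this.tendsto 0).mono_left nhdsWithin_le_nhds
  have t2 : Tendsto (fun η => (1 + omega l η) * (1 + 5 * Real.sqrt η)) (𝓝[>] 0) (𝓝 1) := by
    have : Continuous fun η => (1 + omega l η) * (1 + 5 * Real.sqrt η) := by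
      simp only [omega]; fun_prop
    simpa [omega] using (this.tendsto 0).mono_left nhdsWithin_le_nhds
  have t3 : Tendsto (fun η => Real.sqrt η) (𝓝[>] 0) (𝓝 0) := by
    simpa using (Real.continuous_sqrt.tendsto 0).mono_left nhdsWithin_le_nhds
  have t4 : Tendsto (fun η : ℝ => η) (𝓝[>] 0) (𝓝 0) := nhdsWithin_le_nhds
  obtain ⟨η, ⟨⟨hη, h1⟩, h2⟩, ⟨h3, h4⟩, h5⟩ :=
    (((eventually_mem_nhdsWithin).and (t1.eventually (ge_mem_nhds hε))).and
      (t2.eventually (ge_mem_nhds (show (1 : ℝ) < 1 + ε by linarith))) |>.and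
      (((t3.eventually (ge_mem_nhds (show (0 : ℝ) < 1 / 10 by norm_num))).and
        ((t3.const_mul 16).div_const l |>.eventually
          (ge_mem_nhds (show (16 : ℝ) * 0 / l < 1 / 4 by simp)))).and
        (t4.eventually (ge_mem_nhds (show (0 : ℝ) < l / 2 by positivity))))).exists
  refine ⟨η, hη, 4, by norm_num, fun u K x r hc hx hr hlow hflat => ?_⟩
  have h : Flat u K x r l η :=
    ⟨hc, hx, hr, hl, hlow, hη, h5, h3, h4, hflat, hMono u K x hc hx⟩
  refine ⟨(h.dens_near_one hPolar hRad hDef hSpoke hM).trans h1, ?_⟩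
  refine (h.len_le hPolar hRad hDef hSpoke le_rfl (by linarith)).1.trans ?_
  calc (1 + omega l η) * (r + 5 * Real.sqrt η * r)
      = (1 + omega l η) * (1 + 5 * Real.sqrt η) * r := by ring
    _ ≤ (1 + ε) * r := mul_le_mul_of_nonneg_right h2 hr.le

end Vale.Agent.P128.Bonnet
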