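import Vale.Agent.P128.Bonnet.Competitor.Delete
import Vale.Agent.P128.Bonnet.Competitor.Spoke
import Vale.Agent.P128.Bonnet.Competitor.Tree
import Vale.Agent.P128.Bonnet.Deficit
import Vale.Agent.P128.Bonnet.Exact
import Vale.Agent.P128.Bonnet.Growth
import Vale.Agent.P128.Bonnet.Main
import Vale.Agent.P128.Bonnet.NoEnergy
import Vale.Agent.P128.Bonnet.Slice
import Vale.Agent.P128.Bonnet.Star
import Vale.Agent.P128.Bonnet.Tip
import Vale.Agent.P128.Bonnet.Unicoherent
import Vale.Agent.P128.Bonnet.Unit

/-!
# Classification of the global minimisers: all modules together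
-/

namespace Vale.Agent.P128.Bonnet

theorem classificationGoal : ClassificationGoal :=
  have hG : GrowthGoal := growthGoal polarGoal radialGoal deleteGoal treeGoal
  classification_of radialGoal (monotoneGoal polarGoal (deficitGoal polarGoal radialGoal))
    (unitGoal polarGoal radialGoal (deficitGoal polarGoal radialGoal)
      (monotoneGoal polarGoal (deficitGoal polarGoal radialGoal)) spokeGoal)
    (exactGoal polarGoal radialGoal (deficitGoal polarGoal radialGoal))
    (noEnergyGoal radialGoal hG deleteGoal treeGoal)
    (tipGoal radialGoal hG (starGoal polarGoal radialGoal deleteGoal treeGoal) deleteGoal unicoherentGoal)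

end Vale.Agent.P128.Bonnet
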