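import Vale.Agent.P128.Bonnet.Interface
import Vale.Agent.P128.Connected.Potential.Exists
import Vale.Agent.P128.Connected.SecondVar
import Vale.Agent.P128.Classify.Polar

/-!
# Good radii

The circle facts used by the growth and star modules: counts of points on circles bound the growth
of the length from below, and a circle with small energy meets the singular set at least twice,
with the bounds of the tree competitors.
-/

namespace Vale.Agent.P128.Bonnet

open MeasureTheory Filter Metric Set Islands Connected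
open scoped Topology ENNReal NNReal Real

/-- One dimensional Hausdorff measure on the plane. -/
private noncomputable abbrev len : Measure ℂ := Measure.hausdorffMeasure 1

/-- The energy on a circle. -/
noncomputable def circEn (u : ℂ → ℝ) (x : ℂ) (r : ℝ) : ℝ := tang u x r + nor u x r

/-- The number of points on a circle. -/
noncomputable def cnt (K : Set ℂ) (x : ℂ) (r : ℝ) : ℝ := ((K ∩ sphere x r).ncard : ℝ)

lemma cnt_nonneg (K : Set ℂ) (x : ℂ) (r : ℝ) : 0 ≤ cnt K x r := Nat.cast_nonneg _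

lemma circ_sq_nonneg (f : ℂ → ℝ) (x : ℂ) {r : ℝ} (hr : 0 ≤ r) :
    0 ≤ circ (fun y => f y ^ 2) x r :=
  mul_nonneg hr (setIntegral_nonneg measurableSet_Ioc fun _ _ => sq_nonneg _)

lemma tang_nonneg (u : ℂ → ℝ) (x : ℂ) {r : ℝ} (hr : 0 ≤ r) : 0 ≤ tang u x r :=
  circ_sq_nonneg _ x hr

lemma nor_nonneg (u : ℂ → ℝ) (x : ℂ) {r : ℝ} (hr : 0 ≤ r) : 0 ≤ nor u x r :=
  circ_sq_nonneg _ x hr

lemma circEn_nonneg (u : ℂ → ℝ) (x : ℂ) {r : ℝ} (hr : 0 ≤ r) : 0 ≤ circEn u x r :=
  add_nonneg (tang_nonneg u x hr) (nor_nonneg u x hr)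

lemma En_nonneg (u : ℂ → ℝ) (x : ℂ) (r : ℝ) : 0 ≤ En u x r :=
  setIntegral_nonneg measurableSet_ball fun _ _ => sq_nonneg _

lemma Len_nonneg (K : Set ℂ) (x : ℂ) (r : ℝ) : 0 ≤ Len K x r := ENNReal.toReal_nonneg

lemma Len_zero (K : Set ℂ) (x : ℂ) : Len K x 0 = 0 := by simp [Len]

lemma norm_dir {x y : ℂ} (h : y ≠ x) : ‖dir x y‖ = 1 :=
  norm_smul_inv_norm (sub_ne_zero.2 h)

lemma sub_eq_smul_dir (x y : ℂ) : y - x = ‖y - x‖ • dir x y := by
  rcases eq_or_ne y x with rfl | h
  · simp
  · rw [dir, smul_smul, mul_inv_cancel₀ (norm_ne_zero_iff.2 (sub_ne_zero.2 h)), one_smul]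

lemma dist_eq_of_mem_sphere {x z : ℂ} {r : ℝ} (h : z ∈ sphere x r) : ‖z - x‖ = r := by
  rwa [← dist_eq_norm]

section

variable {u : ℂ → ℝ} {K : Set ℂ} {x : ℂ}

lemma len_ball_ne_top (hR : Reg u K) (x : ℂ) (r : ℝ) : len (K ∩ ball x r) ≠ ⊤ :=
  ne_top_of_le_ne_top (hR.length_ne_top (‖x‖ + r))
    (measure_mono (inter_subset_inter_right _ (ball_subset_ball' (by simp [add_comm]))))

lemma Len_mono (hR : Reg u K) (x : ℂ) {a b : ℝ} (h : a ≤ b) : Len K x a ≤ Len K x b :=
  ENNReal.toReal_mono (len_ball_ne_top hR x b)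
    (measure_mono (inter_subset_inter_right _ (ball_subset_ball h)))

lemma Len_le_two_pi (hd : HasDensityBound u K) (x : ℂ) {r : ℝ} (hr : 0 ≤ r) :
    Len K x r ≤ 2 * π * r := by
  have := ENNReal.toReal_mono ENNReal.ofReal_ne_top (hd x r hr).1
  rwa [ENNReal.toReal_ofReal (by positivity)] at this

/-- Connected and unbounded sets meet every circle around their points. -/
lemma exists_mem_sphere (h : Conn u K) (hx : x ∈ K) {r : ℝ} (hr : 0 ≤ r) :
    (K ∩ sphere x r).Nonempty := by
  obtain ⟨y, hy, hyr⟩ : ∃ y ∈ K, r ≤ dist y x := by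
    by_contra hn
    push Not at hn
    exact h.unbounded (isBounded_ball.subset fun y hy => mem_ball.2 (hn y hy))
  obtain ⟨z, hz, hzr⟩ :=
    h.connected.intermediate_value hx hy (f := fun y => dist y x) (by fun_prop)
      ⟨by simpa using hr, hyr⟩
  exact ⟨z, hz, mem_sphere.2 hzr⟩

lemma one_le_cnt (h : Conn u K) (hx : x ∈ K) {r : ℝ} (hr : 0 ≤ r)
    (hf : (K ∩ sphere x r).Finite) : 1 ≤ cnt K x r := by
  have := (Set.ncard_pos hf).2 (exists_mem_sphere h hx hr)
  rw [cnt]
  exact_mod_cast (show 1 ≤ (K ∩ sphere x r).ncard from this)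

/-- The length in a closed annulus is at most the growth of the length. -/
lemma annulus_le (hR : Reg u K) (x : ℂ) {a b c : ℝ} (hab : a ≤ b) (hbc : b < c) :
    (len (K ∩ (closedBall x b \ ball x a))).toReal ≤ Len K x c - Len K x a := by
  have hm : MeasurableSet (K ∩ (closedBall x b \ ball x a)) :=
    hR.isClosed.measurableSet.inter (measurableSet_closedBall.diff measurableSet_ball)
  have hsub : K ∩ (closedBall x b \ ball x a) ⊆ K ∩ ball x c := fun y hy =>
    ⟨hy.1, closedBall_subset_ball hbc hy.2.1⟩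
  have hd : Disjoint (K ∩ ball x a) (K ∩ (closedBall x b \ ball x a)) :=
    Set.disjoint_left.2 fun y h1 h2 => h2.2.2 h1.2
  have h := measure_mono (μ := len)
    (union_subset (inter_subset_inter_right K (ball_subset_ball (hab.trans hbc.le))) hsub)
  rw [measure_union hd hm] at h
  have h' := ENNReal.toReal_mono (len_ball_ne_top hR x c) h
  rw [ENNReal.toReal_add (len_ball_ne_top hR x a)
    (ne_top_of_le_ne_top (len_ball_ne_top hR x c) (measure_mono hsub))] at h'
  rw [Len, Len]
  linarith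

/-- Counting: the points on circles bound the growth of the length. -/
lemma count_le (hRad : RadialGoal) (h : Conn u K) (x : ℂ) {a b : ℝ} (ha : 0 ≤ a) (hab : a < b) :
    (∀ᵐ r : ℝ, r ∈ Ioo a b → (K ∩ sphere x r).Finite) ∧ IntegrableOn (cnt K x) (Ioo a b) ∧
      ∫ r in Ioo a b, cnt K x r ≤ Len K x b - Len K x a := by
  obtain ⟨hf, hi, -, -⟩ :=
    hRad K x a b h.reg.isClosed h.pieces h.reg.length_ne_top ha hab
  refine ⟨hf, hi, ?_⟩
  set bs : ℕ → ℝ := fun n => b - (b - a) / (n + 2) with hbs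
  have hstep : ∀ n, a < bs n ∧ bs n < b := fun n => by
    have hn : (0 : ℝ) < n + 2 := by positivity
    have h1 : 0 < (b - a) / (n + 2) := div_pos (by linarith) hn
    have h2 : (b - a) / (n + 2) < b - a := by
      rw [div_lt_iff₀ hn]
      have : (0 : ℝ) ≤ n := Nat.cast_nonneg n
      nlinarith
    exact ⟨by simp only [hbs]; linarith, by simp only [hbs]; linarith⟩
  have hmono : Monotone fun n => Ioo a (bs n) := fun m n hmn => Ioo_subset_Ioo_right (by
    simp only [hbs]
    gcongr)
  have hU : ⋃ n, Ioo a (bs n) = Ioo a b := by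
    refine subset_antisymm (iUnion_subset fun n => Ioo_subset_Ioo_right (hstep n).2.le)
      fun r hr => ?_
    obtain ⟨n, hn⟩ := exists_nat_gt ((b - a) / (b - r))
    refine mem_iUnion.2 ⟨n, hr.1, ?_⟩
    have hpos : 0 < b - r := by linarith [hr.2]
    rw [div_lt_iff₀ hpos] at hn
    have : (b - a) / ((n : ℝ) + 2) < b - r := by
      rw [div_lt_iff₀ (by positivity)]
      nlinarith
    simp only [hbs]
    linarith
  have ht := tendsto_setIntegral_of_monotone (fun n => measurableSet_Ioo) hmono (hU.symm ▸ hi)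
  rw [hU] at ht
  refine le_of_tendsto' ht fun n => ?_
  obtain ⟨-, -, hle, -⟩ := hRad K x a (bs n) h.reg.isClosed h.pieces h.reg.length_ne_top ha
    (hstep n).1
  exact hle.trans (annulus_le h.reg x (hstep n).1.le (hstep n).2)

/-- If all circles with small energy have at least `c` points, so many must be counted. -/
lemma count_lower (hPol : PolarGoal) (hRad : RadialGoal) (h : Conn u K) (x : ℂ) {a b c θ : ℝ}
    (ha : 0 ≤ a) (hab : a < b) (hc : 0 ≤ c) (hθ : 0 < θ) (hE : En u x b ≤ θ ^ 2 * b)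
    (hN : ∀ᵐ r : ℝ, r ∈ Ioo a b → circEn u x r ≤ θ → c ≤ cnt K x r) :
    c * (b - a - θ * b) ≤ ∫ r in Ioo a b, cnt K x r := by
  obtain ⟨-, hi, -⟩ := count_le hRad h x ha hab
  obtain ⟨hT, hEn⟩ := hPol u K x h.reg
  have hb : 0 ≤ b := ha.trans hab.le
  have hTi : IntegrableOn (circEn u x) (Ioc 0 b) := hT b hb
  have hsub : Ioo a b ⊆ Ioc 0 b := fun r hr => ⟨ha.trans_lt hr.1, hr.2.le⟩
  have hTi' : IntegrableOn (circEn u x) (Ioo a b) := hTi.mono_set hsub
  have hTle : ∫ r in Ioo a b, circEn u x r ≤ θ ^ 2 * b := by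
    refine le_trans (setIntegral_mono_set hTi ?_ (Eventually.of_forall hsub)) ?_
    · exact (ae_restrict_iff' measurableSet_Ioc).2
        (Eventually.of_forall fun r hr => circEn_nonneg u x hr.1.le)
    · exact (hEn b hb).symm.le.trans hE
  have hcmp : ∫ r in Ioo a b, (c - c / θ * circEn u x r) ≤ ∫ r in Ioo a b, cnt K x r := by
    refine setIntegral_mono_ae_restrict ((integrableOn_const (by simp)).sub (hTi'.const_mul _)) hi
      ((ae_restrict_iff' measurableSet_Ioo).2 (hN.mono fun r hr hrm => ?_))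
    rcases le_or_gt (circEn u x r) θ with h1 | h1
    · have : 0 ≤ c / θ * circEn u x r :=
        mul_nonneg (div_nonneg hc hθ.le) (circEn_nonneg u x (ha.trans hrm.1.le))
      linarith [hr hrm h1]
    · have : c ≤ c / θ * circEn u x r := by
        rw [div_mul_eq_mul_div, le_div_iff₀ hθ]
        exact mul_le_mul_of_nonneg_left h1.le hc
      linarith [cnt_nonneg K x r]
  refine le_trans ?_ hcmp
  have hci : IntegrableOn (fun _ : ℝ => c) (Ioo a b) := integrableOn_const (by simp)
  rw [integral_sub hci (hTi'.const_mul _), integral_const_mul,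
    setIntegral_const, Measure.real, Real.volume_Ioo, ENNReal.toReal_ofReal (by linarith),
    smul_eq_mul]
  have : c / θ * (∫ r in Ioo a b, circEn u x r) ≤ c / θ * (θ ^ 2 * b) :=
    mul_le_mul_of_nonneg_left hTle (div_nonneg hc hθ.le)
  have e : c / θ * (θ ^ 2 * b) = c * (θ * b) := by field_simp
  linarith

/-- The length in a disk is at least its radius. -/
lemma le_Len (hRad : RadialGoal) (h : Conn u K) (hx : x ∈ K) {r : ℝ} (hr : 0 < r) :
    r ≤ Len K x r := by
  obtain ⟨hf, hi, hle⟩ := count_le hRad h x le_rfl hr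
  rw [Len_zero, sub_zero] at hle
  refine le_trans ?_ hle
  have h1 : ∫ _ in Ioo 0 r, (1 : ℝ) ≤ ∫ s in Ioo 0 r, cnt K x s :=
    setIntegral_mono_ae_restrict (integrableOn_const (by simp)) hi
      ((ae_restrict_iff' measurableSet_Ioo).2
        (hf.mono fun s hs hsm => one_le_cnt h hx hsm.1.le (hs hsm)))
  rw [setIntegral_const, Measure.real, Real.volume_Ioo, ENNReal.toReal_ofReal (by linarith)] at h1
  simpa using h1

lemma ae_finite_sphere (hRad : RadialGoal) (h : Conn u K) (x : ℂ) :
    ∀ᵐ r : ℝ, 0 < r → (K ∩ sphere x r).Finite := by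
  have : ∀ n : ℕ, ∀ᵐ r : ℝ, r ∈ Ioo (0 : ℝ) (n + 1) → (K ∩ sphere x r).Finite := fun n =>
    (count_le hRad h x le_rfl (by positivity)).1
  filter_upwards [ae_all_iff.2 this] with r hr h0
  obtain ⟨n, hn⟩ := exists_nat_gt r
  exact hr n ⟨h0, by linarith⟩

/-- The gradient is square integrable on almost every circle. -/
lemma ae_integrable_circle (hR : Reg u K) (x : ℂ) :
    ∀ᵐ r : ℝ, 0 < r →
      IntervalIntegrable (fun θ => ‖grad u (circleMap x r θ)‖ ^ 2) volume (-π) π := by
  have h : ∀ n : ℕ, ∀ᵐ r : ℝ, r ∈ Ioo (0 : ℝ) n →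
      IntervalIntegrable (fun θ => ‖grad u (circleMap x r θ)‖ ^ 2) volume (-π) π := by
    intro n
    set f : ℂ → ℝ := (ball 0 (‖x‖ + n)).indicator fun y => ‖grad u y‖ ^ 2 with hf
    have hfi : Integrable f :=
      (integrable_indicator_iff measurableSet_ball).2 (hR.memLp _).norm.integrable_sq
    have := (ae_restrict_iff' measurableSet_Ioi).1 (Classify.ae_integrableOn_circle hfi x)
    filter_upwards [this] with r hr hrm
    refine (hr hrm.1).congr ?_
    intro θ _
    have hmem : circleMap x r θ ∈ ball (0 : ℂ) (‖x‖ + n) := by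
      refine mem_ball_zero_iff.2 ((norm_le_norm_add_norm_sub' _ x).trans_lt ?_)
      rw [norm_sub_rev, ← dist_eq_norm, dist_eq_norm, norm_sub_rev]
      have := circleMap_mem_sphere x hrm.1.le θ
      rw [mem_sphere, dist_eq_norm] at this
      rw [this]
      linarith [hrm.2]
    simp only [hf, indicator_of_mem hmem]
  filter_upwards [ae_all_iff.2 h] with r hr h0
  obtain ⟨n, hn⟩ := exists_nat_gt r
  exact hr n ⟨h0, hn⟩

/-- The oscillation along a circle meeting the singular set once. -/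
lemma osc_le (hR : Reg u K) {r : ℝ} (hr : 0 < r)
    (hint : IntervalIntegrable (fun θ => ‖grad u (circleMap x r θ)‖ ^ 2) volume (-π) π)
    {z : ℂ} (hz : K ∩ sphere x r = {z}) {q : ℝ} (hq : 0 < q) (ht : tang u x r ≤ q ^ 4) :
    ∀ a ∈ sphere x r \ K, ∀ b ∈ sphere x r \ K,
      |u a - u b| ≤ 4 * q ^ 2 * Real.sqrt r ∧ b ∈ connectedComponentIn Kᶜ a := by
  intro a ha b hb
  have hrabs : |r| = r := abs_of_pos hr
  have hzs : z ∈ sphere x r := (hz.symm ▸ mem_singleton z : z ∈ K ∩ sphere x r).2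
  obtain ⟨θ₀, rfl⟩ : ∃ θ, circleMap x r θ = z := by
    have : z ∈ range (circleMap x r) := by rwa [range_circleMap, hrabs]
    exact this
  have hpar : ∀ w ∈ sphere x r \ K, ∃ θ ∈ Ioo θ₀ (θ₀ + 2 * π), circleMap x r θ = w := by
    intro w hw
    obtain ⟨θ, rfl⟩ : ∃ θ, circleMap x r θ = w := by
      have : w ∈ range (circleMap x r) := by rw [range_circleMap, hrabs]; exact hw.1
      exact this
    have hm := toIcoMod_mem_Ico Real.two_pi_pos θ₀ θ
    have e : circleMap x r (toIcoMod Real.two_pi_pos θ₀ θ) = circleMap x r θ := by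
      rw [toIcoMod]
      exact (periodic_circleMap x r).sub_zsmul_eq _
    refine ⟨_, ⟨lt_of_le_of_ne hm.1 fun h => ?_, hm.2⟩, e⟩
    rw [← h] at e
    exact hw.2 (e ▸ (hz.symm ▸ mem_singleton _ :
      circleMap x r θ₀ ∈ K ∩ sphere x r).1)
  have hoff : ∀ θ ∈ Ioo θ₀ (θ₀ + 2 * π), circleMap x r θ ∉ K := by
    intro θ hθ hK
    have : circleMap x r θ ∈ ({circleMap x r θ₀} : Set ℂ) :=
      hz ▸ ⟨hK, circleMap_mem_sphere x hr.le θ⟩
    exact absurd (eq_of_circleMap_eq hr.ne' (abs_lt.2 ⟨by linarith [hθ.1, Real.two_pi_pos],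
      by linarith [hθ.2]⟩) (mem_singleton_iff.1 this)) hθ.1.ne'
  obtain ⟨s, hs, rfl⟩ := hpar a ha
  obtain ⟨t, ht', rfl⟩ := hpar b hb
  have hsub : uIcc s t ⊆ Ioo θ₀ (θ₀ + 2 * π) := ordConnected_Ioo.uIcc_subset hs ht'
  refine ⟨?_, ?_⟩
  swap
  · refine (isPreconnected_Ioo.image _
      (continuous_circleMap x r).continuousOn).subset_connectedComponentIn
      (mem_image_of_mem _ hs) ?_ (mem_image_of_mem _ ht')
    rintro _ ⟨θ, hθ, rfl⟩
    exact hoff θ hθ
  set D : ℝ → ℝ := fun θ =>
    dot (grad u (circleMap x r θ)) (Complex.I * dir x (circleMap x r θ)) with hD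
  have hderiv : ∀ θ ∈ uIcc s t,
      HasDerivAt (fun θ => u (circleMap x r θ)) (r * D θ) θ := by
    intro θ hθ
    have hmem := hoff θ (hsub hθ)
    have hd := ((hR.smooth _ hmem).contDiffAt
      (hR.isClosed.isOpen_compl.mem_nhds hmem)).differentiableAt (by simp)
    have := hd.hasFDerivAt.comp_hasDerivAt θ (hasDerivAt_circleMap x r θ)
    rw [fderiv_eq_dot_grad] at this
    refine this.congr_deriv ?_
    have e : circleMap 0 r θ * Complex.I = (r : ℝ) • (Complex.I * dir x (circleMap x r θ)) := by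
      have e0 : circleMap 0 r θ = circleMap x r θ - x := by simp [circleMap]
      rw [e0, mul_comm _ Complex.I, ← mul_smul_comm]
      conv_lhs => rw [sub_eq_smul_dir x (circleMap x r θ),
        dist_eq_of_mem_sphere (circleMap_mem_sphere x hr.le θ)]
    rw [e]
    simp only [hD, dot, Complex.smul_re, Complex.smul_im, smul_eq_mul]
    ring
  have hDsq : ∀ θ, D θ ^ 2 ≤ ‖grad u (circleMap x r θ)‖ ^ 2 := by
    intro θ
    rw [← sq_abs (D θ)]
    refine pow_le_pow_left₀ (abs_nonneg _) ((abs_dot_le _ _).trans ?_) 2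
    rw [norm_mul, Complex.norm_I, one_mul,
      norm_dir (circleMap_ne_center hr.ne'), mul_one]
  have hmeas : Measurable D := by
    have hg : Measurable fun θ => grad u (circleMap x r θ) :=
      (Potential.measurable_grad u).comp (continuous_circleMap x r).measurable
    have hdd : Measurable fun θ => Complex.I * dir x (circleMap x r θ) := by
      refine measurable_const.mul ?_
      exact (((continuous_circleMap x r).measurable.sub_const x).norm.inv).smul
        ((continuous_circleMap x r).measurable.sub_const x)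
    exact ((Complex.measurable_re.comp hg).mul (Complex.measurable_re.comp hdd)).add
      ((Complex.measurable_im.comp hg).mul (Complex.measurable_im.comp hdd))
  have hper : Function.Periodic (fun θ => ‖grad u (circleMap x r θ)‖ ^ 2) (2 * π) :=
    fun θ => by simp only [periodic_circleMap x r θ]
  have hint0 : ∀ c d, IntervalIntegrable (fun θ => ‖grad u (circleMap x r θ)‖ ^ 2) volume c d :=
    fun c d => hper.intervalIntegrable Real.two_pi_pos.ne' (t := -π)
      (by rwa [show -π + 2 * π = π by ring]) c d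
  have hsqi : ∀ c d, IntervalIntegrable (fun θ => D θ ^ 2) volume c d := fun c d =>
    (hint0 c d).mono_fun (hmeas.pow_const 2).aestronglyMeasurable
      (Eventually.of_forall fun θ => by
        simp only [Real.norm_eq_abs, abs_pow, sq_abs, abs_norm]
        exact hDsq θ)
  set l : ℝ := Real.sqrt r / q ^ 2 with hl
  have hl0 : 0 < l := div_pos (Real.sqrt_pos.2 hr) (by positivity)
  have habs : ∀ θ, |D θ| ≤ l / 2 * D θ ^ 2 + 1 / (2 * l) := fun θ => by
    have e : l / 2 * D θ ^ 2 + 1 / (2 * l) - |D θ| = (l * |D θ| - 1) ^ 2 / (2 * l) := by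
      rw [← sq_abs (D θ)]
      field_simp
      ring
    linarith [show 0 ≤ (l * |D θ| - 1) ^ 2 / (2 * l) by positivity]
  have hbnd : ∀ c d, IntervalIntegrable (fun θ => l / 2 * D θ ^ 2 + 1 / (2 * l)) volume c d :=
    fun c d => ((hsqi c d).const_mul _).add intervalIntegrable_const
  have hDi : ∀ c d, IntervalIntegrable (fun θ => r * D θ) volume c d := fun c d =>
    ((hbnd c d).mono_fun hmeas.aestronglyMeasurable
      (Eventually.of_forall fun θ => by
        simp only [Real.norm_eq_abs]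
        exact (habs θ).trans (le_abs_self _))).const_mul r
  have hftc := intervalIntegral.integral_eq_sub_of_hasDerivAt hderiv (hDi s t)
  have htang : tang u x r = r * ∫ θ in θ₀..θ₀ + 2 * π, D θ ^ 2 := by
    rw [tang, circ]
    congr 1
    have hperD : Function.Periodic (fun θ => D θ ^ 2) (2 * π) := fun θ => by
      simp only [hD, periodic_circleMap x r θ]
    rw [hperD.intervalIntegral_add_eq θ₀ (-π), show -π + 2 * π = π by ring,
      intervalIntegral.integral_of_le (by linarith [Real.pi_pos])]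
  have hI : 0 ≤ ∫ θ in θ₀..θ₀ + 2 * π, D θ ^ 2 :=
    intervalIntegral.integral_nonneg (by linarith [Real.pi_pos]) fun _ _ => sq_nonneg _
  have hmain : |∫ θ in s..t, r * D θ| ≤
      r * ∫ θ in θ₀..θ₀ + 2 * π, (l / 2 * D θ ^ 2 + 1 / (2 * l)) := by
    rw [intervalIntegral.integral_const_mul, abs_mul, hrabs]
    refine mul_le_mul_of_nonneg_left ?_ hr.le
    rw [intervalIntegral.abs_intervalIntegral_eq,
      intervalIntegral.integral_of_le (show θ₀ ≤ θ₀ + 2 * π by linarith [Real.pi_pos])]
    refine (abs_integral_le_integral_abs).trans ?_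
    refine le_trans (setIntegral_mono_on ?_ ((hbnd s t).def'.mono_set Subset.rfl)
      measurableSet_uIoc fun θ _ => habs θ) (setIntegral_mono_set (hbnd θ₀ (θ₀ + 2 * π)).1
        (Eventually.of_forall fun θ => by positivity) (Eventually.of_forall fun θ hθ => ?_))
    · exact ((hbnd s t).def'.mono' hmeas.abs.aestronglyMeasurable
        (Eventually.of_forall fun θ => by
          simp only [Real.norm_eq_abs, abs_abs]; exact habs θ))
    · have := hsub (uIoc_subset_uIcc hθ)
      exact ⟨this.1, this.2.le⟩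
  have hfin : |u (circleMap x r t) - u (circleMap x r s)| ≤
      l / 2 * tang u x r + r * (π / l) := by
    rw [← hftc]
    refine hmain.trans (le_of_eq ?_)
    rw [intervalIntegral.integral_add ((hsqi _ _).const_mul _) intervalIntegrable_const,
      intervalIntegral.integral_const_mul, intervalIntegral.integral_const, htang, smul_eq_mul]
    field_simp
    ring
  rw [abs_sub_comm]
  refine hfin.trans ?_
  have e1 : l / 2 * tang u x r ≤ Real.sqrt r * q ^ 2 / 2 := by
    calc l / 2 * tang u x r ≤ l / 2 * q ^ 4 := mul_le_mul_of_nonneg_left ht (by positivity)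
      _ = _ := by rw [hl]; field_simp
  have e2 : r * (π / l) = π * q ^ 2 * Real.sqrt r := by
    rw [hl]
    field_simp
    rw [Real.sq_sqrt hr.le]
  have : π * (q ^ 2 * Real.sqrt r) ≤ 3.5 * (q ^ 2 * Real.sqrt r) :=
    mul_le_mul_of_nonneg_right (by linarith [Real.pi_lt_d2]) (by positivity)
  rw [e2]
  linarith

end

/-- On almost every circle with small energy there are at least two points and the tree bounds
hold. -/
lemma exists_good (hRad : RadialGoal) (hDel : DeleteGoal) (hTree : TreeGoal) {δ : ℝ}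
    (hδ : 0 < δ) :
    ∃ η > (0 : ℝ), ∃ C ≥ (0 : ℝ), ∀ (u : ℂ → ℝ) (K : Set ℂ) (x : ℂ), Conn u K → x ∈ K →
      ∀ᵐ r : ℝ, 0 < r → ∀ q : ℝ, 0 < q → q ≤ 1 / 4 → C * q < 1 → circEn u x r ≤ q ^ 4 →
        (K ∩ sphere x r).Finite ∧ 2 ≤ (K ∩ sphere x r).ncard ∧
        Len K x r ≤ (cnt K x r + C * q) * r ∧
        (4 ≤ (K ∩ sphere x r).ncard → Len K x r ≤ (cnt K x r - η + C * q) * r) ∧
        ((K ∩ sphere x r).ncard ≤ 3 → δ ≤ ‖∑ᶠ z ∈ K ∩ sphere x r, dir x z‖ →
          Len K x r ≤ (cnt K x r - η + C * q) * r) := by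
  obtain ⟨η, hη, C₁, hT⟩ := hTree δ hδ
  obtain ⟨C₂, hD⟩ := hDel
  refine ⟨η, hη, |C₁| + 20 * |C₂|, by positivity, fun u K x h hx => ?_⟩
  filter_upwards [hT u K x h.reg, hD u K x h.reg, ae_integrable_circle h.reg x,
    ae_finite_sphere hRad h x] with r hrT hrD hint hfin hr q hq hq4 hCq hE
  set C := |C₁| + 20 * |C₂| with hC
  have hf := hfin hr
  have htg : tang u x r ≤ q ^ 4 := by
    have := nor_nonneg u x hr.le
    rw [circEn] at hE
    linarith
  have ht0 := tang_nonneg u x hr.le
  have hq4' : q ^ 4 ≤ q := pow_le_of_le_one hq.le (by linarith) (by norm_num)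
  have hE0 := En_nonneg u x r
  have h1 : 1 ≤ (K ∩ sphere x r).ncard := (Set.ncard_pos hf).2 (exists_mem_sphere h hx hr.le)
  have h2 : 2 ≤ (K ∩ sphere x r).ncard := by
    by_contra hlt
    obtain ⟨z, hz⟩ := Set.ncard_eq_one.1 (show (K ∩ sphere x r).ncard = 1 by omega)
    have hzm : z ∈ K ∩ sphere x r := hz.symm ▸ mem_singleton z
    have hosc := osc_le h.reg hr (hint hr) hz hq htg
    have := hrD hr q (4 * q ^ 2 * Real.sqrt r) {z} ⟨hq, hq4⟩ (Finset.singleton_nonempty z)
      (fun w hw => by rw [Finset.mem_singleton.1 hw]; exact hzm.2) hf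
      (fun w hw => ⟨z, Finset.mem_singleton_self z, by
        rw [hz, mem_singleton_iff] at hw
        rw [hw, sub_self, norm_zero]; positivity⟩)
      (fun a ha b hb _ _ => (hosc a ha b hb).1) (fun a ha b hb _ _ => (hosc a ha b hb).2)
    rw [Finset.card_singleton, Nat.cast_one, mul_one] at this
    have hb : C₂ * (q * r + (4 * q ^ 2 * Real.sqrt r) ^ 2 / q + r * tang u x r / q) ≤
        |C₂| * (18 * q * r) := by
      refine mul_le_mul (le_abs_self _) ?_ (by positivity) (abs_nonneg _)
      have e1 : (4 * q ^ 2 * Real.sqrt r) ^ 2 / q = 16 * q ^ 3 * r := by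
        rw [mul_pow, Real.sq_sqrt hr.le]
        field_simp
        ring
      have e2 : r * tang u x r / q ≤ r * q := by
        rw [div_le_iff₀ hq]
        have : tang u x r ≤ q * q := htg.trans (by nlinarith [mul_le_mul hq4 hq4 hq.le (by norm_num)])
        nlinarith
      have e3 : q ^ 3 * r ≤ q * r :=
        mul_le_mul_of_nonneg_right (pow_le_of_le_one hq.le (by linarith) (by norm_num)) hr.le
      rw [e1]
      linarith
    have hl := le_Len hRad h hx hr
    have : C * q * r < 1 * r := mul_lt_mul_of_pos_right hCq hr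
    nlinarith [abs_nonneg C₁, abs_nonneg C₂, mul_nonneg (abs_nonneg C₁) (mul_nonneg hq.le hr.le),
      mul_nonneg (abs_nonneg C₂) (mul_nonneg hq.le hr.le)]
  obtain ⟨hA, hB, hBal⟩ := hrT hr hf h2
  have hCt : C₁ * tang u x r ≤ C * q := by
    calc C₁ * tang u x r ≤ |C₁| * q :=
          mul_le_mul (le_abs_self _) (htg.trans hq4') ht0 (abs_nonneg _)
      _ ≤ C * q := mul_le_mul_of_nonneg_right (by simp [hC]) hq.le
  have hmul := mul_le_mul_of_nonneg_right hCt hr.le
  refine ⟨hf, h2, ?_, fun h4 => ?_, fun h3 hd => ?_⟩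
  · rw [cnt]; nlinarith
  · have := hB h4
    have hmin : min (((K ∩ sphere x r).ncard : ℝ) - η) (13 / 2) * r ≤
        (((K ∩ sphere x r).ncard : ℝ) - η) * r :=
      mul_le_mul_of_nonneg_right (min_le_left _ _) hr.le
    rw [cnt]; nlinarith
  · have := hBal h3 hd
    rw [cnt]; nlinarith

end Vale.Agent.P128.Bonnet
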