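import Vale.Agent.P128.Bonnet.Defs

/-!
# Classification of global minimisers: module statements
-/

namespace Vale.Agent.P128.Bonnet

open MeasureTheory Filter Metric Set Islands Connected
open scoped Topology ENNReal NNReal

/-- Polar coordinates for the energy. -/
def PolarGoal : Prop :=
  ∀ (u : ℂ → ℝ) (K : Set ℂ) (x : ℂ), Reg u K →
    (∀ r, 0 ≤ r → IntegrableOn (fun s => tang u x s + nor u x s) (Ioc 0 r)) ∧
    ∀ r, 0 ≤ r → En u x r = ∫ s in Ioc 0 r, (tang u x s + nor u x s)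

/-- Circles and length: the number of points on circles is at most the length, almost every
circle has finitely many, and when the two agree connected parts are radial. -/
def RadialGoal : Prop :=
  ∀ (K : Set ℂ) (x : ℂ) (a b : ℝ), IsClosed K → (∀ R, ConePieces (K ∩ ball 0 R)) →
    (∀ R, Measure.hausdorffMeasure 1 (K ∩ ball 0 R) ≠ ⊤) → 0 ≤ a → a < b →
    (∀ᵐ r : ℝ, r ∈ Ioo a b → (K ∩ sphere x r).Finite) ∧
    IntegrableOn (fun r => ((K ∩ sphere x r).ncard : ℝ)) (Ioo a b) ∧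
    (∫ r in Ioo a b, ((K ∩ sphere x r).ncard : ℝ)) ≤
      (Measure.hausdorffMeasure 1 (K ∩ (closedBall x b \ ball x a))).toReal ∧
    ∀ S ⊆ K ∩ (closedBall x b \ ball x a), IsPreconnected S → ∀ y ∈ S, ∀ z ∈ S,
      a * ‖dir x y - dir x z‖ ≤ 2 * Real.sqrt
        ((Measure.hausdorffMeasure 1 (K ∩ (closedBall x b \ ball x a))).toReal *
          ((Measure.hausdorffMeasure 1 (K ∩ (closedBall x b \ ball x a))).toReal -
            ∫ r in Ioo a b, ((K ∩ sphere x r).ncard : ℝ)))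

/-- Circles through the singular set: the monotonicity inequality with its deficit. -/
def DeficitGoal : Prop :=
  ∀ (u : ℂ → ℝ) (K : Set ℂ) (x : ℂ), Conn u K → x ∈ K →
    ∀ᵐ r : ℝ, 0 < r → En u x r / r ≤ tang u x r + nor u x r ∧
      ∀ z ∈ K ∩ sphere x r,
        tang u x r + nor u x r - 4 * (tang u x r + nor u x r - En u x r / r) ≤
          stress u x r (-dir x z) ∧
        |tang u x r - nor u x r| ≤ 4 * Real.sqrt
          ((tang u x r + nor u x r) * (tang u x r + nor u x r - En u x r / r)) ∧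
        ∀ w ∈ K ∩ sphere x r, ∀ δ ∈ Icc (0 : ℝ) 1, δ * r ≤ ‖w - z‖ →
          En u x r / r ≤ (1 - δ / (2 * Real.pi)) * (tang u x r + nor u x r)

/-- The energy divided by the radius increases. -/
def MonotoneGoal : Prop :=
  ∀ (u : ℂ → ℝ) (K : Set ℂ) (x : ℂ), Conn u K → x ∈ K →
    MonotoneOn (fun r => En u x r / r) (Ioi 0)

/-- One radius as competitor, when the singular set meets the circle in a small arc only. -/
def SpokeGoal : Prop :=
  ∀ (u : ℂ → ℝ) (K : Set ℂ) (x : ℂ), Reg u K →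
    ∀ᵐ r : ℝ, 0 < r → ∀ z ∈ sphere x r, ∀ δ ∈ Ioc (0 : ℝ) (1 / 4),
      (K ∩ sphere x r).Finite → (∀ w ∈ K ∩ sphere x r, ‖w - z‖ ≤ δ * r) →
      Len K x r + En u x r ≤ (1 + 10 * δ + 2 * tang u x r) * r

/-- Small arcs as competitor, when `u` nearly agrees on the rest of the circle and at most one of
the regions there is unbounded. -/
def DeleteGoal : Prop :=
  ∃ C : ℝ, ∀ (u : ℂ → ℝ) (K : Set ℂ) (x : ℂ), Reg u K →
    ∀ᵐ r : ℝ, 0 < r → ∀ (δ J : ℝ) (Z : Finset ℂ), δ ∈ Ioc (0 : ℝ) (1 / 4) → Z.Nonempty →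
      (∀ z ∈ Z, z ∈ sphere x r) → (K ∩ sphere x r).Finite →
      (∀ w ∈ K ∩ sphere x r, ∃ z ∈ Z, ‖w - z‖ ≤ δ * r) →
      (∀ a ∈ sphere x r \ K, ∀ b ∈ sphere x r \ K, (∀ z ∈ Z, δ * r ≤ ‖a - z‖) →
        (∀ z ∈ Z, δ * r ≤ ‖b - z‖) → |u a - u b| ≤ J) →
      (∀ a ∈ sphere x r \ K, ∀ b ∈ sphere x r \ K,
        ¬ Bornology.IsBounded (connectedComponentIn Kᶜ a) →
        ¬ Bornology.IsBounded (connectedComponentIn Kᶜ b) → b ∈ connectedComponentIn Kᶜ a) →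
      Len K x r + En u x r ≤ C * Z.card * (δ * r + J ^ 2 / δ + r * tang u x r / δ)

/-- Trees as competitors. -/
def TreeGoal : Prop :=
  ∀ δ > (0 : ℝ), ∃ η > (0 : ℝ), ∃ C : ℝ, ∀ (u : ℂ → ℝ) (K : Set ℂ) (x : ℂ), Reg u K →
    ∀ᵐ r : ℝ, 0 < r → (K ∩ sphere x r).Finite → 2 ≤ (K ∩ sphere x r).ncard →
      Len K x r + En u x r ≤ (((K ∩ sphere x r).ncard : ℝ) + C * tang u x r) * r ∧
      (4 ≤ (K ∩ sphere x r).ncard →
        Len K x r + En u x r ≤
          (min (((K ∩ sphere x r).ncard : ℝ) - η) (13 / 2) + C * tang u x r) * r) ∧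
      ((K ∩ sphere x r).ncard ≤ 3 → δ ≤ ‖∑ᶠ z ∈ K ∩ sphere x r, dir x z‖ →
        Len K x r + En u x r ≤ (((K ∩ sphere x r).ncard : ℝ) - η + C * tang u x r) * r)

/-- Where the energy is small the density of length is close to two or three. -/
def GrowthGoal : Prop :=
  ∀ δ > (0 : ℝ), ∃ ε > (0 : ℝ), ∃ Λ > (1 : ℝ), ∀ (u : ℂ → ℝ) (K : Set ℂ) (x : ℂ) (σ : ℝ),
    Conn u K → x ∈ K → 0 < σ → (∀ s ∈ Ioc 0 (Λ * σ), En u x s ≤ ε * s) →
    (∀ s ∈ Ioc 0 σ, (2 - δ) * s ≤ Len K x s ∧ Len K x s ≤ (3 + δ) * s) ∧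
    ∀ s ∈ Ioc 0 σ, (2 + δ) * s ≤ Len K x s →
      ∀ t ∈ Icc (Λ * s) σ, (3 - δ) * t ≤ Len K x t

/-- Where density and energy are almost those of a line or a propeller, so is the set. -/
def StarGoal : Prop :=
  ∀ δ > (0 : ℝ), ∃ ε > (0 : ℝ), ∃ Λ > (1 : ℝ), ∀ (u : ℂ → ℝ) (K : Set ℂ) (x : ℂ) (σ : ℝ)
    (k : ℕ), Conn u K → x ∈ K → 0 < σ → (k = 2 ∨ k = 3) →
    (∀ s ∈ Icc (σ / Λ) (Λ * σ), En u x s ≤ ε * s ∧ |Len K x s - k * s| ≤ ε * s) →
    ∃ Ω, IsBalanced Ω k ∧ IsStarNear K x σ δ Ω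

/-- Where the monotone quantity is almost constant and positive it is almost one, and the
length is almost that of a radius. -/
def UnitGoal : Prop :=
  ∀ ε > (0 : ℝ), ∀ l > (0 : ℝ), ∃ η > (0 : ℝ), ∃ Λ > (1 : ℝ),
    ∀ (u : ℂ → ℝ) (K : Set ℂ) (x : ℂ) (r : ℝ), Conn u K → x ∈ K → 0 < r →
      l ≤ En u x r / r → En u x (Λ * r) / (Λ * r) - En u x (r / Λ) / (r / Λ) ≤ η →
      |En u x r / r - 1| ≤ ε ∧ Len K x r ≤ (1 + ε) * r

/-- With constant density one the pair is the crack tip. -/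
def ExactGoal : Prop :=
  ∀ (u : ℂ → ℝ) (K : Set ℂ) (x : ℂ), Conn u K → x ∈ K → (∀ r > (0 : ℝ), En u x r = r) →
    (∀ r > (0 : ℝ), Len K x r ≤ r) → IsCrackTip u K

/-- Without energy the singular set is a line or a propeller. -/
def NoEnergyGoal : Prop :=
  ∀ (u : ℂ → ℝ) (K : Set ℂ), Conn u K → (∀ x r, En u x r = 0) → IsLineOrPropeller K

/-- Two continua whose union does not separate the plane meet in a connected set. -/
def UnicoherentGoal : Prop :=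
  ∀ C D : Set ℂ, IsCompact C → IsCompact D → IsPreconnected C → IsPreconnected D →
    Measure.hausdorffMeasure 1 C ≠ ⊤ → Measure.hausdorffMeasure 1 D ≠ ⊤ →
    IsPreconnected (C ∪ D)ᶜ → IsPreconnected (C ∩ D)

/-- A part hanging at one point has a point of positive energy density. -/
def TipGoal : Prop :=
  ∀ (u : ℂ → ℝ) (K : Set ℂ) (x p : ℂ) (R : ℝ), Conn u K → x ∈ K → 0 < R →
    K ∩ sphere x R = {p} →
    (∀ ε > (0 : ℝ), ∃ r₀ > (0 : ℝ), ∀ y ∈ K ∩ closedBall x R, ∀ s ∈ Ioc 0 r₀,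
      En u y s ≤ ε * s) → False

end Vale.Agent.P128.Bonnet
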