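import Vale.Agent.P128.Bonnet.Interface
import Vale.Agent.P128.Classify.Monotone

/-!
# Singular sets without radial deficit are stars

If almost every circle round `y` meets a connected singular set in at least `k` points and the
length in disks is at most `k` times the radius, the connected parts of the set in annuli are
radial, so it is a star.
-/

namespace Vale.Agent.P128.Bonnet

open MeasureTheory Filter Metric Set Islands Connected
open scoped Topology ENNReal NNReal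

/-- A compact set splits off the component of a point from a closed set that this misses. -/
lemma exists_split_component {X T : Set ℂ} (hX : IsCompact X) (hT : IsClosed T) {z : ℂ}
    (hz : z ∈ X) (h : Disjoint (connectedComponentIn X z) T) :
    ∃ Z, IsClosed Z ∧ z ∈ Z ∧ Z ⊆ X ∧ Disjoint Z T ∧ IsClosed (X \ Z) := by
  have := isCompact_iff_compactSpace.1 hX
  set p : X := ⟨z, hz⟩
  have hT' : IsCompact ((Subtype.val : X → ℂ) ⁻¹' T) :=
    (hT.preimage continuous_subtype_val).isCompact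
  obtain ⟨t, ht⟩ := hT'.elim_finite_subfamily_closed
    (fun s : { s : Set X // IsClopen s ∧ p ∈ s } => (s : Set X)) (fun s => s.2.1.1) (by
      rw [← connectedComponent_eq_iInter_isClopen, eq_empty_iff_forall_notMem]
      rintro q ⟨hq, hqc⟩
      exact disjoint_left.1 h (connectedComponentIn_eq_image hz ▸ mem_image_of_mem _ hqc) hq)
  set Z : Set X := ⋂ i ∈ t, (i : Set X)
  have hZ : IsClopen Z := isClopen_biInter_finset fun i _ => i.2.1
  refine ⟨Subtype.val '' Z, (hZ.isClosed.isCompact.image continuous_subtype_val).isClosed,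
    ⟨p, mem_iInter₂.2 fun i _ => i.2.2, rfl⟩, ?_, ?_, ?_⟩
  · rintro _ ⟨q, -, rfl⟩
    exact q.2
  · rw [disjoint_left]
    rintro _ ⟨q, hq, rfl⟩ hqT
    exact eq_empty_iff_forall_notMem.1 ht q ⟨hqT, hq⟩
  · have e : X \ Subtype.val '' Z = Subtype.val '' Zᶜ := by
      ext q
      constructor
      · rintro ⟨hq, hn⟩
        exact ⟨⟨q, hq⟩, fun hqZ => hn ⟨_, hqZ, rfl⟩, rfl⟩
      · rintro ⟨q', hq', rfl⟩
        exact ⟨q'.2, fun ⟨q'', h1, h2⟩ => hq' (Subtype.ext h2 ▸ h1)⟩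
    rw [e]
    exact (hZ.compl.isClosed.isCompact.image continuous_subtype_val).isClosed

lemma norm_dir {y z : ℂ} (h : z ≠ y) : ‖dir y z‖ = 1 := by
  rw [dir, norm_smul, norm_inv, norm_norm, inv_mul_cancel₀]
  exact norm_ne_zero_iff.2 (sub_ne_zero.2 h)

lemma eq_add_dir (y z : ℂ) : z = y + ‖z - y‖ • dir y z := by
  rcases eq_or_ne z y with h | h
  · simp [h]
  · rw [dir, smul_smul, mul_inv_cancel₀ (norm_ne_zero_iff.2 (sub_ne_zero.2 h)), one_smul]
    ring

lemma dir_add_smul {y ω : ℂ} {t : ℝ} (ht : 0 < t) (hω : ‖ω‖ = 1) : dir y (y + t • ω) = ω := by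
  simp [dir, hω, abs_of_pos ht, ht.ne']

lemma injOn_dir (y : ℂ) (r : ℝ) : InjOn (dir y) (sphere y r) := by
  intro p hp q hq h
  rw [mem_sphere, dist_eq_norm] at hp hq
  rw [eq_add_dir y p, eq_add_dir y q, hp, hq, h]

/-- The part of `K` in a closed annulus. -/
def annulus (K : Set ℂ) (y : ℂ) (a b : ℝ) : Set ℂ := K ∩ (closedBall y b \ ball y a)

lemma isCompact_ring {K : Set ℂ} (hK : IsClosed K) (y : ℂ) (a b : ℝ) :
    IsCompact (annulus K y a b) :=
  ((isCompact_closedBall y b).diff isOpen_ball).inter_left hK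

variable {u : ℂ → ℝ} {K : Set ℂ}

lemma Conn.length_ne_top (h : Conn u K) (y : ℂ) (r : ℝ) :
    Measure.hausdorffMeasure 1 (K ∩ closedBall y r) ≠ ⊤ :=
  ne_top_of_le_ne_top (h.reg.length_ne_top (‖y‖ + r + 1)) (measure_mono
    (inter_subset_inter_right _ fun z hz => by
      rw [mem_closedBall, dist_eq_norm] at hz
      rw [mem_ball_zero_iff]
      linarith [norm_le_norm_add_norm_sub' z y]))

/-- In an annulus every point is joined with one of the two circles. -/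
lemma Conn.exists_join (h : Conn u K) {y : ℂ} (hy : y ∈ K) {a b : ℝ} (ha : 0 < a) {z : ℂ}
    (hz : z ∈ annulus K y a b) :
    ∃ S ⊆ annulus K y a b, IsPreconnected S ∧ z ∈ S ∧ ∃ q ∈ S, dist q y = a ∨ dist q y = b := by
  set X := annulus K y a b
  refine ⟨connectedComponentIn X z, connectedComponentIn_subset _ _,
    isPreconnected_connectedComponentIn, mem_connectedComponentIn hz, ?_⟩
  by_contra hne
  push Not at hne
  obtain ⟨Z, hZc, hzZ, hZX, hZT, hXZ⟩ := exists_split_component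
    (isCompact_ring h.reg.isClosed y a b) (T := sphere y a ∪ sphere y b)
    (isClosed_sphere.union isClosed_sphere) hz (disjoint_left.2 fun q hq hqT => by
      rcases hqT with h' | h'
      exacts [(hne q hq).1 h', (hne q hq).2 h'])
  have hin : ∀ q ∈ Z, a < dist q y ∧ dist q y < b := fun q hq => by
    have h1 := hZX hq
    have h2 := disjoint_left.1 hZT hq
    simp only [mem_union, mem_sphere, not_or] at h2
    have h3 : dist q y ≤ b := h1.2.1
    have h4 : a ≤ dist q y := not_lt.1 h1.2.2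
    exact ⟨lt_of_le_of_ne h4 (Ne.symm h2.1), lt_of_le_of_ne h3 h2.2⟩
  have hcl : IsClosed ((X \ Z) ∪ (K \ (ball y b \ closedBall y a))) :=
    hXZ.union (h.reg.isClosed.sdiff (isOpen_ball.sdiff isClosed_closedBall))
  obtain ⟨q, -, hqZ, hq⟩ := isPreconnected_closed_iff.1 h.connected Z _ hZc hcl
    (fun q hq => by
      by_cases h1 : q ∈ ball y b \ closedBall y a
      · by_cases h2 : q ∈ Z
        · exact Or.inl h2
        · refine Or.inr (Or.inl ⟨⟨hq, ball_subset_closedBall h1.1, fun h' =>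
            h1.2 (ball_subset_closedBall h')⟩, h2⟩)
      · exact Or.inr (Or.inr ⟨hq, h1⟩))
    ⟨z, hz.1, hzZ⟩ ⟨y, hy, Or.inr ⟨hy, fun h' => h'.2 (mem_closedBall_self ha.le)⟩⟩
  rcases hq with hq | hq
  · exact hq.2 hqZ
  · exact hq.2 ⟨mem_ball.2 (hin q hqZ).2, fun h' => not_lt.2 (mem_closedBall.1 h') (hin q hqZ).1⟩

/-- Some connected part of `K` crosses the annulus. -/
lemma Conn.exists_crossing (h : Conn u K) {y : ℂ} (hy : y ∈ K) {a b : ℝ} (ha : 0 < a)
    (hab : a < b) (hfin : (K ∩ sphere y a).Finite) :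
    ∃ S ⊆ annulus K y a b, IsPreconnected S ∧ ∃ p ∈ S, dist p y = a ∧ ∃ q ∈ S, dist q y = b := by
  classical
  set X := annulus K y a b with hX
  by_contra hne
  push Not at hne
  have hpX : ∀ p ∈ hfin.toFinset, p ∈ X := fun p hp => by
    obtain ⟨hpK, hps⟩ := hfin.mem_toFinset.1 hp
    rw [mem_sphere] at hps
    exact ⟨hpK, mem_closedBall.2 (hps ▸ hab.le), fun h' => (mem_ball.1 h').ne hps⟩
  have hsplit : ∀ p : hfin.toFinset, ∃ Z, IsClosed Z ∧ (p : ℂ) ∈ Z ∧ Z ⊆ X ∧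
      Disjoint Z (sphere y b) ∧ IsClosed (X \ Z) := fun p =>
    exists_split_component (isCompact_ring h.reg.isClosed y a b) isClosed_sphere (hpX p p.2)
      (disjoint_left.2 fun q hq hqT => hne _ (connectedComponentIn_subset _ _)
        isPreconnected_connectedComponentIn p (mem_connectedComponentIn (hpX p p.2))
        (mem_sphere.1 (hfin.mem_toFinset.1 p.2).2) q hq (mem_sphere.1 hqT))
  choose Z hZc hpZ hZX hZT hXZ using hsplit
  set U := ⋃ p, Z p
  have hUc : IsClosed U := isClosed_iUnion_of_finite hZc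
  have hXU : IsClosed (X ∩ ⋂ p, X \ Z p) :=
    (isCompact_ring h.reg.isClosed y a b).isClosed.inter (isClosed_iInter hXZ)
  obtain ⟨q, hqK, hq1, hq2⟩ := isPreconnected_closed_iff.1 h.connected
    ((K ∩ closedBall y a) ∪ U) ((X ∩ ⋂ p, X \ Z p) ∪ (K \ ball y b))
    ((h.reg.isClosed.inter isClosed_closedBall).union hUc)
    (hXU.union (h.reg.isClosed.sdiff isOpen_ball))
    (fun q hq => by
      by_cases h1 : q ∈ closedBall y a
      · exact Or.inl (Or.inl ⟨hq, h1⟩)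
      by_cases h2 : q ∈ U
      · exact Or.inl (Or.inr h2)
      by_cases h3 : q ∈ ball y b
      · have hqX : q ∈ X :=
          ⟨hq, ball_subset_closedBall h3, fun h' => h1 (ball_subset_closedBall h')⟩
        exact Or.inr (Or.inl ⟨hqX, mem_iInter.2 fun p =>
          ⟨hqX, fun h' => h2 (mem_iUnion.2 ⟨p, h'⟩)⟩⟩)
      · exact Or.inr (Or.inr ⟨hq, h3⟩))
    ⟨y, hy, Or.inl ⟨hy, mem_closedBall_self ha.le⟩⟩
    (by
      obtain ⟨w, hw, hwb⟩ :=
        Classify.exists_dist_eq h.connected h.unbounded hy (ha.trans hab)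
      exact ⟨w, hw, Or.inr ⟨hw, fun h' => (mem_ball.1 h').ne hwb⟩⟩)
  have hUb : ∀ q ∈ U, q ∈ ball y b := fun q hq => by
    obtain ⟨p, hp⟩ := mem_iUnion.1 hq
    exact mem_ball.2 (lt_of_le_of_ne (mem_closedBall.1 (hZX p hp).2.1)
      fun h' => disjoint_left.1 (hZT p) hp (mem_sphere.2 h'))
  rcases hq2 with ⟨hqX, hqI⟩ | ⟨-, hqb⟩
  · rcases hq1 with ⟨-, hqa⟩ | hqU
    · have hqs : q ∈ hfin.toFinset := hfin.mem_toFinset.2 ⟨hqK, mem_sphere.2
        (le_antisymm (mem_closedBall.1 hqa) (not_lt.1 hqX.2.2))⟩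
      exact (mem_iInter.1 hqI ⟨q, hqs⟩).2 (hpZ ⟨q, hqs⟩)
    · obtain ⟨p, hp⟩ := mem_iUnion.1 hqU
      exact (mem_iInter.1 hqI p).2 hp
  · rcases hq1 with ⟨-, hqa⟩ | hqU
    · exact hqb (closedBall_subset_ball hab hqa)
    · exact hqb (hUb q hqU)

/-- Length in two concentric disks and the number of points on the circles between them. -/
lemma Conn.len_add_integral_le (hR : RadialGoal) (h : Conn u K) (y : ℂ) {a b : ℝ} (ha : 0 ≤ a)
    (hab : a < b) :
    (Measure.hausdorffMeasure 1 (annulus K y a b)).toReal + Len K y a =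
        (Measure.hausdorffMeasure 1 (K ∩ closedBall y b)).toReal ∧
      (∫ r in Ioo a b, ((K ∩ sphere y r).ncard : ℝ)) ≤
        (Measure.hausdorffMeasure 1 (annulus K y a b)).toReal := by
  refine ⟨?_, (hR K y a b h.reg.isClosed h.pieces h.reg.length_ne_top ha hab).2.2.1⟩
  have e := measure_inter_add_sdiff (μ := Measure.hausdorffMeasure 1) (K ∩ closedBall y b)
    (measurableSet_ball (x := y) (ε := a))
  have e1 : (K ∩ closedBall y b) ∩ ball y a = K ∩ ball y a := by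
    rw [inter_assoc, inter_eq_right.2 (ball_subset_closedBall.trans (closedBall_subset_closedBall
      hab.le))]
  rw [e1, inter_sdiff_assoc] at e
  have htop := h.length_ne_top y b
  rw [Len, ← e, ENNReal.toReal_add ?_ ?_, add_comm]
  · rfl
  · exact ne_top_of_le_ne_top htop (e ▸ le_self_add)
  · exact ne_top_of_le_ne_top htop (e ▸ le_add_self)

lemma Conn.closedLen_le (h : Conn u K) (y : ℂ) {b c : ℝ} (hbc : b < c) :
    (Measure.hausdorffMeasure 1 (K ∩ closedBall y b)).toReal ≤ Len K y c :=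
  ENNReal.toReal_mono (ne_top_of_le_ne_top (h.length_ne_top y c)
      (measure_mono (inter_subset_inter_right _ ball_subset_closedBall)))
    (measure_mono (inter_subset_inter_right _ (closedBall_subset_ball hbc)))

lemma integrableOn_count (hR : RadialGoal) (h : Conn u K) (y : ℂ) {a b : ℝ} (ha : 0 ≤ a) :
    IntegrableOn (fun r => ((K ∩ sphere y r).ncard : ℝ)) (Ioo a b) := by
  rcases lt_or_ge a b with hab | hab
  · exact (hR K y a b h.reg.isClosed h.pieces h.reg.length_ne_top ha hab).2.1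
  · simp [Ioo_eq_empty (not_lt.2 hab)]

/-- Growth of the length where the circles meet `K` in at least `k` points. -/
lemma Conn.len_growth (hR : RadialGoal) (h : Conn u K) (y : ℂ) {k : ℕ} {a c : ℝ} (ha : 0 ≤ a)
    (hac : a ≤ c) (hk : ∀ᵐ r : ℝ, r ∈ Ioo a c → k ≤ (K ∩ sphere y r).ncard) :
    Len K y a + k * (c - a) ≤ Len K y c := by
  rcases hac.eq_or_lt with rfl | hac
  · simp
  suffices hb : ∀ b ∈ Ioo a c, Len K y a + k * (b - a) ≤ Len K y c by
    refine le_of_tendsto (x := 𝓝[<] c) (f := fun b => Len K y a + k * (b - a)) ?_ ?_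
    · exact (Continuous.tendsto (by fun_prop) c).mono_left inf_le_left
    · filter_upwards [Ioo_mem_nhdsLT hac] with b hb' using hb b hb'
  intro b hb
  obtain ⟨e, hle⟩ := h.len_add_integral_le hR y ha hb.1
  have hint : (∫ _r in Ioo a b, (k : ℝ)) ≤ ∫ r in Ioo a b, ((K ∩ sphere y r).ncard : ℝ) := by
    refine setIntegral_mono_on_ae (integrableOn_const (by simp)) (integrableOn_count hR h y ha)
      measurableSet_Ioo ?_
    filter_upwards [hk] with r hr hrI
    exact_mod_cast hr ⟨hrI.1, hrI.2.trans hb.2⟩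
  rw [setIntegral_const, Measure.real, Real.volume_Ioo, ENNReal.toReal_ofReal (by linarith [hb.1]),
    smul_eq_mul] at hint
  linarith [h.closedLen_le y hb.2]

/-- Without room for more, almost every circle meets `K` in exactly `k` points. -/
lemma Conn.count_eq (hR : RadialGoal) (h : Conn u K) (y : ℂ) {k : ℕ} {R : ℝ}
    (hk : ∀ᵐ r : ℝ, r ∈ Ioo 0 R → k ≤ (K ∩ sphere y r).ncard)
    (hlen : ∀ r ∈ Ioo 0 R, Len K y r ≤ k * r) :
    (∀ r ∈ Ioo 0 R, Len K y r = k * r) ∧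
      (∀ᵐ r : ℝ, r ∈ Ioo 0 R → (K ∩ sphere y r).ncard = k) ∧
      ∀ a b : ℝ, 0 < a → a < b → b < R →
        (Measure.hausdorffMeasure 1 (annulus K y a b)).toReal ≤
          ∫ r in Ioo a b, ((K ∩ sphere y r).ncard : ℝ) := by
  have hlen0 : Len K y 0 = 0 := by simp [Len]
  have heq : ∀ r ∈ Ioo 0 R, Len K y r = k * r := fun r hr => by
    refine le_antisymm (hlen r hr) ?_
    have := h.len_growth hR y (k := k) le_rfl hr.1.le
      (hk.mono fun s hs hsI => hs ⟨hsI.1, hsI.2.trans hr.2⟩)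
    linarith
  have hclosed : ∀ b ∈ Ioo 0 R,
      (Measure.hausdorffMeasure 1 (K ∩ closedBall y b)).toReal ≤ k * b := by
    intro b hb
    refine ge_of_tendsto (x := 𝓝[>] b) (f := fun c : ℝ => (k : ℝ) * c) ?_ ?_
    · exact (Continuous.tendsto (by fun_prop) b).mono_left inf_le_left
    · filter_upwards [Ioo_mem_nhdsGT hb.2] with c hc
      exact (h.closedLen_le y hc.1).trans (hlen c ⟨hb.1.trans hc.1, hc.2⟩)
  have hcount : ∀ n : ℕ, ∀ᵐ r : ℝ, r ∈ Ioo 0 (R - 1 / ((n : ℝ) + 1)) →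
      (K ∩ sphere y r).ncard = k := by
    intro n
    set b := R - 1 / ((n : ℝ) + 1)
    rcases le_or_gt b 0 with hb | hb
    · exact Eventually.of_forall fun r hr => absurd (hr.1.trans hr.2) (not_lt.2 hb)
    have hbR : b < R := sub_lt_self _ (by positivity)
    obtain ⟨e, hle⟩ := h.len_add_integral_le hR y le_rfl hb
    rw [hlen0, add_zero] at e
    set g := fun r => ((K ∩ sphere y r).ncard : ℝ) - (k : ℝ)
    have hgi : IntegrableOn g (Ioo 0 b) :=
      (integrableOn_count hR h y le_rfl).sub (integrableOn_const (by simp))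
    have hg0 : 0 ≤ᵐ[volume.restrict (Ioo 0 b)] g := by
      rw [EventuallyLE, ae_restrict_iff' measurableSet_Ioo]
      filter_upwards [hk] with r hr hrI
      simp only [Pi.zero_apply, g, sub_nonneg, Nat.cast_le]
      exact hr ⟨hrI.1, hrI.2.trans hbR⟩
    have h0 : ∫ r in Ioo 0 b, g r = 0 := by
      refine le_antisymm ?_ (integral_nonneg_of_ae hg0)
      simp only [g]
      rw [integral_sub (integrableOn_count hR h y le_rfl) (integrableOn_const (by simp)),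
        setIntegral_const, Measure.real, Real.volume_Ioo, sub_zero,
        ENNReal.toReal_ofReal hb.le, smul_eq_mul]
      linarith [hclosed b ⟨hb, hbR⟩]
    filter_upwards [(ae_restrict_iff' measurableSet_Ioo).1
      ((integral_eq_zero_iff_of_nonneg_ae hg0 hgi).1 h0)] with r hr hrI
    have := hr hrI
    simp only [Pi.zero_apply, g, sub_eq_zero, Nat.cast_inj] at this
    exact this
  have hall : ∀ᵐ r : ℝ, r ∈ Ioo 0 R → (K ∩ sphere y r).ncard = k := by
    filter_upwards [ae_all_iff.2 hcount] with r hr hrI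
    obtain ⟨n, hn⟩ := exists_nat_one_div_lt (sub_pos.2 hrI.2)
    exact hr n ⟨hrI.1, by linarith⟩
  refine ⟨heq, hall, fun a b ha hab hb => ?_⟩
  obtain ⟨e, -⟩ := h.len_add_integral_le hR y ha.le hab
  have hint : (∫ r in Ioo a b, ((K ∩ sphere y r).ncard : ℝ)) = k * (b - a) := by
    rw [setIntegral_congr_ae measurableSet_Ioo (g := fun _ => (k : ℝ)), setIntegral_const,
      Measure.real, Real.volume_Ioo, ENNReal.toReal_ofReal (by linarith), smul_eq_mul, mul_comm]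
    filter_upwards [hall] with r hr hrI
    rw [hr ⟨ha.trans hrI.1, hrI.2.trans hb⟩]
  linarith [hclosed b ⟨ha.trans hab, hb⟩, heq a ⟨ha, hab.trans hb⟩]

/-- **Stars.** When almost every circle below `R` meets `K` in the directions of some member of
`Φ`, members with a common direction being equal, and there is no radial deficit, `K` is one star
in the disk. -/
theorem Conn.star_of_radial (hR : RadialGoal) (h : Conn u K) {y : ℂ} (hy : y ∈ K) {k : ℕ}
    (hk0 : 0 < k) {R : ℝ} (hR0 : 0 < R) (Φ : Finset ℂ → Prop)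
    (hΦ : ∀ Ω Ω', Φ Ω → Φ Ω' → (∃ ω, ω ∈ Ω ∧ ω ∈ Ω') → Ω = Ω')
    (hdir : ∀ᵐ r : ℝ, r ∈ Ioo 0 R → (K ∩ sphere y r).ncard = k →
      ∃ Ω, Φ Ω ∧ dir y '' (K ∩ sphere y r) = ↑Ω)
    (hk : ∀ᵐ r : ℝ, r ∈ Ioo 0 R → k ≤ (K ∩ sphere y r).ncard)
    (hlen : ∀ r ∈ Ioo 0 R, Len K y r ≤ k * r) :
    ∃ Ω, Φ Ω ∧ Ω.card = k ∧ (∀ ω ∈ Ω, ‖ω‖ = 1) ∧ K ∩ ball y R = star y Ω ∩ ball y R := by
  classical
  obtain ⟨-, hcount, hdef⟩ := h.count_eq hR y hk hlen
  set good : ℝ → Prop := fun r => r ∈ Ioo 0 R → (K ∩ sphere y r).ncard = k ∧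
    ∃ Ω, Φ Ω ∧ dir y '' (K ∩ sphere y r) = ↑Ω
  have hgood : ∀ᵐ r : ℝ, good r := by
    filter_upwards [hcount, hdir] with r h1 h2 hr using ⟨h1 hr, h2 hr (h1 hr)⟩
  have hpick : ∀ a b : ℝ, 0 ≤ a → a < b → b ≤ R → ∃ r ∈ Ioo a b,
      (K ∩ sphere y r).ncard = k ∧ ∃ Ω, Φ Ω ∧ dir y '' (K ∩ sphere y r) = ↑Ω := by
    intro a b ha hab hb
    have hd : Dense {r : ℝ | good r} := Measure.dense_of_ae hgood
    obtain ⟨r, hrg, hr⟩ := hd.exists_mem_open isOpen_Ioo (nonempty_Ioo.2 hab)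
    exact ⟨r, hr, hrg ⟨ha.trans_lt hr.1, hr.2.trans_le hb⟩⟩
  have hfin : ∀ r, (K ∩ sphere y r).ncard = k → (K ∩ sphere y r).Finite := fun r hr =>
    finite_of_ncard_pos (hr ▸ hk0)
  -- connected parts are radial
  have hrad : ∀ a b, 0 < a → a < b → b < R → ∀ S ⊆ annulus K y a b, IsPreconnected S →
      ∀ p ∈ S, ∀ q ∈ S, dir y p = dir y q := by
    intro a b ha hab hb S hS hSc p hp q hq
    have h1 := (hR K y a b h.reg.isClosed h.pieces h.reg.length_ne_top ha.le hab).2.2.2 S hS hSc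
      p hp q hq
    have h2 : Real.sqrt ((Measure.hausdorffMeasure 1 (annulus K y a b)).toReal *
        ((Measure.hausdorffMeasure 1 (annulus K y a b)).toReal -
          ∫ r in Ioo a b, ((K ∩ sphere y r).ncard : ℝ))) = 0 :=
      Real.sqrt_eq_zero'.2 (mul_nonpos_of_nonneg_of_nonpos ENNReal.toReal_nonneg
        (sub_nonpos.2 (hdef a b ha hab hb)))
    unfold annulus at h2
    rw [h2, mul_zero] at h1
    have h3 : ‖dir y p - dir y q‖ ≤ 0 := nonpos_of_mul_nonpos_right h1 ha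
    exact sub_eq_zero.1 (norm_le_zero_iff.1 h3)
  obtain ⟨r₀, hr₀, hn₀, Ω, hΩ, hΩd⟩ := hpick 0 R le_rfl hR0 le_rfl
  have hsame : ∀ r ∈ Ioo 0 R, (K ∩ sphere y r).ncard = k → ∀ Ω', Φ Ω' →
      dir y '' (K ∩ sphere y r) = ↑Ω' → Ω' = Ω := by
    have main : ∀ a b : ℝ, 0 < a → a < b → b < R → (K ∩ sphere y a).ncard = k → ∀ A B,
        Φ A → Φ B → dir y '' (K ∩ sphere y a) = ↑A → dir y '' (K ∩ sphere y b) = ↑B → A = B := by
      intro a b ha hab hb hna A B hA hB hAd hBd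
      obtain ⟨S, hS, hSc, p, hp, hpa, q, hq, hqb⟩ := h.exists_crossing hy ha hab (hfin a hna)
      refine hΦ A B hA hB ⟨dir y p, ?_, ?_⟩
      · exact Finset.mem_coe.1 (hAd ▸ mem_image_of_mem _ ⟨(hS hp).1, mem_sphere.2 hpa⟩)
      · rw [hrad a b ha hab hb S hS hSc p hp q hq]
        exact Finset.mem_coe.1 (hBd ▸ mem_image_of_mem _ ⟨(hS hq).1, mem_sphere.2 hqb⟩)
    intro r hr hnr Ω' hΩ' hd'
    rcases lt_trichotomy r r₀ with hlt | rfl | hlt
    · exact main r r₀ hr.1 hlt hr₀.2 hnr _ _ hΩ' hΩ hd' hΩd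
    · exact Finset.coe_injective (hd'.symm.trans hΩd)
    · exact (main r₀ r hr₀.1 hlt hr.2 hn₀ _ _ hΩ hΩ' hΩd hd').symm
  have hcard : Ω.card = k := by
    rw [← ncard_coe_finset, ← hΩd, InjOn.ncard_image ((injOn_dir y r₀).mono
      inter_subset_right), hn₀]
  have hunit : ∀ ω ∈ Ω, ‖ω‖ = 1 := fun ω hω => by
    obtain ⟨p, hp, rfl⟩ := hΩd.symm ▸ Finset.mem_coe.2 hω
    refine norm_dir fun e => ?_
    have := mem_sphere.1 hp.2
    rw [e, dist_self] at this
    linarith [hr₀.1]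
  refine ⟨Ω, hΩ, hcard, hunit, Subset.antisymm (fun z hz => ⟨?_, hz.2⟩) (fun z hz => ⟨?_, hz.2⟩)⟩
  · rcases eq_or_ne z y with rfl | hzy
    · obtain ⟨ω, hω⟩ := Finset.card_pos.1 (hcard ▸ hk0)
      exact ⟨ω, hω, 0, le_rfl, by simp⟩
    have hs : 0 < dist z y := dist_pos.2 hzy
    obtain ⟨a, ha, hna, A, hA, hAd⟩ := hpick 0 (dist z y) le_rfl hs (mem_ball.1 hz.2).le
    obtain ⟨b, hb, hnb, B, hB, hBd⟩ := hpick (dist z y) R hs.le (mem_ball.1 hz.2) le_rfl
    obtain ⟨S, hS, hSc, hzS, q, hq, hqd⟩ := h.exists_join hy ha.1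
      (show z ∈ annulus K y a b from ⟨hz.1, mem_closedBall.2 hb.1.le,
        fun h' => (mem_ball.1 h').not_ge ha.2.le⟩)
    have e := hrad a b ha.1 (ha.2.trans hb.1) hb.2 S hS hSc z hzS q hq
    have hAΩ := hsame a ⟨ha.1, ha.2.trans (mem_ball.1 hz.2)⟩ hna A hA hAd
    have hBΩ := hsame b ⟨hs.trans hb.1, hb.2⟩ hnb B hB hBd
    refine ⟨dir y z, ?_, ‖z - y‖, norm_nonneg _, eq_add_dir y z⟩
    rw [e]
    rcases hqd with hqd | hqd
    · exact hAΩ ▸ Finset.mem_coe.1 (hAd ▸ mem_image_of_mem _ ⟨(hS hq).1, mem_sphere.2 hqd⟩)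
    · exact hBΩ ▸ Finset.mem_coe.1 (hBd ▸ mem_image_of_mem _ ⟨(hS hq).1, mem_sphere.2 hqd⟩)
  · obtain ⟨ω, hω, t, ht, rfl⟩ := hz.1
    rcases ht.eq_or_lt with rfl | ht'
    · simpa using hy
    have htR : t < R := by
      have := mem_ball.1 hz.2
      simpa [dist_eq_norm, norm_smul, hunit ω hω, abs_of_pos ht'] using this
    by_contra hzK
    have ho : IsOpen ((fun s : ℝ => y + s • ω) ⁻¹' Kᶜ) :=
      h.reg.isClosed.isOpen_compl.preimage (by fun_prop)
    obtain ⟨ε, hε, hball⟩ := Metric.isOpen_iff.1 ho t hzK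
    obtain ⟨r, hr, hnr, Ω', hΩ', hd'⟩ := hpick (max 0 (t - ε)) t (le_max_left _ _)
      (max_lt ht' (by linarith)) htR.le
    have hr0 : 0 < r := (le_max_left _ _).trans_lt hr.1
    obtain rfl := hsame r ⟨hr0, hr.2.trans htR⟩ hnr Ω' hΩ' hd'
    obtain ⟨p, hp, hpd⟩ := hd'.symm ▸ Finset.mem_coe.2 hω
    refine hball (show r ∈ ball t ε from ?_) ?_
    · rw [Real.ball_eq_Ioo]
      exact ⟨(le_max_right _ _).trans_lt hr.1, by linarith [hr.2]⟩
    · have hps := mem_sphere.1 hp.2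
      rw [dist_eq_norm] at hps
      show y + r • ω ∈ K
      rw [← hpd, ← hps, ← eq_add_dir]
      exact hp.1

/-- The same for all radii. -/
theorem Conn.eq_star_of_radial (hR : RadialGoal) (h : Conn u K) {y : ℂ} (hy : y ∈ K) {k : ℕ}
    (hk0 : 0 < k) (Φ : Finset ℂ → Prop)
    (hΦ : ∀ Ω Ω', Φ Ω → Φ Ω' → (∃ ω, ω ∈ Ω ∧ ω ∈ Ω') → Ω = Ω')
    (hdir : ∀ᵐ r : ℝ, 0 < r → (K ∩ sphere y r).ncard = k →
      ∃ Ω, Φ Ω ∧ dir y '' (K ∩ sphere y r) = ↑Ω)
    (hk : ∀ᵐ r : ℝ, 0 < r → k ≤ (K ∩ sphere y r).ncard)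
    (hlen : ∀ r > (0 : ℝ), Len K y r ≤ k * r) :
    ∃ Ω, Φ Ω ∧ Ω.card = k ∧ (∀ ω ∈ Ω, ‖ω‖ = 1) ∧ K = star y Ω := by
  classical
  have main : ∀ R > (0 : ℝ), ∃ Ω, Φ Ω ∧ Ω.card = k ∧ (∀ ω ∈ Ω, ‖ω‖ = 1) ∧
      K ∩ ball y R = star y Ω ∩ ball y R := fun R hR0 =>
    h.star_of_radial hR hy hk0 hR0 Φ hΦ (hdir.mono fun r hr hI => hr hI.1)
      (hk.mono fun r hr hI => hr hI.1) (fun r hr => hlen r hr.1)
  obtain ⟨Ω, hΩ, hc, hu, hΩK⟩ := main 1 one_pos
  refine ⟨Ω, hΩ, hc, hu, ?_⟩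
  ext z
  obtain ⟨R, hR1, hzR⟩ : ∃ R : ℝ, 1 ≤ R ∧ z ∈ ball y R :=
    ⟨dist z y + 1, by linarith [dist_nonneg (x := z) (y := y)], mem_ball.2 (lt_add_one _)⟩
  obtain ⟨Ω', hΩ', -, hu', hΩ'K⟩ := main R (by linarith)
  suffices e : Ω' = Ω by
    subst e
    exact ⟨fun hz => ((Set.ext_iff.1 hΩ'K z).1 ⟨hz, hzR⟩).1,
      fun hz => ((Set.ext_iff.1 hΩ'K z).2 ⟨hz, hzR⟩).1⟩
  obtain ⟨ω, hω⟩ := Finset.card_pos.1 (hc ▸ hk0)
  have hmem : y + (1 / 2 : ℝ) • ω ∈ ball y 1 := by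
    norm_num [dist_eq_norm, norm_smul, hu ω hω]
  have hK' : y + (1 / 2 : ℝ) • ω ∈ K :=
    ((Set.ext_iff.1 hΩK _).2 ⟨⟨ω, hω, 1 / 2, by norm_num, rfl⟩, hmem⟩).1
  obtain ⟨ω', hω', t, ht, e⟩ :=
    ((Set.ext_iff.1 hΩ'K _).1 ⟨hK', ball_subset_ball hR1 hmem⟩).1
  have e' : (1 / 2 : ℝ) • ω = t • ω' := add_left_cancel e
  have ht2 : t = 1 / 2 := by
    have := congrArg norm e'
    rw [norm_smul, norm_smul, hu ω hω, hu' ω' hω', Real.norm_of_nonneg ht,
      Real.norm_of_nonneg (by norm_num : (0:ℝ) ≤ 1 / 2)] at this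
    linarith
  subst ht2
  refine (hΦ Ω Ω' hΩ hΩ' ⟨ω, hω, ?_⟩).symm
  rw [smul_right_injective ℂ (by norm_num : (1 / 2 : ℝ) ≠ 0) e']
  exact hω'

end Vale.Agent.P128.Bonnet
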